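import Mathlib

open scoped BigOperators ENNReal

namespace Vale.Agent.P249

namespace BernAux

/-- expectation over the random subset of `s` in which each `l` is present with probability `q l` -/
noncomputable def bE {L : Type} [DecidableEq L] (q : L → ℝ) (s : Finset L)
    (F : Finset L → ℝ) : ℝ :=
  ∑ T ∈ s.powerset, (∏ l ∈ T, q l) * (∏ l ∈ s \ T, (1 - q l)) * F T

section

variable {L : Type} [DecidableEq L] {q : L → ℝ}

theorem bE_empty (F : Finset L → ℝ) : bE q ∅ F = F ∅ := by
  simp [bE]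

theorem bE_insert {s : Finset L} {a : L} (ha : a ∉ s) (F : Finset L → ℝ) :
    bE q (insert a s) F = (1 - q a) * bE q s F + q a * bE q s (fun T => F (insert a T)) := by
  unfold bE
  rw [Finset.sum_powerset_insert ha, Finset.mul_sum, Finset.mul_sum]
  congr 1
  · refine Finset.sum_congr rfl fun T hT => ?_
    have hT' := Finset.mem_powerset.1 hT
    have haT : a ∉ T := fun h => ha (hT' h)
    have e : insert a s \ T = insert a (s \ T) := by
      ext i
      simp only [Finset.mem_sdiff, Finset.mem_insert]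
      constructor
      · rintro ⟨h | h, h2⟩
        · exact Or.inl h
        · exact Or.inr ⟨h, h2⟩
      · rintro (h | ⟨h, h2⟩)
        · subst h; exact ⟨Or.inl rfl, haT⟩
        · exact ⟨Or.inr h, h2⟩
    rw [e, Finset.prod_insert (by simp [ha])]
    ring
  · refine Finset.sum_congr rfl fun T hT => ?_
    have hT' := Finset.mem_powerset.1 hT
    have haT : a ∉ T := fun h => ha (hT' h)
    have e : insert a s \ insert a T = s \ T := by
      ext i
      simp only [Finset.mem_sdiff, Finset.mem_insert, not_or]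
      constructor
      · rintro ⟨h | h, h2, h3⟩
        · exact absurd h h2
        · exact ⟨h, h3⟩
      · rintro ⟨h, h2⟩
        exact ⟨Or.inr h, fun h3 => ha (h3 ▸ h), h2⟩
    rw [e, Finset.prod_insert haT]
    ring

theorem bE_congr {s : Finset L} {F F' : Finset L → ℝ} (h : ∀ T ⊆ s, F T = F' T) :
    bE q s F = bE q s F' := by
  unfold bE
  refine Finset.sum_congr rfl fun T hT => ?_
  rw [h T (Finset.mem_powerset.1 hT)]

theorem bW_nonneg (hq : ∀ l, 0 < q l) (hq1 : ∀ l, q l ≤ 1) (s T : Finset L) :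
    0 ≤ (∏ l ∈ T, q l) * (∏ l ∈ s \ T, (1 - q l)) :=
  mul_nonneg (Finset.prod_nonneg fun l _ => (hq l).le)
    (Finset.prod_nonneg fun l _ => by linarith [hq1 l])

theorem bE_mono (hq : ∀ l, 0 < q l) (hq1 : ∀ l, q l ≤ 1) {s : Finset L}
    {F F' : Finset L → ℝ} (h : ∀ T ⊆ s, F T ≤ F' T) : bE q s F ≤ bE q s F' := by
  unfold bE
  refine Finset.sum_le_sum fun T hT => ?_
  exact mul_le_mul_of_nonneg_left (h T (Finset.mem_powerset.1 hT)) (bW_nonneg hq hq1 s T)

theorem bE_nonneg (hq : ∀ l, 0 < q l) (hq1 : ∀ l, q l ≤ 1) {s : Finset L}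
    {F : Finset L → ℝ} (h : ∀ T, 0 ≤ F T) : 0 ≤ bE q s F := by
  unfold bE
  exact Finset.sum_nonneg fun T _ => mul_nonneg (bW_nonneg hq hq1 s T) (h T)

theorem bE_add (s : Finset L) (F F' : Finset L → ℝ) :
    bE q s (fun T => F T + F' T) = bE q s F + bE q s F' := by
  unfold bE
  rw [← Finset.sum_add_distrib]
  refine Finset.sum_congr rfl fun T _ => ?_
  ring

theorem bE_mul (s : Finset L) (c : ℝ) (F : Finset L → ℝ) :
    bE q s (fun T => c * F T) = c * bE q s F := by
  unfold bE
  rw [Finset.mul_sum]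
  refine Finset.sum_congr rfl fun T _ => ?_
  ring

theorem bE_sum {ι : Type*} (I : Finset ι) (s : Finset L) (F : ι → Finset L → ℝ) :
    bE q s (fun T => ∑ i ∈ I, F i T) = ∑ i ∈ I, bE q s (F i) := by
  unfold bE
  rw [Finset.sum_comm]
  refine Finset.sum_congr rfl fun T _ => ?_
  rw [Finset.mul_sum]

theorem bE_const (s : Finset L) (c : ℝ) : bE q s (fun _ => c) = c := by
  induction s using Finset.induction_on with
  | empty => rw [bE_empty]
  | insert a s ha ih => rw [bE_insert ha, ih]; ring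

end

/-- `|a + b|^P ≤ C |a|^P + (1 + η) |b|^P` -/
theorem split (P : ℝ) (hP : 1 ≤ P) (η : ℝ) (hη : 0 < η) :
    ∃ C : ℝ, 1 ≤ C ∧ ∀ a b : ℝ, |a + b| ^ P ≤ C * |a| ^ P + (1 + η) * |b| ^ P := by
  have hcont : ContinuousAt (fun t : ℝ => (1 - t) ^ (1 - P)) 0 := by
    refine ContinuousAt.rpow_const ?_ (Or.inl (by norm_num))
    fun_prop
  have hev : ∀ᶠ t in nhds (0 : ℝ), (1 - t) ^ (1 - P) < 1 + η := by
    refine hcont.eventually_lt continuousAt_const ?_
    simp [hη]
  obtain ⟨ε, hε, hball⟩ := Metric.eventually_nhds_iff.1 hev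
  set t : ℝ := min (ε / 2) (1 / 2) with ht
  have ht0 : 0 < t := lt_min (by linarith) (by norm_num)
  have ht1 : t ≤ 1 / 2 := min_le_right _ _
  have htε : (1 - t) ^ (1 - P) < 1 + η := by
    apply hball
    rw [Real.dist_eq, sub_zero, abs_of_pos ht0]
    have : t ≤ ε / 2 := min_le_left _ _
    linarith
  refine ⟨t ^ (1 - P), ?_, fun a b => ?_⟩
  · exact Real.one_le_rpow_of_pos_of_le_one_of_nonpos ht0 (by linarith) (by linarith)
  · have h1t : 0 < 1 - t := by linarith
    have hconv := (convexOn_rpow hP).2 (x := |a| / t) (y := |b| / (1 - t))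
      (Set.mem_Ici.2 (by positivity)) (Set.mem_Ici.2 (by positivity)) ht0.le h1t.le (by ring)
    simp only [smul_eq_mul] at hconv
    have e1 : t * (|a| / t) + (1 - t) * (|b| / (1 - t)) = |a| + |b| := by
      field_simp
    have e2 : t * (|a| / t) ^ P = t ^ (1 - P) * |a| ^ P := by
      rw [Real.div_rpow (abs_nonneg _) ht0.le, Real.rpow_sub ht0, Real.rpow_one]
      ring
    have e3 : (1 - t) * (|b| / (1 - t)) ^ P = (1 - t) ^ (1 - P) * |b| ^ P := by
      rw [Real.div_rpow (abs_nonneg _) h1t.le, Real.rpow_sub h1t, Real.rpow_one]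
      ring
    rw [e1, e2, e3] at hconv
    have h2 : |a + b| ^ P ≤ (|a| + |b|) ^ P :=
      Real.rpow_le_rpow (abs_nonneg _) (abs_add_le _ _) (by linarith)
    have h3 : (1 - t) ^ (1 - P) * |b| ^ P ≤ (1 + η) * |b| ^ P :=
      mul_le_mul_of_nonneg_right htε.le (Real.rpow_nonneg (abs_nonneg _) _)
    linarith

section

variable {L : Type} [DecidableEq L] {q : L → ℝ} {P : ℝ} {u : L → ℝ} {A : Finset L}

theorem abs_scaled (hP : 1 ≤ P) {c : ℝ} (hc : 0 < c) (v : ℝ) :
    c * |c ^ (-1 / P) * v| ^ P = |v| ^ P := by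
  have hP0 : P ≠ 0 := by linarith
  rw [abs_mul, Real.mul_rpow (abs_nonneg _) (abs_nonneg _), abs_of_pos (Real.rpow_pos_of_pos hc _),
    ← Real.rpow_mul hc.le, div_mul_cancel₀ _ hP0, Real.rpow_neg_one, ← mul_assoc,
    mul_inv_cancel₀ hc.ne', one_mul]

theorem sum_insert_comm {s T : Finset L} {a : L} (ha : a ∉ s) (hT : T ⊆ s) :
    ∑ l ∈ insert a T, q l ^ (-1 / P) * u l =
      ∑ l ∈ T, q l ^ (-1 / P) * u l + q a ^ (-1 / P) * u a := by
  rw [Finset.sum_insert fun h => ha (hT h), add_comm]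

theorem zero_abs_rpow (hP : 1 ≤ P) : |(0 : ℝ)| ^ P = 0 := by
  rw [abs_zero, Real.zero_rpow (by linarith)]

theorem upper (hP : 1 ≤ P) {η C : ℝ} (hη : 0 < η) (hC : 1 ≤ C)
    (hsplit : ∀ a b : ℝ, |a + b| ^ P ≤ C * |a| ^ P + (1 + η) * |b| ^ P)
    (hq : ∀ l, 0 < q l) (hq1 : ∀ l, q l ≤ 1) (hA : ∀ l, l ∉ A → u l = 0) (s : Finset L) :
    bE q s (fun T => |∑ l ∈ T, q l ^ (-1 / P) * u l| ^ P) ≤
      (1 + η) * (∏ l ∈ s with l ∈ A, (1 + C * q l)) * ∑ l ∈ s, |u l| ^ P := by
  induction s using Finset.induction_on with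
  | empty => rw [bE_empty]; simp [Real.zero_rpow (show P ≠ 0 by linarith)]
  | insert a s ha ih =>
    rw [bE_insert ha, Finset.sum_insert ha]
    have hcg : bE q s (fun T => |∑ l ∈ insert a T, q l ^ (-1 / P) * u l| ^ P) =
        bE q s (fun T => |∑ l ∈ T, q l ^ (-1 / P) * u l + q a ^ (-1 / P) * u a| ^ P) :=
      bE_congr fun T hT => by rw [sum_insert_comm ha hT]
    rw [hcg]
    set E := bE q s (fun T => |∑ l ∈ T, q l ^ (-1 / P) * u l| ^ P) with hE
    have hE0 : 0 ≤ E := bE_nonneg hq hq1 fun T => Real.rpow_nonneg (abs_nonneg _) _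
    have hS0 : 0 ≤ ∑ l ∈ s, |u l| ^ P :=
      Finset.sum_nonneg fun l _ => Real.rpow_nonneg (abs_nonneg _) _
    have hprod : 1 ≤ ∏ l ∈ s with l ∈ A, (1 + C * q l) := by
      calc (1 : ℝ) = ∏ l ∈ s with l ∈ A, 1 := by simp
        _ ≤ _ := Finset.prod_le_prod (fun _ _ => zero_le_one) fun l _ => by
            have := mul_pos (by linarith : (0:ℝ) < C) (hq l)
            linarith
    by_cases haA : a ∈ A
    · have h1 : bE q s (fun T => |∑ l ∈ T, q l ^ (-1 / P) * u l + q a ^ (-1 / P) * u a| ^ P) ≤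
          C * E + (1 + η) * |q a ^ (-1 / P) * u a| ^ P := by
        calc _ ≤ bE q s (fun T => C * |∑ l ∈ T, q l ^ (-1 / P) * u l| ^ P +
              (1 + η) * |q a ^ (-1 / P) * u a| ^ P) := bE_mono hq hq1 fun T _ => hsplit _ _
          _ = _ := by rw [bE_add, bE_mul, bE_const]
      have h2 := mul_le_mul_of_nonneg_left h1 (hq a).le
      have h3 := abs_scaled hP (hq a) (u a)
      have h4 : q a * (C * E + (1 + η) * |q a ^ (-1 / P) * u a| ^ P) =
          q a * C * E + (1 + η) * |u a| ^ P := by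
        rw [← h3]; ring
      rw [h4] at h2
      have hfil : (insert a s).filter (fun l => l ∈ A) = insert a (s.filter fun l => l ∈ A) := by
        rw [Finset.filter_insert, if_pos haA]
      rw [hfil, Finset.prod_insert (by simp [ha])]
      set Pi0 := ∏ l ∈ s with l ∈ A, (1 + C * q l)
      set S := ∑ l ∈ s, |u l| ^ P
      have hua : 0 ≤ |u a| ^ P := Real.rpow_nonneg (abs_nonneg _) _
      have hCq : 0 ≤ C * q a := mul_nonneg (by linarith) (hq a).le
      have h5 : (1 - q a) * E + (q a * C * E) ≤ (1 + C * q a) * E := by nlinarith [(hq a).le]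
      have h6 : (1 + C * q a) * E ≤ (1 + C * q a) * ((1 + η) * Pi0 * S) :=
        mul_le_mul_of_nonneg_left ih (by linarith)
      have h7 : (1 + η) * |u a| ^ P ≤ (1 + C * q a) * ((1 + η) * Pi0 * |u a| ^ P) := by
        have h8 : 1 ≤ (1 + C * q a) * Pi0 := by nlinarith
        have h9 : 0 ≤ (1 + η) * |u a| ^ P := mul_nonneg (by linarith) hua
        calc (1 + η) * |u a| ^ P = 1 * ((1 + η) * |u a| ^ P) := by ring
          _ ≤ ((1 + C * q a) * Pi0) * ((1 + η) * |u a| ^ P) := mul_le_mul_of_nonneg_right h8 h9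
          _ = _ := by ring
      calc (1 - q a) * E + q a * _ ≤ (1 - q a) * E + (q a * C * E + (1 + η) * |u a| ^ P) := by
            linarith
        _ ≤ (1 + C * q a) * ((1 + η) * Pi0 * S) + (1 + C * q a) * ((1 + η) * Pi0 * |u a| ^ P) := by
            linarith
        _ = _ := by ring
    · have hu : u a = 0 := hA a haA
      have hfil : (insert a s).filter (fun l => l ∈ A) = s.filter fun l => l ∈ A := by
        rw [Finset.filter_insert, if_neg haA]
      rw [hfil, hu]
      simp only [mul_zero, add_zero]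
      rw [zero_abs_rpow hP, zero_add, ← hE]
      calc (1 - q a) * E + q a * E = E := by ring
        _ ≤ _ := ih

theorem low1 (hq : ∀ l, 0 < q l) (hq1 : ∀ l, q l ≤ 1)
    (hA : ∀ l, l ∉ A → u l = 0) (s : Finset L) : ∀ c : ℝ,
    (∏ l ∈ s with l ∈ A, (1 - q l)) * |c| ^ P ≤
      bE q s (fun T => |∑ l ∈ T, q l ^ (-1 / P) * u l + c| ^ P) := by
  induction s using Finset.induction_on with
  | empty => intro c; rw [bE_empty]; simp
  | insert a s ha ih =>
    intro c
    rw [bE_insert ha]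
    have hcg : bE q s (fun T => |∑ l ∈ insert a T, q l ^ (-1 / P) * u l + c| ^ P) =
        bE q s (fun T => |∑ l ∈ T, q l ^ (-1 / P) * u l + (q a ^ (-1 / P) * u a + c)| ^ P) :=
      bE_congr fun T hT => by rw [sum_insert_comm ha hT, add_assoc]
    rw [hcg]
    by_cases haA : a ∈ A
    · have hfil : (insert a s).filter (fun l => l ∈ A) = insert a (s.filter fun l => l ∈ A) := by
        rw [Finset.filter_insert, if_pos haA]
      rw [hfil, Finset.prod_insert (by simp [ha])]
      have h1 := mul_le_mul_of_nonneg_left (ih c) (show 0 ≤ 1 - q a by linarith [hq1 a])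
      have h2 : 0 ≤ q a * bE q s
          (fun T => |∑ l ∈ T, q l ^ (-1 / P) * u l + (q a ^ (-1 / P) * u a + c)| ^ P) :=
        mul_nonneg (hq a).le (bE_nonneg hq hq1 fun T => Real.rpow_nonneg (abs_nonneg _) _)
      calc _ = (1 - q a) * ((∏ l ∈ s with l ∈ A, (1 - q l)) * |c| ^ P) := by ring
        _ ≤ _ := by linarith
    · have hfil : (insert a s).filter (fun l => l ∈ A) = s.filter fun l => l ∈ A := by
        rw [Finset.filter_insert, if_neg haA]
      rw [hfil, hA a haA]
      simp only [mul_zero, zero_add]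
      have := ih c
      linarith

theorem low2 (hP : 1 ≤ P) (hq : ∀ l, 0 < q l) (hq1 : ∀ l, q l ≤ 1)
    (hA : ∀ l, l ∉ A → u l = 0) (s : Finset L) :
    (∏ l ∈ s with l ∈ A, (1 - q l)) * ∑ l ∈ s, |u l| ^ P ≤
      bE q s (fun T => |∑ l ∈ T, q l ^ (-1 / P) * u l| ^ P) := by
  induction s using Finset.induction_on with
  | empty => rw [bE_empty]; simp [Real.zero_rpow (show P ≠ 0 by linarith)]
  | insert a s ha ih =>
    rw [bE_insert ha, Finset.sum_insert ha]
    have hcg : bE q s (fun T => |∑ l ∈ insert a T, q l ^ (-1 / P) * u l| ^ P) =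
        bE q s (fun T => |∑ l ∈ T, q l ^ (-1 / P) * u l + q a ^ (-1 / P) * u a| ^ P) :=
      bE_congr fun T hT => by rw [sum_insert_comm ha hT]
    rw [hcg]
    by_cases haA : a ∈ A
    · have hfil : (insert a s).filter (fun l => l ∈ A) = insert a (s.filter fun l => l ∈ A) := by
        rw [Finset.filter_insert, if_pos haA]
      rw [hfil, Finset.prod_insert (by simp [ha])]
      have h1 := mul_le_mul_of_nonneg_left ih (show 0 ≤ 1 - q a by linarith [hq1 a])
      have h2 := mul_le_mul_of_nonneg_left (low1 (P := P) hq hq1 hA s (q a ^ (-1 / P) * u a)) (hq a).le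
      have h3 := abs_scaled hP (hq a) (u a)
      have hPi0 : 0 ≤ ∏ l ∈ s with l ∈ A, (1 - q l) :=
        Finset.prod_nonneg fun l _ => by linarith [hq1 l]
      have hua : 0 ≤ |u a| ^ P := Real.rpow_nonneg (abs_nonneg _) _
      set Pi0 := ∏ l ∈ s with l ∈ A, (1 - q l)
      have h4 : q a * (Pi0 * |q a ^ (-1 / P) * u a| ^ P) = Pi0 * |u a| ^ P := by
        rw [← h3]; ring
      rw [h4] at h2
      have h5 : (1 - q a) * (Pi0 * |u a| ^ P) ≤ Pi0 * |u a| ^ P := by
        have : 0 ≤ q a * (Pi0 * |u a| ^ P) := mul_nonneg (hq a).le (mul_nonneg hPi0 hua)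
        linarith
      calc (1 - q a) * Pi0 * (|u a| ^ P + ∑ l ∈ s, |u l| ^ P)
          = (1 - q a) * (Pi0 * |u a| ^ P) + (1 - q a) * (Pi0 * ∑ l ∈ s, |u l| ^ P) := by ring
        _ ≤ _ := by linarith
    · have hfil : (insert a s).filter (fun l => l ∈ A) = s.filter fun l => l ∈ A := by
        rw [Finset.filter_insert, if_neg haA]
      rw [hfil, hA a haA]
      simp only [mul_zero, add_zero]
      rw [zero_abs_rpow hP, zero_add]
      linarith

theorem exp_three_le : Real.exp 3 ≤ 21 := by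
  have h1 : Real.exp 3 = Real.exp 1 ^ 3 := by
    rw [← Real.exp_nat_mul]; norm_num
  rw [h1]
  have h2 := Real.exp_one_lt_d9.le
  calc Real.exp 1 ^ 3 ≤ 2.7182818286 ^ 3 :=
        pow_le_pow_left₀ (Real.exp_pos 1).le h2 3
    _ ≤ 21 := by norm_num

theorem mgf (hq : ∀ l, 0 < q l) (hq1 : ∀ l, q l ≤ 1) (Z s : Finset L) :
    bE q s (fun T => Real.exp (3 * ((T ∩ Z).card : ℝ))) ≤
      Real.exp (20 * ∑ l ∈ s with l ∈ Z, q l) := by
  induction s using Finset.induction_on with
  | empty => rw [bE_empty]; simp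
  | insert a s ha ih =>
    rw [bE_insert ha]
    set E := bE q s (fun T => Real.exp (3 * ((T ∩ Z).card : ℝ))) with hE
    have hE0 : 0 ≤ E := bE_nonneg hq hq1 fun T => (Real.exp_pos _).le
    by_cases haZ : a ∈ Z
    · have hcg : bE q s (fun T => Real.exp (3 * ((insert a T ∩ Z).card : ℝ))) =
          Real.exp 3 * E := by
        rw [hE, ← bE_mul]
        refine bE_congr fun T hT => ?_
        have haT : a ∉ T := fun h => ha (hT h)
        rw [Finset.insert_inter_of_mem haZ, Finset.card_insert_of_notMem (by simp [haT]),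
          ← Real.exp_add]
        push_cast
        ring_nf
      rw [hcg]
      have hfil : (insert a s).filter (fun l => l ∈ Z) = insert a (s.filter fun l => l ∈ Z) := by
        rw [Finset.filter_insert, if_pos haZ]
      rw [hfil, Finset.sum_insert (by simp [ha]), mul_add, Real.exp_add]
      have h1 : 1 + q a * (Real.exp 3 - 1) ≤ Real.exp (20 * q a) := by
        have h2 := Real.add_one_le_exp (20 * q a)
        have h3 := exp_three_le
        have h4 : q a * (Real.exp 3 - 1) ≤ q a * 20 :=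
          mul_le_mul_of_nonneg_left (by linarith) (hq a).le
        linarith
      have h5 : 0 ≤ 1 + q a * (Real.exp 3 - 1) := by
        have h6 : 1 ≤ Real.exp 3 := Real.one_le_exp (by norm_num)
        have : 0 ≤ q a * (Real.exp 3 - 1) := mul_nonneg (hq a).le (by linarith)
        linarith
      calc (1 - q a) * E + q a * (Real.exp 3 * E) = (1 + q a * (Real.exp 3 - 1)) * E := by ring
        _ ≤ Real.exp (20 * q a) * Real.exp (20 * ∑ l ∈ s with l ∈ Z, q l) :=
            mul_le_mul h1 ih hE0 (Real.exp_pos _).le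
    · have hcg : bE q s (fun T => Real.exp (3 * ((insert a T ∩ Z).card : ℝ))) = E := by
        rw [hE]
        refine bE_congr fun T hT => ?_
        rw [Finset.insert_inter_of_notMem haZ]
      rw [hcg]
      have hfil : (insert a s).filter (fun l => l ∈ Z) = s.filter fun l => l ∈ Z := by
        rw [Finset.filter_insert, if_neg haZ]
      rw [hfil]
      calc (1 - q a) * E + q a * E = E := by ring
        _ ≤ _ := ih

theorem prod_ge (hq : ∀ l, 0 < q l) (hq1 : ∀ l, q l ≤ 1) (s : Finset L) :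
    1 - ∑ l ∈ s, q l ≤ ∏ l ∈ s, (1 - q l) := by
  induction s using Finset.induction_on with
  | empty => simp
  | insert a s ha ih =>
    rw [Finset.sum_insert ha, Finset.prod_insert ha]
    have hS0 : 0 ≤ ∑ l ∈ s, q l := Finset.sum_nonneg fun l _ => (hq l).le
    have h1 := mul_le_mul_of_nonneg_left ih (show 0 ≤ 1 - q a by linarith [hq1 a])
    have h2 := mul_nonneg (hq a).le hS0
    linarith

omit [DecidableEq L] in
theorem prod_le_exp {C : ℝ} (hC : 0 ≤ C) (hq : ∀ l, 0 < q l) (s : Finset L) :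
    ∏ l ∈ s, (1 + C * q l) ≤ Real.exp (C * ∑ l ∈ s, q l) := by
  rw [Finset.mul_sum, Real.exp_sum]
  refine Finset.prod_le_prod (fun l _ => ?_) fun l _ => ?_
  · have := mul_nonneg hC (hq l).le
    linarith
  · have := Real.add_one_le_exp (C * q l)
    linarith

end

theorem rpow_le_exp {P : ℝ} (hP : 1 ≤ P) {t : ℝ} (ht : 0 ≤ t) :
    t ^ P ≤ (2 * P) ^ P * Real.exp (t / 2) := by
  have hP0 : 0 < P := by linarith
  have h1 : t / (2 * P) ≤ Real.exp (t / (2 * P)) := by
    have := Real.add_one_le_exp (t / (2 * P))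
    linarith
  have h2 : (t / (2 * P)) ^ P ≤ Real.exp (t / (2 * P)) ^ P :=
    Real.rpow_le_rpow (by positivity) h1 hP0.le
  rw [← Real.exp_mul, Real.div_rpow ht (by positivity)] at h2
  have h3 : t / (2 * P) * P = t / 2 := by field_simp
  rw [h3, div_le_iff₀ (Real.rpow_pos_of_pos (by positivity) _)] at h2
  linarith

theorem exp_three_conv (a b c : ℝ) : Real.exp (2 * a + (b + c) / 2) ≤
    2 / 3 * Real.exp (3 * a) + 1 / 6 * Real.exp (3 * b) + 1 / 6 * Real.exp (3 * c) := by
  have h := Real.geom_mean_le_arith_mean3_weighted (w₁ := 2 / 3) (w₂ := 1 / 6) (w₃ := 1 / 6)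
    (p₁ := Real.exp (3 * a)) (p₂ := Real.exp (3 * b)) (p₃ := Real.exp (3 * c))
    (by norm_num) (by norm_num) (by norm_num) (Real.exp_pos _).le (Real.exp_pos _).le
    (Real.exp_pos _).le (by norm_num)
  rw [← Real.exp_mul, ← Real.exp_mul, ← Real.exp_mul, ← Real.exp_add, ← Real.exp_add] at h
  have e : 3 * a * (2 / 3) + 3 * b * (1 / 6) + 3 * c * (1 / 6) = 2 * a + (b + c) / 2 := by ring
  rwa [e] at h

end BernAux

open BernAux in
/-- module G (Bern.lean): sparse Bernoulli sums. -/
theorem bern (P : ℝ) (hP : 1 ≤ P) (η : ℝ) (hη : 0 < η) : ∃ C : ℝ, 0 < C ∧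
    ∀ {X L : Type} [Fintype X] [Nonempty X] [Fintype L] (d : X → X → ℝ)
      (_ : ∀ x y, 0 ≤ d x y) (D : L → X → ℝ) (q : L → ℝ) (_ : ∀ l, 0 < q l)
      (_ : ∀ l, q l ≤ 1) (Act : X → Finset L)
      (_ : ∀ l x y, D l x ≠ D l y → l ∈ Act x ∨ l ∈ Act y) (μ : ℝ)
      (_ : ∀ x, ∑ l ∈ Act x, q l ≤ μ) (B : ℝ) (_ : 0 < B)
      (_ : ∀ l x y, |D l x - D l y| ^ P ≤ q l * (B * d x y) ^ P) (m0 : ℝ) (_ : 0 ≤ m0),
      ∃ (Ω : Type) (_ : Fintype Ω) (w : Ω → ℝ) (Ψ : Ω → X → ℝ), (∀ ω, 0 ≤ w ω) ∧
        ∑ ω, w ω = 1 ∧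
        (∀ ω x y, |Ψ ω x - Ψ ω y| ≤ 2 * m0 * B * d x y) ∧
        (∀ x y, ∑ ω, w ω * |Ψ ω x - Ψ ω y| ^ P ≤
          (1 + η) * Real.exp (C * μ) * ∑ l, |D l x - D l y| ^ P) ∧
        (∀ x y, (1 - 2 * μ) * ∑ l, |D l x - D l y| ^ P ≤ ∑ ω, w ω * |Ψ ω x - Ψ ω y| ^ P +
          C * Fintype.card X * Real.exp (20 * μ - 2 * m0) * (B * d x y) ^ P) := by
  classical
  obtain ⟨C0, hC0, hsplit⟩ := BernAux.split P hP η hη
  have hP0 : 0 < P := by linarith
  have h2P : 0 < (2 * P) ^ P := Real.rpow_pos_of_pos (by linarith) _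
  refine ⟨max (2 * C0) ((2 * P) ^ P), lt_of_lt_of_le h2P (le_max_right _ _), ?_⟩
  intro X L _ _ _ d hd D q hq hq1 Act hAct μ hμ B hB hDB m0 hm0
  have hμ0 : 0 ≤ μ := by
    obtain ⟨x⟩ := (inferInstance : Nonempty X)
    exact (Finset.sum_nonneg fun l _ => (hq l).le).trans (hμ x)
  set w : Finset L → ℝ := fun T => (∏ l ∈ T, q l) * (∏ l ∈ Finset.univ \ T, (1 - q l)) with hw
  set good : Finset L → Prop := fun T => ∀ z : X, ((T ∩ Act z).card : ℝ) ≤ m0 with hgood
  set S : Finset L → X → ℝ := fun T x => ∑ l ∈ T, q l ^ (-1 / P) * D l x with hS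
  set Ψ : Finset L → X → ℝ := fun T x => if good T then S T x else 0 with hΨ
  have hsum : ∀ F : Finset L → ℝ, ∑ T, w T * F T = bE q Finset.univ F := by
    intro F
    unfold bE
    rw [Finset.powerset_univ]
  -- one pair
  have hBd : ∀ x y, 0 ≤ B * d x y := fun x y => mul_nonneg hB.le (hd x y)
  have hSdiff : ∀ T x y, S T x - S T y = ∑ l ∈ T, q l ^ (-1 / P) * (D l x - D l y) := by
    intro T x y
    rw [hS]
    simp only
    rw [← Finset.sum_sub_distrib]
    exact Finset.sum_congr rfl fun l _ => by ring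
  have hu : ∀ x y l, l ∉ Act x ∪ Act y → D l x - D l y = 0 := by
    intro x y l hl
    by_contra hne
    exact hl (Finset.mem_union.2 (hAct l x y (sub_ne_zero.1 hne)))
  have hterm : ∀ x y l, |q l ^ (-1 / P) * (D l x - D l y)| ≤ B * d x y := by
    intro x y l
    have h1 := hDB l x y
    have h2 : q l * |q l ^ (-1 / P) * (D l x - D l y)| ^ P ≤ q l * (B * d x y) ^ P := by
      rw [BernAux.abs_scaled hP (hq l)]
      exact h1
    have h3 : |q l ^ (-1 / P) * (D l x - D l y)| ^ P ≤ (B * d x y) ^ P :=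
      le_of_mul_le_mul_left h2 (hq l)
    exact (Real.rpow_le_rpow_iff (abs_nonneg _) (hBd x y) hP0).1 h3
  have hScard : ∀ T x y, |S T x - S T y| ≤
      (((T ∩ Act x).card : ℝ) + ((T ∩ Act y).card : ℝ)) * (B * d x y) := by
    intro T x y
    rw [hSdiff]
    have h1 : ∑ l ∈ T, q l ^ (-1 / P) * (D l x - D l y) =
        ∑ l ∈ T ∩ (Act x ∪ Act y), q l ^ (-1 / P) * (D l x - D l y) := by
      symm
      refine Finset.sum_subset Finset.inter_subset_left fun l hl hl' => ?_
      rw [hu x y l fun h => hl' (Finset.mem_inter.2 ⟨hl, h⟩), mul_zero]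
    rw [h1]
    calc _ ≤ ∑ l ∈ T ∩ (Act x ∪ Act y), |q l ^ (-1 / P) * (D l x - D l y)| :=
          Finset.abs_sum_le_sum_abs _ _
      _ ≤ ∑ _l ∈ T ∩ (Act x ∪ Act y), B * d x y := Finset.sum_le_sum fun l _ => hterm x y l
      _ = ((T ∩ (Act x ∪ Act y)).card : ℝ) * (B * d x y) := by
          rw [Finset.sum_const, nsmul_eq_mul]
      _ ≤ _ := by
          refine mul_le_mul_of_nonneg_right ?_ (hBd x y)
          have : (T ∩ (Act x ∪ Act y)).card ≤ (T ∩ Act x).card + (T ∩ Act y).card := by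
            rw [Finset.inter_union_distrib_left]
            exact Finset.card_union_le _ _
          exact_mod_cast this
  have hqA : ∀ x y, ∑ l ∈ Finset.univ.filter (fun l => l ∈ Act x ∪ Act y), q l ≤ 2 * μ := by
    intro x y
    have e : Finset.univ.filter (fun l => l ∈ Act x ∪ Act y) = Act x ∪ Act y := by
      ext l; simp
    rw [e]
    have h1 := Finset.sum_union_inter (s₁ := Act x) (s₂ := Act y) (f := q)
    have h2 : 0 ≤ ∑ l ∈ Act x ∩ Act y, q l := Finset.sum_nonneg fun l _ => (hq l).le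
    have h3 := hμ x
    have h4 := hμ y
    linarith
  have hEPsi : ∀ x y, ∑ T, w T * |Ψ T x - Ψ T y| ^ P =
      bE q Finset.univ (fun T => |Ψ T x - Ψ T y| ^ P) := fun x y => hsum _
  refine ⟨Finset L, inferInstance, w, Ψ, fun T => BernAux.bW_nonneg hq hq1 _ _, ?_, ?_, ?_, ?_⟩
  · have h1 := hsum (fun _ => 1)
    rw [BernAux.bE_const] at h1
    simpa using h1
  · intro T x y
    rw [hΨ]
    simp only
    by_cases hg : good T
    · rw [if_pos hg, if_pos hg]
      refine (hScard T x y).trans ?_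
      have h1 := hg x
      have h2 := hg y
      calc (((T ∩ Act x).card : ℝ) + ((T ∩ Act y).card : ℝ)) * (B * d x y)
          ≤ (2 * m0) * (B * d x y) := mul_le_mul_of_nonneg_right (by linarith) (hBd x y)
        _ = _ := by ring
    · rw [if_neg hg, if_neg hg, sub_zero, abs_zero]
      have := mul_nonneg (mul_nonneg (by linarith : (0 : ℝ) ≤ 2 * m0) hB.le) (hd x y)
      linarith
  · intro x y
    rw [hEPsi]
    have h1 : bE q Finset.univ (fun T => |Ψ T x - Ψ T y| ^ P) ≤
        bE q Finset.univ (fun T => |∑ l ∈ T, q l ^ (-1 / P) * (D l x - D l y)| ^ P) := by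
      refine BernAux.bE_mono hq hq1 fun T _ => ?_
      rw [hΨ]
      simp only
      by_cases hg : good T
      · rw [if_pos hg, if_pos hg, hSdiff]
      · rw [if_neg hg, if_neg hg, sub_zero, abs_zero, Real.zero_rpow hP0.ne']
        exact Real.rpow_nonneg (abs_nonneg _) _
    have h2 := BernAux.upper (A := Act x ∪ Act y) (u := fun l => D l x - D l y) hP hη hC0 hsplit
      hq hq1 (fun l hl => hu x y l hl) Finset.univ
    have h3 := BernAux.prod_le_exp (q := q) (C := C0) (by linarith) hq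
      (Finset.univ.filter (fun l => l ∈ Act x ∪ Act y))
    have h4 : Real.exp (C0 * ∑ l ∈ Finset.univ.filter (fun l => l ∈ Act x ∪ Act y), q l) ≤
        Real.exp (max (2 * C0) ((2 * P) ^ P) * μ) := by
      refine Real.exp_le_exp.2 ?_
      calc C0 * _ ≤ C0 * (2 * μ) := mul_le_mul_of_nonneg_left (hqA x y) (by linarith)
        _ = (2 * C0) * μ := by ring
        _ ≤ _ := mul_le_mul_of_nonneg_right (le_max_left _ _) hμ0
    have h5 : 0 ≤ ∑ l, |D l x - D l y| ^ P :=
      Finset.sum_nonneg fun l _ => Real.rpow_nonneg (abs_nonneg _) _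
    refine h1.trans (h2.trans ?_)
    refine mul_le_mul_of_nonneg_right ?_ h5
    exact mul_le_mul_of_nonneg_left (h3.trans h4) (by linarith)
  · intro x y
    rw [hEPsi]
    have h1 := BernAux.low2 (A := Act x ∪ Act y) (u := fun l => D l x - D l y) hP
      hq hq1 (fun l hl => hu x y l hl) Finset.univ
    have h2 := BernAux.prod_ge hq hq1 (Finset.univ.filter (fun l => l ∈ Act x ∪ Act y))
    have h3 := hqA x y
    have h5 : 0 ≤ ∑ l, |D l x - D l y| ^ P :=
      Finset.sum_nonneg fun l _ => Real.rpow_nonneg (abs_nonneg _) _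
    have h6 : (1 - 2 * μ) * ∑ l, |D l x - D l y| ^ P ≤
        bE q Finset.univ (fun T => |∑ l ∈ T, q l ^ (-1 / P) * (D l x - D l y)| ^ P) :=
      le_trans (mul_le_mul_of_nonneg_right (by linarith) h5) h1
    -- pointwise bound
    have hBdP : 0 ≤ (B * d x y) ^ P := Real.rpow_nonneg (hBd x y) _
    have h7 : ∀ T : Finset L, |∑ l ∈ T, q l ^ (-1 / P) * (D l x - D l y)| ^ P ≤
        |Ψ T x - Ψ T y| ^ P + ((2 * P) ^ P * (B * d x y) ^ P) * ∑ z : X,
          Real.exp (-(2 * m0)) * Real.exp (2 * ((T ∩ Act z).card : ℝ) +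
            (((T ∩ Act x).card : ℝ) + ((T ∩ Act y).card : ℝ)) / 2) := by
      intro T
      rw [← hSdiff]
      have hsn : 0 ≤ ∑ z : X, Real.exp (-(2 * m0)) * Real.exp (2 * ((T ∩ Act z).card : ℝ) +
            (((T ∩ Act x).card : ℝ) + ((T ∩ Act y).card : ℝ)) / 2) :=
        Finset.sum_nonneg fun z _ => mul_nonneg (Real.exp_pos _).le (Real.exp_pos _).le
      by_cases hg : good T
      · have e : Ψ T x - Ψ T y = S T x - S T y := by
          rw [hΨ]; simp only; rw [if_pos hg, if_pos hg]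
        rw [e]
        have := mul_nonneg (mul_nonneg h2P.le hBdP) hsn
        linarith
      · have hg' : ∃ z : X, m0 < ((T ∩ Act z).card : ℝ) := by
          by_contra hcon
          push Not at hcon
          exact hg hcon
        obtain ⟨z, hz⟩ := hg'
        set t : ℝ := ((T ∩ Act x).card : ℝ) + ((T ∩ Act y).card : ℝ) with ht
        have ht0 : 0 ≤ t := by positivity
        have h8 : |S T x - S T y| ^ P ≤ t ^ P * (B * d x y) ^ P := by
          rw [← Real.mul_rpow ht0 (hBd x y)]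
          exact Real.rpow_le_rpow (abs_nonneg _) (hScard T x y) hP0.le
        have h9 := BernAux.rpow_le_exp hP ht0
        have h10 : Real.exp (t / 2) ≤ ∑ z : X, Real.exp (-(2 * m0)) *
            Real.exp (2 * ((T ∩ Act z).card : ℝ) + t / 2) := by
          calc Real.exp (t / 2) ≤ Real.exp (-(2 * m0)) *
                Real.exp (2 * ((T ∩ Act z).card : ℝ) + t / 2) := by
                rw [← Real.exp_add]
                exact Real.exp_le_exp.2 (by linarith)
            _ ≤ _ := Finset.single_le_sum (f := fun z : X => Real.exp (-(2 * m0)) *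
                Real.exp (2 * ((T ∩ Act z).card : ℝ) + t / 2))
                (fun z _ => mul_nonneg (Real.exp_pos _).le (Real.exp_pos _).le)
                (Finset.mem_univ z)
        have h11 : t ^ P * (B * d x y) ^ P ≤ ((2 * P) ^ P * (B * d x y) ^ P) *
            ∑ z : X, Real.exp (-(2 * m0)) * Real.exp (2 * ((T ∩ Act z).card : ℝ) + t / 2) := by
          calc t ^ P * (B * d x y) ^ P ≤ ((2 * P) ^ P * Real.exp (t / 2)) * (B * d x y) ^ P :=
                mul_le_mul_of_nonneg_right h9 hBdP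
            _ = ((2 * P) ^ P * (B * d x y) ^ P) * Real.exp (t / 2) := by ring
            _ ≤ _ := mul_le_mul_of_nonneg_left h10 (mul_nonneg h2P.le hBdP)
        have h12 : 0 ≤ |Ψ T x - Ψ T y| ^ P := Real.rpow_nonneg (abs_nonneg _) _
        linarith
    have h8 : bE q Finset.univ (fun T => |∑ l ∈ T, q l ^ (-1 / P) * (D l x - D l y)| ^ P) ≤
        bE q Finset.univ (fun T => |Ψ T x - Ψ T y| ^ P) +
        ((2 * P) ^ P * (B * d x y) ^ P) * ∑ z : X, Real.exp (-(2 * m0)) *
          bE q Finset.univ (fun T => Real.exp (2 * ((T ∩ Act z).card : ℝ) +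
            (((T ∩ Act x).card : ℝ) + ((T ∩ Act y).card : ℝ)) / 2)) := by
      refine (BernAux.bE_mono hq hq1 fun T _ => h7 T).trans (le_of_eq ?_)
      rw [BernAux.bE_add, BernAux.bE_mul, BernAux.bE_sum]
      simp only [BernAux.bE_mul]
    have hmgf : ∀ z : X, bE q Finset.univ (fun T => Real.exp (3 * ((T ∩ Act z).card : ℝ))) ≤
        Real.exp (20 * μ) := by
      intro z
      refine (BernAux.mgf hq hq1 (Act z) Finset.univ).trans (Real.exp_le_exp.2 ?_)
      have e : Finset.univ.filter (fun l => l ∈ Act z) = Act z := by ext l; simp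
      rw [e]
      have := hμ z
      linarith
    have h9 : ∀ z : X, bE q Finset.univ (fun T => Real.exp (2 * ((T ∩ Act z).card : ℝ) +
            (((T ∩ Act x).card : ℝ) + ((T ∩ Act y).card : ℝ)) / 2)) ≤ Real.exp (20 * μ) := by
      intro z
      calc _ ≤ bE q Finset.univ (fun T => (2 / 3 * Real.exp (3 * ((T ∩ Act z).card : ℝ)) +
              1 / 6 * Real.exp (3 * ((T ∩ Act x).card : ℝ))) +
              1 / 6 * Real.exp (3 * ((T ∩ Act y).card : ℝ))) :=
            BernAux.bE_mono hq hq1 fun T _ => BernAux.exp_three_conv _ _ _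
        _ = 2 / 3 * bE q Finset.univ (fun T => Real.exp (3 * ((T ∩ Act z).card : ℝ))) +
            1 / 6 * bE q Finset.univ (fun T => Real.exp (3 * ((T ∩ Act x).card : ℝ))) +
            1 / 6 * bE q Finset.univ (fun T => Real.exp (3 * ((T ∩ Act y).card : ℝ))) := by
            rw [BernAux.bE_add, BernAux.bE_add, BernAux.bE_mul, BernAux.bE_mul, BernAux.bE_mul]
        _ ≤ _ := by
            have a := hmgf z
            have b := hmgf x
            have c := hmgf y
            linarith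
    have h10 : ∑ z : X, Real.exp (-(2 * m0)) *
          bE q Finset.univ (fun T => Real.exp (2 * ((T ∩ Act z).card : ℝ) +
            (((T ∩ Act x).card : ℝ) + ((T ∩ Act y).card : ℝ)) / 2)) ≤
        Fintype.card X * Real.exp (20 * μ - 2 * m0) := by
      calc _ ≤ ∑ _z : X, Real.exp (-(2 * m0)) * Real.exp (20 * μ) :=
            Finset.sum_le_sum fun z _ => mul_le_mul_of_nonneg_left (h9 z) (Real.exp_pos _).le
        _ = _ := by
            rw [Finset.sum_const, nsmul_eq_mul, Finset.card_univ, ← Real.exp_add]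
            congr 2
            ring
    have h11 : ((2 * P) ^ P * (B * d x y) ^ P) * ∑ z : X, Real.exp (-(2 * m0)) *
          bE q Finset.univ (fun T => Real.exp (2 * ((T ∩ Act z).card : ℝ) +
            (((T ∩ Act x).card : ℝ) + ((T ∩ Act y).card : ℝ)) / 2)) ≤
        max (2 * C0) ((2 * P) ^ P) * Fintype.card X * Real.exp (20 * μ - 2 * m0) *
          (B * d x y) ^ P := by
      calc _ ≤ ((2 * P) ^ P * (B * d x y) ^ P) *
            (Fintype.card X * Real.exp (20 * μ - 2 * m0)) :=
            mul_le_mul_of_nonneg_left h10 (mul_nonneg h2P.le hBdP)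
        _ = (2 * P) ^ P * (Fintype.card X * Real.exp (20 * μ - 2 * m0) * (B * d x y) ^ P) := by
            ring
        _ ≤ max (2 * C0) ((2 * P) ^ P) *
            (Fintype.card X * Real.exp (20 * μ - 2 * m0) * (B * d x y) ^ P) := by
            refine mul_le_mul_of_nonneg_right (le_max_right _ _) ?_
            have := (Real.exp_pos (20 * μ - 2 * m0)).le
            positivity
        _ = _ := by ring
    linarith

end Vale.Agent.P249
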