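import Mathlib
import Vale.Agent.P249.T3.Bern

open scoped BigOperators

namespace Vale.Agent.P249.ThreshSeq

/-- the proportion of `m ∈ [a, a + w)` with `mst ≤ m` -/
noncomputable def th (w mst a : ℕ) : ℝ :=
  (((Finset.Ico a (a + w)).filter (fun m => mst ≤ m)).card : ℝ) / w

theorem card_eq (w mst a : ℕ) :
    ((Finset.Ico a (a + w)).filter (fun m => mst ≤ m)).card = a + w - max a mst := by
  have : (Finset.Ico a (a + w)).filter (fun m => mst ≤ m) = Finset.Ico (max a mst) (a + w) := by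
    ext m
    simp only [Finset.mem_filter, Finset.mem_Ico, max_le_iff]
    tauto
  rw [this, Nat.card_Ico]

theorem th_eq (w mst a : ℕ) : th w mst a = ((a + w - max a mst : ℕ) : ℝ) / w := by
  unfold th
  rw [card_eq]

theorem th_nonneg (w mst a : ℕ) : 0 ≤ th w mst a := by
  unfold th; positivity

theorem th_le_one (w mst a : ℕ) : th w mst a ≤ 1 := by
  rw [th_eq]
  refine div_le_one_of_le₀ ?_ (Nat.cast_nonneg _)
  have : a + w - max a mst ≤ w := by omega
  exact_mod_cast this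

theorem th_eq_zero {w mst a : ℕ} (h : a + w ≤ mst) : th w mst a = 0 := by
  rw [th_eq]
  have : a + w - max a mst = 0 := by omega
  rw [this]; simp

theorem th_eq_one {w mst a : ℕ} (hw : 1 ≤ w) (h : mst ≤ a) : th w mst a = 1 := by
  rw [th_eq]
  have : a + w - max a mst = w := by omega
  rw [this]
  have : (w : ℝ) ≠ 0 := by
    have : w ≠ 0 := by omega
    exact_mod_cast this
  exact div_self this

theorem th_mono {w mst a b : ℕ} (h : a ≤ b) : th w mst a ≤ th w mst b := by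
  rw [th_eq, th_eq]
  refine div_le_div_of_nonneg_right ?_ (Nat.cast_nonneg _)
  have : a + w - max a mst ≤ b + w - max b mst := by omega
  exact_mod_cast this

/-- (i) -/
theorem diff_nonneg (w mst a V : ℕ) : 0 ≤ th w mst (a + V) - th w mst a := by
  have := th_mono (w := w) (mst := mst) (Nat.le_add_right a V)
  linarith

/-- (i) -/
theorem diff_le_one (w mst a V : ℕ) : th w mst (a + V) - th w mst a ≤ 1 := by
  have h1 := th_le_one w mst (a + V)
  have h2 := th_nonneg w mst a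
  linarith

theorem sum_diff_le (f : ℕ → ℝ) (h0 : ∀ a, 0 ≤ f a) (h1 : ∀ a, f a ≤ 1) (V N : ℕ) :
    ∑ a ∈ Finset.range N, (f (a + V) - f a) ≤ V := by
  have e : ∑ a ∈ Finset.range N, (f (a + V) - f a) + ∑ a ∈ Finset.range V, f a =
      ∑ a ∈ Finset.range V, f (N + a) := by
    have e1 : ∑ a ∈ Finset.range (N + V), f a =
        ∑ a ∈ Finset.range N, f a + ∑ a ∈ Finset.range V, f (N + a) := Finset.sum_range_add f N V
    have e2 : ∑ a ∈ Finset.range (V + N), f a =
        ∑ a ∈ Finset.range V, f a + ∑ a ∈ Finset.range N, f (V + a) := Finset.sum_range_add f V N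
    rw [add_comm V N, e1] at e2
    rw [Finset.sum_sub_distrib]
    have e3 : ∑ a ∈ Finset.range N, f (a + V) = ∑ a ∈ Finset.range N, f (V + a) :=
      Finset.sum_congr rfl fun a _ => by rw [add_comm]
    rw [e3]
    linarith
  have h2 : 0 ≤ ∑ a ∈ Finset.range V, f a := Finset.sum_nonneg fun a _ => h0 a
  have h3 : ∑ a ∈ Finset.range V, f (N + a) ≤ V := by
    calc _ ≤ ∑ _a ∈ Finset.range V, (1 : ℝ) := Finset.sum_le_sum fun a _ => h1 _
      _ = V := by simp
  linarith

/-- (ii) -/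
theorem sum_pow_le (P : ℝ) (hP : 1 ≤ P) (w mst V N : ℕ) :
    ∑ a ∈ Finset.range N, (th w mst (a + V) - th w mst a) ^ P ≤ V := by
  refine le_trans (Finset.sum_le_sum fun a _ => ?_)
    (sum_diff_le (th w mst) (th_nonneg w mst) (th_le_one w mst) V N)
  have h0 := diff_nonneg w mst a V
  have h1 := diff_le_one w mst a V
  rcases h0.eq_or_lt with h | h
  · rw [← h, Real.zero_rpow (by linarith)]
  · calc _ ≤ (th w mst (a + V) - th w mst a) ^ (1 : ℝ) :=
          Real.rpow_le_rpow_of_exponent_ge h h1 hP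
      _ = _ := Real.rpow_one _

/-- (iii) -/
theorem le_sum_pow (P : ℝ) (w mst V N : ℕ) (hw : 1 ≤ w) (hwV : w ≤ V) (h1 : V + w ≤ mst)
    (h2 : mst ≤ N) :
    (V : ℝ) - w ≤ ∑ a ∈ Finset.range N, (th w mst (a + V) - th w mst a) ^ P := by
  have hsub : Finset.Ico (mst - V) (mst - w) ⊆ Finset.range N := by
    intro a ha
    rw [Finset.mem_Ico] at ha
    rw [Finset.mem_range]
    omega
  calc (V : ℝ) - w = ∑ _a ∈ Finset.Ico (mst - V) (mst - w), (1 : ℝ) := by
        rw [Finset.sum_const, Nat.card_Ico, nsmul_eq_mul, mul_one]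
        have : mst - w - (mst - V) = V - w := by omega
        rw [this, Nat.cast_sub hwV]
    _ = ∑ a ∈ Finset.Ico (mst - V) (mst - w), (th w mst (a + V) - th w mst a) ^ P := by
        refine Finset.sum_congr rfl fun a ha => ?_
        rw [Finset.mem_Ico] at ha
        rw [th_eq_one hw (by omega), th_eq_zero (by omega), sub_zero, Real.one_rpow]
    _ ≤ _ := Finset.sum_le_sum_of_subset_of_nonneg hsub fun a _ _ =>
        Real.rpow_nonneg (diff_nonneg w mst a V) _

theorem exp_neg_le_half (P : ℝ) (hP : 1 ≤ P) : Real.exp (-P) ≤ 1 / 2 := by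
  have h1 : Real.exp (-P) ≤ Real.exp (-1) := Real.exp_le_exp.2 (by linarith)
  have h2 : Real.exp (-1) ≤ 1 / 2 := by
    rw [Real.exp_neg, ← one_div]
    refine one_div_le_one_div_of_le (by norm_num) ?_
    have := Real.add_one_le_exp (1 : ℝ)
    linarith
  linarith

/-- the geometric part -/
theorem sum_exp_le (P : ℝ) (hP : 1 ≤ P) (n : ℕ) :
    ∑ a ∈ Finset.range n, Real.exp (P * a) ≤ Real.exp (P * n) := by
  induction n with
  | zero => simp
  | succ n ih =>
    rw [Finset.sum_range_succ]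
    have h1 : Real.exp (P * n) ≤ 1 / 2 * Real.exp (P * ((n : ℝ) + 1)) := by
      have e : P * (n : ℝ) = -P + P * ((n : ℝ) + 1) := by ring
      rw [e, Real.exp_add]
      exact mul_le_mul_of_nonneg_right (exp_neg_le_half P hP) (Real.exp_pos _).le
    push_cast
    linarith

/-- one sequence -/
theorem sum_E_le (P : ℝ) (hP : 1 ≤ P) (K : ℝ) (hK : 0 ≤ K) (w mst : ℕ) (hw : w ≤ mst)
    (E : ℕ → ℝ) (hE0 : ∀ a, mst ≤ a → E a = 0)
    (hE : ∀ a, |E a| ≤ K * Real.exp ((min (a + w) mst : ℕ) : ℝ)) (N : ℕ) :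
    ∑ a ∈ Finset.range N, |E a| ^ P ≤ K ^ P * (w + 1) * Real.exp (P * mst) := by
  have hP0 : 0 < P := by linarith
  have hterm : ∀ a, |E a| ^ P ≤ K ^ P * Real.exp (P * ((min (a + w) mst : ℕ) : ℝ)) := by
    intro a
    have h1 := Real.rpow_le_rpow (abs_nonneg _) (hE a) hP0.le
    rw [Real.mul_rpow hK (Real.exp_pos _).le, ← Real.exp_mul] at h1
    rwa [mul_comm P]
  have h0 : ∀ a, 0 ≤ |E a| ^ P := fun a => Real.rpow_nonneg (abs_nonneg _) _
  have h1 : ∑ a ∈ Finset.range N, |E a| ^ P ≤ ∑ a ∈ Finset.range mst, |E a| ^ P := by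
    have e : ∑ a ∈ Finset.range (max N mst), |E a| ^ P = ∑ a ∈ Finset.range mst, |E a| ^ P := by
      symm
      refine Finset.sum_subset (Finset.range_subset_range.2 (le_max_right _ _)) fun a _ ha => ?_
      rw [Finset.mem_range, not_lt] at ha
      rw [hE0 a ha, abs_zero, Real.zero_rpow hP0.ne']
    rw [← e]
    exact Finset.sum_le_sum_of_subset_of_nonneg
      (Finset.range_subset_range.2 (le_max_left _ _)) fun a _ _ => h0 a
  refine h1.trans ?_
  obtain ⟨q, hq⟩ : ∃ q, mst = q + w := ⟨mst - w, by omega⟩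
  have h2 : ∑ a ∈ Finset.range mst, |E a| ^ P ≤
      ∑ a ∈ Finset.range mst, K ^ P * Real.exp (P * ((min (a + w) mst : ℕ) : ℝ)) :=
    Finset.sum_le_sum fun a _ => hterm a
  refine h2.trans ?_
  rw [← Finset.mul_sum, mul_assoc]
  refine mul_le_mul_of_nonneg_left ?_ (Real.rpow_nonneg hK _)
  rw [hq, Finset.sum_range_add]
  have h3 : ∑ a ∈ Finset.range q, Real.exp (P * ((min (a + w) (q + w) : ℕ) : ℝ)) ≤
      Real.exp (P * ((q + w : ℕ) : ℝ)) := by
    calc _ = ∑ a ∈ Finset.range q, Real.exp (P * a) * Real.exp (P * w) := by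
          refine Finset.sum_congr rfl fun a ha => ?_
          rw [Finset.mem_range] at ha
          have : min (a + w) (q + w) = a + w := by omega
          rw [this, ← Real.exp_add]
          congr 1
          push_cast
          ring
      _ = (∑ a ∈ Finset.range q, Real.exp (P * a)) * Real.exp (P * w) := by
          rw [Finset.sum_mul]
      _ ≤ Real.exp (P * q) * Real.exp (P * w) :=
          mul_le_mul_of_nonneg_right (sum_exp_le P hP q) (Real.exp_pos _).le
      _ = _ := by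
          rw [← Real.exp_add]
          congr 1
          push_cast
          ring
  have h4 : ∑ a ∈ Finset.range w, Real.exp (P * ((min (q + a + w) (q + w) : ℕ) : ℝ)) =
      w * Real.exp (P * ((q + w : ℕ) : ℝ)) := by
    calc _ = ∑ _a ∈ Finset.range w, Real.exp (P * ((q + w : ℕ) : ℝ)) := by
          refine Finset.sum_congr rfl fun a _ => ?_
          have : min (q + a + w) (q + w) = q + w := by omega
          rw [this]
      _ = _ := by simp
  rw [h4]
  have h5 := (Real.exp_pos (P * ((q + w : ℕ) : ℝ))).le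
  linarith

theorem rpow_add_two (P : ℝ) (hP : 1 ≤ P) (x y : ℝ) :
    |x - y| ^ P ≤ 2 ^ (P - 1) * (|x| ^ P + |y| ^ P) := by
  have hconv := (convexOn_rpow hP).2 (x := |x|) (y := |y|)
    (Set.mem_Ici.2 (abs_nonneg _)) (Set.mem_Ici.2 (abs_nonneg _))
    (show (0 : ℝ) ≤ 1 / 2 by norm_num) (show (0 : ℝ) ≤ 1 / 2 by norm_num) (by norm_num)
  simp only [smul_eq_mul] at hconv
  have h1 : |x - y| ^ P ≤ (|x| + |y|) ^ P :=
    Real.rpow_le_rpow (abs_nonneg _) (abs_sub _ _) (by linarith)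
  have h2 : (|x| + |y|) ^ P = 2 ^ P * (1 / 2 * |x| + 1 / 2 * |y|) ^ P := by
    rw [← Real.mul_rpow (by norm_num) (by positivity)]
    congr 1
    ring
  have h3 : (2 : ℝ) ^ P = 2 * 2 ^ (P - 1) := by
    rw [Real.rpow_sub (by norm_num), Real.rpow_one]
    ring
  have h4 : (0 : ℝ) < 2 ^ P := Real.rpow_pos_of_pos (by norm_num) _
  have h5 := mul_le_mul_of_nonneg_left hconv h4.le
  rw [← h2] at h5
  refine h1.trans (h5.trans (le_of_eq ?_))
  rw [h3]
  ring

/-- (iv) -/
theorem sum_diff_E_le (P : ℝ) (hP : 1 ≤ P) (K : ℝ) (hK : 0 ≤ K) (w mst V : ℕ) (hw : w ≤ mst)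
    (E : ℕ → ℝ) (hE0 : ∀ a, mst ≤ a → E a = 0)
    (hE : ∀ a, |E a| ≤ K * Real.exp ((min (a + w) mst : ℕ) : ℝ)) (N : ℕ) :
    ∑ a ∈ Finset.range N, |E (a + V) - E a| ^ P ≤
      2 ^ P * K ^ P * (w + 1) * Real.exp (P * mst) := by
  have h0 : ∀ a, 0 ≤ |E a| ^ P := fun a => Real.rpow_nonneg (abs_nonneg _) _
  have h1 := sum_E_le P hP K hK w mst hw E hE0 hE N
  have h2 := sum_E_le P hP K hK w mst hw E hE0 hE (V + N)
  rw [Finset.sum_range_add] at h2
  have h3 : 0 ≤ ∑ a ∈ Finset.range V, |E a| ^ P := Finset.sum_nonneg fun a _ => h0 a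
  have h4 : ∑ a ∈ Finset.range N, |E (a + V)| ^ P = ∑ a ∈ Finset.range N, |E (V + a)| ^ P :=
    Finset.sum_congr rfl fun a _ => by rw [add_comm]
  have h5 : ∑ a ∈ Finset.range N, |E (a + V) - E a| ^ P ≤
      2 ^ (P - 1) * (∑ a ∈ Finset.range N, |E (a + V)| ^ P + ∑ a ∈ Finset.range N, |E a| ^ P) := by
    rw [← Finset.sum_add_distrib, Finset.mul_sum]
    exact Finset.sum_le_sum fun a _ => rpow_add_two P hP _ _
  have h6 : (0 : ℝ) < 2 ^ (P - 1) := Real.rpow_pos_of_pos (by norm_num) _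
  have h7 : (2 : ℝ) ^ P = 2 ^ (P - 1) * 2 := by
    rw [Real.rpow_sub (by norm_num), Real.rpow_one]
    ring
  calc _ ≤ _ := h5
    _ ≤ 2 ^ (P - 1) * (K ^ P * (w + 1) * Real.exp (P * mst) +
          K ^ P * (w + 1) * Real.exp (P * mst)) := by
        refine mul_le_mul_of_nonneg_left ?_ h6.le
        rw [h4]
        linarith
    _ = _ := by rw [h7]; ring

/-- (v) -/
theorem rpow_add_le (P : ℝ) (hP : 1 ≤ P) (η : ℝ) (hη : 0 < η) :
    ∃ C : ℝ, 1 ≤ C ∧ ∀ x y : ℝ, |x + y| ^ P ≤ (1 + η) * |x| ^ P + C * |y| ^ P := by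
  obtain ⟨C, hC, h⟩ := BernAux.split P hP η hη
  refine ⟨C, hC, fun x y => ?_⟩
  have := h y x
  rw [add_comm y x] at this
  linarith

end Vale.Agent.P249.ThreshSeq
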