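import Mathlib
import Vale.Agent.P249.T3.ThreshSeq

open scoped BigOperators

namespace Vale.Agent.P249

theorem t3_mcshane {X : Type} [Fintype X] [Nonempty X] (d : X → X → ℝ) (hd0 : ∀ x, d x x = 0)
    (hdn : ∀ x y, 0 ≤ d x y) (hds : ∀ x y, d x y = d y x)
    (hdt : ∀ x y z, d x z ≤ d x y + d y z) (f : X → ℝ) (S : Finset X) (K : ℝ) (hK : 0 ≤ K)
    (hf : ∀ x ∈ S, ∀ y ∈ S, |f x - f y| ≤ K * d x y) :
    ∃ F : X → ℝ, (∀ x y, |F x - F y| ≤ K * d x y) ∧ (∀ x ∈ S, F x = f x) ∧
      (S = ∅ → ∀ x, F x = 0) := by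
  rcases S.eq_empty_or_nonempty with h | h
  · refine ⟨fun _ => 0, fun x y => ?_, fun x hx => ?_, fun _ _ => rfl⟩
    · simp only [sub_self, abs_zero]
      exact mul_nonneg hK (hdn x y)
    · rw [h] at hx; simp at hx
  · have hone : ∀ x y, S.inf' h (fun z => f z + K * d x z) ≤
        S.inf' h (fun z => f z + K * d y z) + K * d x y := by
      intro x y
      obtain ⟨z, hz, hz2⟩ := Finset.exists_mem_eq_inf' h (fun z => f z + K * d y z)
      rw [hz2]
      refine (Finset.inf'_le _ hz).trans ?_
      have := mul_le_mul_of_nonneg_left (hdt x y z) hK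
      linarith
    refine ⟨fun x => S.inf' h (fun z => f z + K * d x z), fun x y => ?_, fun x hx => ?_,
      fun h2 => absurd h2 h.ne_empty⟩
    · rw [abs_le]
      have h1 := hone x y
      have h2 := hone y x
      rw [hds y x] at h2
      constructor <;> linarith
    · apply le_antisymm
      · refine (Finset.inf'_le _ hx).trans ?_
        rw [hd0]; simp
      · apply Finset.le_inf'
        intro z hz
        have := (abs_le.1 (hf x hx z hz)).2
        linarith

theorem t3_exp_geo (M : ℕ) : ∑ m ∈ Finset.range M, Real.exp m ≤ Real.exp M := by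
  induction M with
  | zero => simp
  | succ M ih =>
    rw [Finset.sum_range_succ]
    have h1 : Real.exp ((M + 1 : ℕ) : ℝ) = Real.exp M * Real.exp 1 := by
      push_cast; rw [Real.exp_add]
    have h2 : (2:ℝ) ≤ Real.exp 1 := by have := Real.add_one_le_exp (1:ℝ); linarith
    have h3 := Real.exp_pos (M : ℝ)
    rw [h1]
    nlinarith

theorem t3_window_sum (σ D : ℝ) (hσ : 0 ≤ σ) (hD : 0 ≤ D) (w mst a : ℕ) (hw : 1 ≤ w)
    (e : ℕ → ℝ) (he0 : ∀ m, mst ≤ m → e m = 0) (he : ∀ m, |e m| ≤ 2 * (σ * Real.exp m) * D) :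
    |(∑ m ∈ Finset.Ico a (a + w), e m) / w| ≤
      2 * σ * D / w * Real.exp ((min (a + w) mst : ℕ) : ℝ) := by
  have hw0 : (0:ℝ) < w := by exact_mod_cast hw
  rw [abs_div, abs_of_pos hw0, div_mul_eq_mul_div]
  apply div_le_div_of_nonneg_right _ hw0.le
  calc |∑ m ∈ Finset.Ico a (a + w), e m| ≤ ∑ m ∈ Finset.Ico a (a + w), |e m| :=
        Finset.abs_sum_le_sum_abs _ _
    _ ≤ ∑ m ∈ Finset.range (min (a + w) mst), 2 * (σ * Real.exp m) * D := by
        rw [← Finset.sum_filter_add_sum_filter_not (Finset.Ico a (a + w)) (fun m => m < mst)]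
        have h1 : ∑ m ∈ (Finset.Ico a (a + w)).filter (fun m => ¬ m < mst), |e m| = 0 := by
          apply Finset.sum_eq_zero
          intro m hm
          simp only [Finset.mem_filter, not_lt] at hm
          rw [he0 m hm.2, abs_zero]
        rw [h1, add_zero]
        calc ∑ m ∈ (Finset.Ico a (a + w)).filter (fun m => m < mst), |e m| ≤
            ∑ m ∈ (Finset.Ico a (a + w)).filter (fun m => m < mst), 2 * (σ * Real.exp m) * D :=
              Finset.sum_le_sum fun m _ => he m
          _ ≤ _ := by
              apply Finset.sum_le_sum_of_subset_of_nonneg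
              · intro m hm
                simp only [Finset.mem_filter, Finset.mem_Ico, Finset.mem_range] at hm ⊢
                omega
              · intro m _ _
                positivity
    _ = 2 * σ * D * ∑ m ∈ Finset.range (min (a + w) mst), Real.exp m := by
        rw [Finset.mul_sum]
        exact Finset.sum_congr rfl fun m _ => by ring
    _ ≤ _ := mul_le_mul_of_nonneg_left (t3_exp_geo _) (by positivity)

/-- module F: threshold decomposition of one coordinate, averaged. -/
theorem thresh (P : ℝ) (hP : 1 ≤ P) (η : ℝ) (hη : 0 < η) : ∃ C : ℝ, 0 < C ∧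
    ∀ {X : Type} [Fintype X] [Nonempty X] (d : X → X → ℝ) (_ : ∀ x, d x x = 0)
      (_ : ∀ x y, 0 ≤ d x y) (_ : ∀ x y, d x y = d y x) (_ : ∀ x y z, d x z ≤ d x y + d y z)
      (f t : X → ℝ) (_ : ∀ x, 0 < t x) (_ : ∀ x y, |f x - f y| ^ P ≤ (t x + t y) * d x y ^ P)
      (V w L : ℕ) (_ : 1 ≤ w) (_ : w ≤ V) (σ : ℝ) (_ : 0 < σ)
      (_ : ∀ x, (σ * Real.exp (V + w)) ^ P ≤ t x)
      (_ : ∀ x, t x ≤ (σ * Real.exp (V * L)) ^ P),
      ∃ D : ℕ → X → ℝ,
        (∀ a x y, |D a x - D a y| ≤ 4 * σ * Real.exp (a + V + w) * d x y) ∧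
        (∀ (a : ℕ) x y, t x ≤ (σ * Real.exp a) ^ P → t y ≤ (σ * Real.exp a) ^ P →
          D a x = D a y) ∧
        (∀ x y, (∑ a ∈ Finset.range (V * L), |D a x - D a y| ^ P) / V ≤
          (1 + η) * |f x - f y| ^ P + C * ((w : ℝ) ^ (1 - P) / V) * (t x + t y) * d x y ^ P) ∧
        (∀ x y, (1 - (w : ℝ) / V) * |f x - f y| ^ P ≤
          (1 + η) * ((∑ a ∈ Finset.range (V * L), |D a x - D a y| ^ P) / V) +
            C * ((w : ℝ) ^ (1 - P) / V) * (t x + t y) * d x y ^ P) := by
  classical
  obtain ⟨C1, hC1, hsplit⟩ := ThreshSeq.rpow_add_le P hP η hη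
  refine ⟨C1 * (2 * 4 ^ P * Real.exp 1 ^ P), by positivity, ?_⟩
  intro X _ _ d hd0 hdn hds hdt f t ht0 hft V w L hw hwV σ hσ hσ1 hσ2
  have hP0 : 0 < P := by linarith
  have hw0 : (0:ℝ) < w := by exact_mod_cast hw
  have hV0 : (0:ℝ) < V := by exact_mod_cast (hw.trans hwV)
  -- thresholds
  have hs0 : ∀ m : ℕ, 0 < σ * Real.exp m := fun m => by positivity
  have hsm : ∀ m m' : ℕ, m ≤ m' → (σ * Real.exp m) ^ P ≤ (σ * Real.exp m') ^ P := by
    intro m m' h
    apply Real.rpow_le_rpow (hs0 m).le _ hP0.le
    apply mul_le_mul_of_nonneg_left _ hσ.le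
    exact Real.exp_le_exp.2 (by exact_mod_cast h)
  -- the truncated functions
  have hF : ∀ m : ℕ, ∃ F : X → ℝ, (∀ x y, |F x - F y| ≤ 2 * (σ * Real.exp m) * d x y) ∧
      (∀ x ∈ Finset.univ.filter (fun x => t x ≤ (σ * Real.exp m) ^ P), F x = f x) ∧
      (Finset.univ.filter (fun x => t x ≤ (σ * Real.exp m) ^ P) = ∅ → ∀ x, F x = 0) := by
    intro m
    apply t3_mcshane d hd0 hdn hds hdt f _ _ (by have := hs0 m; positivity)
    intro x hx y hy
    simp only [Finset.mem_filter, Finset.mem_univ, true_and] at hx hy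
    have h1 : |f x - f y| ^ P ≤ (2 * (σ * Real.exp m) * d x y) ^ P := by
      refine (hft x y).trans ?_
      have hm := hs0 m
      rw [Real.mul_rpow (by positivity) (hdn x y), Real.mul_rpow (by norm_num) hm.le]
      apply mul_le_mul_of_nonneg_right _ (Real.rpow_nonneg (hdn x y) _)
      have h2 : (2:ℝ) ≤ 2 ^ P := by
        calc (2:ℝ) = 2 ^ (1:ℝ) := (Real.rpow_one _).symm
          _ ≤ 2 ^ P := Real.rpow_le_rpow_of_exponent_le (by norm_num) hP
      have h3 : 0 ≤ (σ * Real.exp m) ^ P := by positivity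
      nlinarith
    exact (Real.rpow_le_rpow_iff (abs_nonneg _)
      (mul_nonneg (by have := hs0 m; positivity) (hdn x y)) hP0).1 h1
  choose F hF1 hF2 hF3 using hF
  set H : ℕ → X → ℝ := fun a x => (∑ m ∈ Finset.Ico a (a + w), F m x) / w with hH
  -- Lipschitz bound of the averages
  have hHl : ∀ (a : ℕ) x y, |H a x - H a y| ≤ 2 * σ * Real.exp (a + w) * d x y := by
    intro a x y
    have e1 : H a x - H a y = (∑ m ∈ Finset.Ico a (a + w), (F m x - F m y)) / w := by
      simp only [hH]
      rw [Finset.sum_sub_distrib, sub_div]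
    rw [e1, abs_div, abs_of_pos hw0, div_le_iff₀ hw0]
    calc |∑ m ∈ Finset.Ico a (a + w), (F m x - F m y)| ≤
        ∑ m ∈ Finset.Ico a (a + w), |F m x - F m y| := Finset.abs_sum_le_sum_abs _ _
      _ ≤ ∑ _m ∈ Finset.Ico a (a + w), 2 * σ * Real.exp (a + w) * d x y := by
          apply Finset.sum_le_sum
          intro m hm
          refine (hF1 m x y).trans ?_
          apply mul_le_mul_of_nonneg_right _ (hdn x y)
          rw [Finset.mem_Ico] at hm
          have h1 : Real.exp m ≤ Real.exp (a + w) := by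
            apply Real.exp_le_exp.2
            have : (m : ℝ) ≤ ((a + w : ℕ) : ℝ) := by exact_mod_cast hm.2.le
            push_cast at this
            exact this
          nlinarith
      _ = _ := by
          rw [Finset.sum_const, Nat.card_Ico, nsmul_eq_mul]
          have : (a + w - a : ℕ) = w := by omega
          rw [this]; ring
  refine ⟨fun a x => H (a + V) x - H a x, fun a x y => ?_, fun a x y hx hy => ?_, ?_⟩
  · have h1 := hHl (a + V) x y
    have h2 := hHl a x y
    have e1 : H (a + V) x - H a x - (H (a + V) y - H a y) =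
        (H (a + V) x - H (a + V) y) - (H a x - H a y) := by ring
    rw [e1]
    refine (abs_sub _ _).trans ?_
    have h3 : Real.exp (a + w) ≤ Real.exp (a + V + w) := Real.exp_le_exp.2 (by linarith)
    have h4 : 2 * σ * Real.exp (a + w) * d x y ≤ 2 * σ * Real.exp (a + V + w) * d x y := by
      apply mul_le_mul_of_nonneg_right _ (hdn x y)
      exact mul_le_mul_of_nonneg_left h3 (by positivity)
    have h5 : Real.exp (((a + V : ℕ) : ℝ) + w) = Real.exp (a + V + w) := by push_cast; rfl
    rw [h5] at h1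
    linarith
  · have hall : ∀ m : ℕ, a ≤ m → F m x - F m y = f x - f y := by
      intro m hm
      rw [hF2 m x (by simpa using hx.trans (hsm a m hm)),
        hF2 m y (by simpa using hy.trans (hsm a m hm))]
    have hHa : ∀ b : ℕ, a ≤ b → H b x - H b y = f x - f y := by
      intro b hb
      have e1 : H b x - H b y = (∑ m ∈ Finset.Ico b (b + w), (F m x - F m y)) / w := by
        simp only [hH]
        rw [Finset.sum_sub_distrib, sub_div]
      rw [e1, Finset.sum_congr rfl fun m hm => hall m (hb.trans (Finset.mem_Ico.1 hm).1),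
        Finset.sum_const, Nat.card_Ico, nsmul_eq_mul]
      have : (b + w - b : ℕ) = w := by omega
      rw [this]
      field_simp
    have h1 := hHa (a + V) (by omega)
    have h2 := hHa a le_rfl
    linarith
  · -- analysis of a pair
    have hpair : ∀ x y, ∃ (mst : ℕ) (E : ℕ → ℝ), V + w ≤ mst ∧ mst ≤ V * L ∧
        (σ * Real.exp mst) ^ P ≤ Real.exp 1 ^ P * (t x + t y) ∧
        (∀ a, mst ≤ a → E a = 0) ∧
        (∀ a, |E a| ≤ 2 * σ * d x y / w * Real.exp ((min (a + w) mst : ℕ) : ℝ)) ∧
        (∀ a, H a x - H a y = ThreshSeq.th w mst a * (f x - f y) + E a) := by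
      intro x y
      have hex : ∃ m : ℕ, t x ≤ (σ * Real.exp m) ^ P ∧ t y ≤ (σ * Real.exp m) ^ P :=
        ⟨V * L, by have := hσ2 x; push_cast; exact this, by have := hσ2 y; push_cast; exact this⟩
      set mst := Nat.find hex with hmst
      have hm1 := Nat.find_spec hex
      rw [← hmst] at hm1
      have hm2 : mst ≤ V * L := Nat.find_min' hex
        ⟨by have := hσ2 x; push_cast; exact this, by have := hσ2 y; push_cast; exact this⟩
      have hm3 : V + w ≤ mst := by
        by_contra hcon
        push Not at hcon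
        have h1 : (σ * Real.exp ((V + w : ℕ) : ℝ)) ^ P ≤ (σ * Real.exp mst) ^ P := by
          have := (hσ1 x).trans hm1.1
          push_cast
          exact this
        have h2 : (σ * Real.exp mst) ^ P < (σ * Real.exp ((V + w : ℕ) : ℝ)) ^ P := by
          apply Real.rpow_lt_rpow (hs0 _).le _ hP0
          apply mul_lt_mul_of_pos_left _ hσ
          exact Real.exp_lt_exp.2 (by exact_mod_cast hcon)
        linarith
      have hm4 : (σ * Real.exp mst) ^ P ≤ Real.exp 1 ^ P * (t x + t y) := by
        have h1 : ¬ (t x ≤ (σ * Real.exp ((mst - 1 : ℕ) : ℝ)) ^ P ∧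
            t y ≤ (σ * Real.exp ((mst - 1 : ℕ) : ℝ)) ^ P) := Nat.find_min hex (by omega)
        have h2 : (σ * Real.exp ((mst - 1 : ℕ) : ℝ)) ^ P ≤ t x + t y := by
          have hx0 := ht0 x
          have hy0 := ht0 y
          by_contra hcon
          push Not at hcon
          exact h1 ⟨by linarith, by linarith⟩
        have h3 : σ * Real.exp mst = Real.exp 1 * (σ * Real.exp ((mst - 1 : ℕ) : ℝ)) := by
          have : (mst : ℝ) = ((mst - 1 : ℕ) : ℝ) + 1 := by
            rw [Nat.cast_sub (by omega)]; push_cast; ring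
          rw [this, Real.exp_add]
          ring_nf
        rw [h3, Real.mul_rpow (Real.exp_pos _).le (hs0 _).le]
        exact mul_le_mul_of_nonneg_left h2 (by positivity)
      set e : ℕ → ℝ := fun m => F m x - F m y - (if mst ≤ m then f x - f y else 0) with he
      have he0 : ∀ m, mst ≤ m → e m = 0 := by
        intro m hm
        simp only [he, hm, if_true]
        rw [hF2 m x (by simpa using hm1.1.trans (hsm _ m hm)),
          hF2 m y (by simpa using hm1.2.trans (hsm _ m hm))]
        ring
      have he1 : ∀ m, |e m| ≤ 2 * (σ * Real.exp m) * d x y := by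
        intro m
        by_cases hm : mst ≤ m
        · rw [he0 m hm, abs_zero]
          have := hs0 m
          exact mul_nonneg (by positivity) (hdn x y)
        · simp only [he, hm, if_false, sub_zero]
          exact hF1 m x y
      refine ⟨mst, fun a => (∑ m ∈ Finset.Ico a (a + w), e m) / w, hm3, hm2, hm4,
        fun a ha => ?_, fun a => t3_window_sum σ (d x y) hσ.le (hdn x y) w mst a hw e he0 he1,
        fun a => ?_⟩
      · beta_reduce
        rw [Finset.sum_eq_zero fun m hm => he0 m (ha.trans (Finset.mem_Ico.1 hm).1), zero_div]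
      · have e1 : H a x - H a y = (∑ m ∈ Finset.Ico a (a + w), (F m x - F m y)) / w := by
          simp only [hH]
          rw [Finset.sum_sub_distrib, sub_div]
        have e2 : ∑ m ∈ Finset.Ico a (a + w), (F m x - F m y) =
            ∑ m ∈ Finset.Ico a (a + w), (if mst ≤ m then f x - f y else 0) +
              ∑ m ∈ Finset.Ico a (a + w), e m := by
          rw [← Finset.sum_add_distrib]
          refine Finset.sum_congr rfl fun m _ => ?_
          simp only [he]; ring
        rw [e1, e2, ← Finset.sum_filter, Finset.sum_const, nsmul_eq_mul, add_div, ThreshSeq.th]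
        ring
    have hbound : ∀ x y (mst : ℕ) (E : ℕ → ℝ), V + w ≤ mst →
        (σ * Real.exp mst) ^ P ≤ Real.exp 1 ^ P * (t x + t y) → (∀ a, mst ≤ a → E a = 0) →
        (∀ a, |E a| ≤ 2 * σ * d x y / w * Real.exp ((min (a + w) mst : ℕ) : ℝ)) →
        (∑ a ∈ Finset.range (V * L), |E (a + V) - E a| ^ P) / V ≤
          2 * 4 ^ P * Real.exp 1 ^ P * ((w : ℝ) ^ (1 - P) / V) * (t x + t y) * d x y ^ P := by
      intro x y mst E h1 h2 h3 h4
      have hK : 0 ≤ 2 * σ * d x y / w := div_nonneg (mul_nonneg (by positivity) (hdn x y)) hw0.le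
      have h5 := ThreshSeq.sum_diff_E_le P hP (2 * σ * d x y / w) hK w mst V (by omega) E h3 h4
        (V * L)
      have hdP : 0 ≤ d x y ^ P := Real.rpow_nonneg (hdn x y) _
      have htt : 0 < t x + t y := add_pos (ht0 x) (ht0 y)
      have h6 : (2 * σ * d x y / w) ^ P = 2 ^ P * σ ^ P * d x y ^ P / (w : ℝ) ^ P := by
        rw [Real.div_rpow (mul_nonneg (by positivity) (hdn x y)) hw0.le,
          Real.mul_rpow (by positivity) (hdn x y), Real.mul_rpow (by norm_num) hσ.le]
      have h7 : Real.exp (P * mst) = Real.exp mst ^ P := by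
        rw [mul_comm, Real.exp_mul]
      have h8 : (w : ℝ) ^ (1 - P) = w / (w : ℝ) ^ P := by
        rw [Real.rpow_sub hw0, Real.rpow_one]
      have h9 : (4:ℝ) ^ P = 2 ^ P * 2 ^ P := by
        rw [← Real.mul_rpow (by norm_num) (by norm_num)]; norm_num
      rw [Real.mul_rpow hσ.le (Real.exp_pos _).le] at h2
      have hwP : 0 < (w : ℝ) ^ P := by positivity
      rw [div_le_iff₀ hV0]
      refine h5.trans ?_
      rw [h6, h7, h8, h9]
      have hw1 : (w : ℝ) + 1 ≤ 2 * w := by
        have : (1:ℝ) ≤ w := by exact_mod_cast hw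
        linarith
      calc 2 ^ P * (2 ^ P * σ ^ P * d x y ^ P / (w : ℝ) ^ P) * (w + 1) * Real.exp mst ^ P =
          2 ^ P * 2 ^ P * d x y ^ P / (w : ℝ) ^ P * (w + 1) * (σ ^ P * Real.exp mst ^ P) := by
            ring
        _ ≤ 2 ^ P * 2 ^ P * d x y ^ P / (w : ℝ) ^ P * (2 * w) *
            (Real.exp 1 ^ P * (t x + t y)) := by
            apply mul_le_mul _ h2 (by positivity) (by positivity)
            exact mul_le_mul_of_nonneg_left hw1 (by positivity)
        _ = _ := by field_simp
    refine ⟨fun x y => ?_, fun x y => ?_⟩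
    · obtain ⟨mst, E, h1, h2, h3, h4, h5, h6⟩ := hpair x y
      have hb := hbound x y mst E h1 h3 h4 h5
      have hfP : 0 ≤ |f x - f y| ^ P := Real.rpow_nonneg (abs_nonneg _) _
      have hterm : ∀ a ∈ Finset.range (V * L),
          |H (a + V) x - H a x - (H (a + V) y - H a y)| ^ P ≤
          (1 + η) * |f x - f y| ^ P *
            (ThreshSeq.th w mst (a + V) - ThreshSeq.th w mst a) ^ P +
            C1 * |E (a + V) - E a| ^ P := by
        intro a _
        have e1 : H (a + V) x - H a x - (H (a + V) y - H a y) =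
            (ThreshSeq.th w mst (a + V) - ThreshSeq.th w mst a) * (f x - f y) +
              (E (a + V) - E a) := by
          have := h6 (a + V)
          have := h6 a
          linarith
        rw [e1]
        refine (hsplit _ _).trans ?_
        have h0 := ThreshSeq.diff_nonneg w mst a V
        rw [abs_mul, abs_of_nonneg h0, Real.mul_rpow h0 (abs_nonneg _)]
        linarith
      have hsum := Finset.sum_le_sum hterm
      rw [Finset.sum_add_distrib, ← Finset.mul_sum, ← Finset.mul_sum] at hsum
      have hth := ThreshSeq.sum_pow_le P hP w mst V (V * L)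
      rw [div_le_iff₀ hV0] at hb ⊢
      have h7 := mul_le_mul_of_nonneg_left hth
        (show 0 ≤ (1 + η) * |f x - f y| ^ P by positivity)
      have h8 := mul_le_mul_of_nonneg_left hb (show 0 ≤ C1 by linarith)
      calc _ ≤ _ := hsum
        _ ≤ _ := add_le_add h7 h8
        _ = _ := by ring
    · obtain ⟨mst, E, h1, h2, h3, h4, h5, h6⟩ := hpair x y
      have hb := hbound x y mst E h1 h3 h4 h5
      have hfP : 0 ≤ |f x - f y| ^ P := Real.rpow_nonneg (abs_nonneg _) _
      have hterm : ∀ a ∈ Finset.range (V * L),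
          |f x - f y| ^ P * (ThreshSeq.th w mst (a + V) - ThreshSeq.th w mst a) ^ P ≤
          (1 + η) * |H (a + V) x - H a x - (H (a + V) y - H a y)| ^ P +
            C1 * |E (a + V) - E a| ^ P := by
        intro a _
        have e1 : (ThreshSeq.th w mst (a + V) - ThreshSeq.th w mst a) * (f x - f y) =
            (H (a + V) x - H a x - (H (a + V) y - H a y)) + (-(E (a + V) - E a)) := by
          have := h6 (a + V)
          have := h6 a
          linarith
        have h0 := ThreshSeq.diff_nonneg w mst a V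
        have h7 := hsplit (H (a + V) x - H a x - (H (a + V) y - H a y)) (-(E (a + V) - E a))
        rw [← e1, abs_mul, abs_of_nonneg h0, Real.mul_rpow h0 (abs_nonneg _), abs_neg] at h7
        linarith
      have hsum := Finset.sum_le_sum hterm
      rw [Finset.sum_add_distrib, ← Finset.mul_sum, ← Finset.mul_sum, ← Finset.mul_sum] at hsum
      have hth := ThreshSeq.le_sum_pow P w mst V (V * L) hw hwV h1 h2
      rw [div_le_iff₀ hV0] at hb
      have h7 := mul_le_mul_of_nonneg_left hth hfP
      have h8 := mul_le_mul_of_nonneg_left hb (show 0 ≤ C1 by linarith)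
      have h9 : (V - w : ℝ) * |f x - f y| ^ P ≤
          (1 + η) * ∑ a ∈ Finset.range (V * L),
            |H (a + V) x - H a x - (H (a + V) y - H a y)| ^ P +
          C1 * (2 * 4 ^ P * Real.exp 1 ^ P * ((w : ℝ) ^ (1 - P) / V) * (t x + t y) *
            d x y ^ P * V) := by
        calc (V - w : ℝ) * |f x - f y| ^ P = |f x - f y| ^ P * (V - w) := by ring
          _ ≤ _ := h7
          _ ≤ _ := hsum
          _ ≤ _ := by linarith
      have h10 : (1 - (w : ℝ) / V) * |f x - f y| ^ P = (V - w : ℝ) * |f x - f y| ^ P / V := by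
        field_simp
      rw [h10, div_le_iff₀ hV0]
      refine h9.trans (le_of_eq ?_)
      field_simp

end Vale.Agent.P249
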