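import Mathlib
import Vale.Agent.P249.T3.Thresh
import Vale.Agent.P249.T3.Bern

open scoped BigOperators

namespace Vale.Agent.P249

theorem t3_geo (z : ℕ → ℝ) (hz : ∀ i, 0 < z i) (h2 : ∀ i, 2 * z i ≤ z (i + 1)) (M : ℝ)
    (hM : 0 ≤ M) (L : ℕ) :
    ∑ i ∈ Finset.range L, (if z i < M then z i else 0) ≤ 2 * M ∧
      ∑ i ∈ Finset.range L, (if z i < M then z i else 0) ≤ z L := by
  induction L with
  | zero => simp; exact ⟨hM, (hz 0).le⟩
  | succ L ih =>
    rw [Finset.sum_range_succ]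
    have h3 := h2 L
    have h4 := hz L
    split_ifs with h
    · constructor <;> linarith [ih.1, ih.2]
    · constructor <;> linarith [ih.1, ih.2]

theorem t3_reindex (V L : ℕ) (g : ℕ → ℝ) :
    ∑ j : Fin V, ∑ i : Fin L, g (j + i * V) = ∑ a ∈ Finset.range (V * L), g a := by
  rw [mul_comm V L, Finset.sum_range, ← Equiv.sum_comp finProdFinEquiv, Fintype.sum_prod_type,
    Finset.sum_comm]
  refine Finset.sum_congr rfl fun j _ => Finset.sum_congr rfl fun i _ => ?_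
  simp [finProdFinEquiv, mul_comm]

/-- the thresholds `s a = (σ e^a)^P` at least double after `V ≥ 1` steps -/
theorem t3_double (P σ : ℝ) (hP1 : 1 ≤ P) (hσ : 0 < σ) (V : ℕ) (hV : 1 ≤ V) (a : ℕ) :
    2 * (σ * Real.exp a) ^ P ≤ (σ * Real.exp ((a + V : ℕ) : ℝ)) ^ P := by
  have hV0 : (1:ℝ) ≤ V := by exact_mod_cast hV
  have hexpV : 1 < Real.exp V := Real.one_lt_exp_iff.2 (by linarith)
  have e1 : σ * Real.exp ((a + V : ℕ) : ℝ) = (σ * Real.exp a) * Real.exp V := by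
    push_cast; rw [Real.exp_add]; ring
  rw [e1, Real.mul_rpow (x := σ * Real.exp a) (by positivity) (by positivity), mul_comm]
  apply mul_le_mul_of_nonneg_left _ (by positivity)
  calc (2:ℝ) ≤ Real.exp V := by have := Real.add_one_le_exp (V : ℝ); linarith
    _ = Real.exp V ^ (1:ℝ) := (Real.rpow_one _).symm
    _ ≤ Real.exp V ^ P := Real.rpow_le_rpow_of_exponent_le hexpV.le hP1

/-- one shift: Bernoulli selection of the pieces -/
theorem asm_shift (P : ℝ) (hP1 : 1 ≤ P) (η : ℝ) (hη : 0 < η) : ∃ CG : ℝ, 0 < CG ∧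
    ∀ {X I : Type} [Fintype X] [Nonempty X] [Fintype I] (d : X → X → ℝ)
      (_ : ∀ x y, 0 ≤ d x y) (t : I → X → ℝ) (_ : ∀ k x, 0 < t k x) (A : ℝ) (_ : 0 < A)
      (_ : ∀ x, ∑ k, t k x ≤ A) (V w L : ℕ) (_ : 1 ≤ V) (σ : ℝ) (_ : 0 < σ)
      (Dk : I → ℕ → X → ℝ)
      (_ : ∀ k (a : ℕ) x y, |Dk k a x - Dk k a y| ≤ 4 * σ * Real.exp (a + V + w) * d x y)
      (_ : ∀ k (a : ℕ) x y, t k x ≤ (σ * Real.exp a) ^ P → t k y ≤ (σ * Real.exp a) ^ P →
          Dk k a x = Dk k a y)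
      (μ : ℝ) (_ : 0 < μ) (_ : μ ≤ 1) (m0 : ℝ) (_ : 0 ≤ m0) (B : ℝ)
      (_ : B = ((μ / (2 * A))⁻¹) ^ (1 / P) * (4 * Real.exp (V + w))) (a0 : ℕ),
      ∃ (Ω : Type) (_ : Fintype Ω) (wt : Ω → ℝ) (Ψ : Ω → X → ℝ), (∀ ω, 0 ≤ wt ω) ∧
        ∑ ω, wt ω = 1 ∧
        (∀ ω x y, |Ψ ω x - Ψ ω y| ≤ 2 * m0 * B * d x y) ∧
        (∀ x y, ∑ ω, wt ω * |Ψ ω x - Ψ ω y| ^ P ≤
          (1 + η) * Real.exp (CG * μ) *
            ∑ k, ∑ i : Fin L, |Dk k (a0 + i * V) x - Dk k (a0 + i * V) y| ^ P) ∧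
        (∀ x y, (1 - 2 * μ) *
            ∑ k, ∑ i : Fin L, |Dk k (a0 + i * V) x - Dk k (a0 + i * V) y| ^ P ≤
            ∑ ω, wt ω * |Ψ ω x - Ψ ω y| ^ P +
          CG * Fintype.card X * Real.exp (20 * μ - 2 * m0) * (B * d x y) ^ P) := by
  classical
  obtain ⟨CG, hCG, hG⟩ := bern P hP1 η hη
  refine ⟨CG, hCG, ?_⟩
  intro X I _ _ _ d hdn t ht0 A hA0 htsum V w L hV σ hσ Dk hD1 hD2 μ hμ hμ1 m0 hm0 B hBd a0
  have hP0 : 0 < P := by linarith
  have htA : ∀ k x, t k x ≤ A := fun k x =>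
    (Finset.single_le_sum (f := fun k => t k x) (fun k _ => (ht0 k x).le)
      (Finset.mem_univ k)).trans (htsum x)
  set κ := μ / (2 * A) with hκd
  have hκ : 0 < κ := by positivity
  have hB : 0 < B := by rw [hBd]; positivity
  have hBP : B ^ P = κ⁻¹ * (4 * Real.exp (V + w)) ^ P := by
    rw [hBd, Real.mul_rpow (by positivity) (by positivity), ← Real.rpow_mul (by positivity),
      one_div_mul_cancel hP0.ne', Real.rpow_one]
  have hs0 : ∀ a : ℕ, 0 < (σ * Real.exp a) ^ P := fun a => by positivity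
  have hact : ∀ (l : I × Fin L) x y, Dk l.1 (a0 + l.2 * V) x ≠ Dk l.1 (a0 + l.2 * V) y →
      l ∈ Finset.univ.filter (fun l : I × Fin L =>
        (σ * Real.exp ((a0 + l.2 * V : ℕ) : ℝ)) ^ P < t l.1 x) ∨
      l ∈ Finset.univ.filter (fun l : I × Fin L =>
        (σ * Real.exp ((a0 + l.2 * V : ℕ) : ℝ)) ^ P < t l.1 y) := by
    intro l x y hne
    by_contra hcon
    push Not at hcon
    simp only [Finset.mem_filter, Finset.mem_univ, true_and, not_lt] at hcon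
    exact hne (hD2 l.1 _ x y hcon.1 hcon.2)
  have hμsum : ∀ x, ∑ l ∈ Finset.univ.filter (fun l : I × Fin L =>
      (σ * Real.exp ((a0 + l.2 * V : ℕ) : ℝ)) ^ P < t l.1 x),
      min 1 (κ * (σ * Real.exp ((a0 + l.2 * V : ℕ) : ℝ)) ^ P) ≤ μ := by
    intro x
    rw [Finset.sum_filter, Fintype.sum_prod_type]
    have h1 : ∀ k, ∑ i : Fin L, (if (σ * Real.exp ((a0 + i * V : ℕ) : ℝ)) ^ P < t k x then
        min 1 (κ * (σ * Real.exp ((a0 + i * V : ℕ) : ℝ)) ^ P) else 0) ≤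
        κ * (2 * t k x) := by
      intro k
      have h2 := (t3_geo (fun i => (σ * Real.exp ((a0 + i * V : ℕ) : ℝ)) ^ P) (fun i => hs0 _)
        (fun i => by
          have := t3_double P σ hP1 hσ V hV (a0 + i * V)
          have e : a0 + i * V + V = a0 + (i + 1) * V := by ring
          rw [e] at this
          exact this) (t k x) (ht0 k x).le L).1
      rw [Finset.sum_range] at h2
      refine le_trans ?_ (mul_le_mul_of_nonneg_left h2 hκ.le)
      rw [Finset.mul_sum]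
      apply Finset.sum_le_sum
      intro i _
      split_ifs
      · exact min_le_right _ _
      · simp
    refine (Finset.sum_le_sum fun k _ => h1 k).trans ?_
    rw [← Finset.mul_sum, ← Finset.mul_sum]
    calc κ * (2 * ∑ k, t k x) ≤ κ * (2 * A) := by
          apply mul_le_mul_of_nonneg_left _ hκ.le
          linarith [htsum x]
      _ = μ := by rw [hκd]; field_simp
  have hDB : ∀ (l : I × Fin L) x y, |Dk l.1 (a0 + l.2 * V) x - Dk l.1 (a0 + l.2 * V) y| ^ P ≤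
      min 1 (κ * (σ * Real.exp ((a0 + l.2 * V : ℕ) : ℝ)) ^ P) * (B * d x y) ^ P := by
    intro l x y
    set a : ℕ := a0 + l.2 * V with had
    have hq0 : 0 ≤ min 1 (κ * (σ * Real.exp (a : ℝ)) ^ P) :=
      le_min zero_le_one (mul_nonneg hκ.le (hs0 _).le)
    rcases le_or_gt (κ * (σ * Real.exp (a : ℝ)) ^ P) 1 with h | h
    · rw [min_eq_right h, Real.mul_rpow hB.le (hdn x y), hBP]
      have e2 : κ * (σ * Real.exp (a : ℝ)) ^ P *
          (κ⁻¹ * (4 * Real.exp (V + w)) ^ P * d x y ^ P) =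
          (σ * Real.exp (a : ℝ)) ^ P * (4 * Real.exp (V + w)) ^ P * d x y ^ P := by
        field_simp
      rw [e2, ← Real.mul_rpow (by positivity) (by positivity),
        ← Real.mul_rpow (by positivity) (hdn x y)]
      apply Real.rpow_le_rpow (abs_nonneg _) _ hP0.le
      refine (hD1 l.1 a x y).trans (le_of_eq ?_)
      have e3 : Real.exp (a + V + w) = Real.exp a * Real.exp (V + w) := by
        rw [← Real.exp_add]; congr 1; ring
      rw [e3]
      ring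
    · have h1 : A ≤ (σ * Real.exp (a : ℝ)) ^ P := by
        have h3 : κ * (σ * Real.exp (a : ℝ)) ^ P = μ * ((σ * Real.exp (a : ℝ)) ^ P) / (2 * A) := by
          rw [hκd]; ring
        rw [h3, lt_div_iff₀ (by positivity)] at h
        nlinarith [hs0 a]
      have h2 : Dk l.1 a x = Dk l.1 a y :=
        hD2 l.1 a x y ((htA _ _).trans h1) ((htA _ _).trans h1)
      rw [h2, sub_self, abs_zero, Real.zero_rpow hP0.ne']
      exact mul_nonneg hq0 (Real.rpow_nonneg (mul_nonneg hB.le (hdn x y)) _)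
  obtain ⟨Ω, hΩ, wt, Ψ, hw0, hws, hΨ1, hΨ2, hΨ3⟩ := hG d hdn
    (fun l : I × Fin L => Dk l.1 (a0 + l.2 * V))
    (fun l => min 1 (κ * (σ * Real.exp ((a0 + l.2 * V : ℕ) : ℝ)) ^ P))
    (fun l => lt_min one_pos (mul_pos hκ (hs0 _))) (fun l => min_le_left _ _)
    (fun x => Finset.univ.filter (fun l : I × Fin L =>
        (σ * Real.exp ((a0 + l.2 * V : ℕ) : ℝ)) ^ P < t l.1 x)) hact μ hμsum B hB hDB m0 hm0
  refine ⟨Ω, hΩ, wt, Ψ, hw0, hws, hΨ1, fun x y => ?_, fun x y => ?_⟩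
  · have := hΨ2 x y
    rw [Fintype.sum_prod_type] at this
    exact this
  · have := hΨ3 x y
    rw [Fintype.sum_prod_type] at this
    exact this

end Vale.Agent.P249
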