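import Mathlib
import Vale.Agent.P249.T3.Asm1

open scoped BigOperators

namespace Vale.Agent.P249

theorem t3_scale {X I : Type} [Fintype X] [Fintype I] (P : ℝ) (hP0 : 0 < P)
    (t : I → X → ℝ) (ht0 : ∀ k x, 0 < t k x) (A : ℝ) (hA : 0 < A) (V w : ℕ) (hV : 1 ≤ V) :
    ∃ (σ : ℝ) (L : ℕ), 0 < σ ∧ (∀ k x, (σ * Real.exp (V + w)) ^ P ≤ t k x) ∧
      A ≤ (σ * Real.exp (V * L)) ^ P := by
  classical
  obtain ⟨τ, hτ, hτt⟩ : ∃ τ : ℝ, 0 < τ ∧ ∀ k x, τ ≤ t k x := by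
    by_cases hI : Nonempty (I × X)
    · obtain ⟨q, -, hq⟩ := Finset.exists_min_image (Finset.univ : Finset (I × X))
        (fun q => t q.1 q.2) Finset.univ_nonempty
      exact ⟨t q.1 q.2, ht0 _ _, fun k x => hq (k, x) (Finset.mem_univ _)⟩
    · exact ⟨1, one_pos, fun k x => absurd ⟨(k, x)⟩ hI⟩
  have hV0 : (1:ℝ) ≤ V := by exact_mod_cast hV
  set σ := τ ^ (1 / P) * Real.exp (-(V + w)) with hσd
  have hσ : 0 < σ := by positivity
  have hσ1 : (σ * Real.exp (V + w)) ^ P = τ := by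
    have e1 : σ * Real.exp (V + w) = τ ^ (1 / P) := by
      rw [hσd, mul_assoc, ← Real.exp_add]
      simp
    rw [e1, ← Real.rpow_mul hτ.le, one_div_mul_cancel hP0.ne', Real.rpow_one]
  have hexpV : 1 < Real.exp V := Real.one_lt_exp_iff.2 (by linarith)
  obtain ⟨L, hL⟩ := pow_unbounded_of_one_lt (A ^ (1 / P) / σ) hexpV
  refine ⟨σ, L, hσ, fun k x => by rw [hσ1]; exact hτt k x, ?_⟩
  have e1 : Real.exp (V * L) = Real.exp V ^ L := by rw [← Real.exp_nat_mul, mul_comm]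
  rw [e1]
  rw [div_lt_iff₀ hσ] at hL
  have e2 : A = (A ^ (1 / P)) ^ P := by
    rw [← Real.rpow_mul hA.le, one_div_mul_cancel hP0.ne', Real.rpow_one]
  calc A = (A ^ (1 / P)) ^ P := e2
    _ ≤ _ := Real.rpow_le_rpow (by positivity) (by linarith) hP0.le

/-- averaging over the shifts -/
theorem asm_core (P : ℝ) (hP1 : 1 ≤ P) (η : ℝ) (hη : 0 < η) : ∃ CF CG : ℝ, 0 < CF ∧ 0 < CG ∧
    ∀ {X I : Type} [Fintype X] [Nonempty X] [Fintype I] (f : X → I → ℝ) (d : X → X → ℝ)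
      (_ : ∀ x y, d x y ^ P = ∑ k, |f x k - f y k| ^ P) (_ : ∀ x, d x x = 0)
      (_ : ∀ x y, 0 ≤ d x y) (_ : ∀ x y, d x y = d y x)
      (_ : ∀ x y z, d x z ≤ d x y + d y z) (t : I → X → ℝ) (_ : ∀ k x, 0 < t k x)
      (_ : ∀ k x y, |f x k - f y k| ^ P ≤ (t k x + t k y) * d x y ^ P) (A : ℝ) (_ : 0 < A)
      (_ : ∀ x, ∑ k, t k x ≤ A) (V w : ℕ) (_ : 1 ≤ w) (_ : w ≤ V)
      (μ : ℝ) (_ : 0 < μ) (_ : μ ≤ 1) (m0 : ℝ) (_ : 0 ≤ m0) (B : ℝ)
      (_ : B = ((μ / (2 * A))⁻¹) ^ (1 / P) * (4 * Real.exp (V + w))),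
      ∃ (Ω : Type) (_ : Fintype Ω) (wt : Ω → ℝ) (Ψ : Ω → X → ℝ) (SD : X → X → ℝ),
        (∀ ω, 0 ≤ wt ω) ∧ ∑ ω, wt ω = 1 ∧ (∀ x y, 0 ≤ SD x y) ∧
        (∀ x y, SD x y ≤
          (1 + η + CF * ((w : ℝ) ^ (1 - P) / V) * (2 * A)) * d x y ^ P) ∧
        (∀ x y, (1 - (w : ℝ) / V) * d x y ^ P ≤
          (1 + η) * SD x y + CF * ((w : ℝ) ^ (1 - P) / V) * (2 * A) * d x y ^ P) ∧
        (∀ ω x y, |Ψ ω x - Ψ ω y| ≤ 2 * m0 * B * d x y) ∧
        (∀ x y, ∑ ω, wt ω * |Ψ ω x - Ψ ω y| ^ P ≤ (1 + η) * Real.exp (CG * μ) * SD x y) ∧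
        (∀ x y, (1 - 2 * μ) * SD x y ≤ ∑ ω, wt ω * |Ψ ω x - Ψ ω y| ^ P +
          CG * Fintype.card X * Real.exp (20 * μ - 2 * m0) * (B * d x y) ^ P) := by
  classical
  obtain ⟨CF, hCF, hF⟩ := thresh P hP1 η hη
  obtain ⟨CG, hCG, hG⟩ := asm_shift P hP1 η hη
  refine ⟨CF, CG, hCF, hCG, ?_⟩
  intro X I _ _ _ f d hd hd0 hdn hds hdt t ht0 ht1 A hA htsum V w hw1 hwV μ hμ hμ1 m0 hm0 B hB
  have hP0 : 0 < P := by linarith
  have hV : 1 ≤ V := hw1.trans hwV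
  have hV0 : (0:ℝ) < V := by exact_mod_cast hV
  have htA : ∀ k x, t k x ≤ A := fun k x =>
    (Finset.single_le_sum (f := fun k => t k x) (fun k _ => (ht0 k x).le)
      (Finset.mem_univ k)).trans (htsum x)
  have hdP : ∀ x y, 0 ≤ d x y ^ P := fun x y => Real.rpow_nonneg (hdn x y) _
  obtain ⟨σ, L, hσ, hσ1, hL⟩ := t3_scale P hP0 t ht0 A hA V w hV
  choose Dk hD1 hD2 hD3 hD4 using fun k => hF d hd0 hdn hds hdt (fun x => f x k) (t k) (ht0 k)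
    (ht1 k) V w L hw1 hwV σ hσ (hσ1 k) (fun x => (htA k x).trans hL)
  choose Ω hΩ wt Ψ hw0 hws hΨ1 hΨ2 hΨ3 using fun a0 : Fin V =>
    hG d hdn t ht0 A hA htsum V w L hV σ hσ Dk hD1 hD2 μ hμ hμ1 m0 hm0 B hB a0
  have hSD : ∀ x y, (∑ a0 : Fin V, ∑ k, ∑ i : Fin L,
      |Dk k (a0 + i * V) x - Dk k (a0 + i * V) y| ^ P) / V =
      ∑ k, (∑ a ∈ Finset.range (V * L), |Dk k a x - Dk k a y| ^ P) / V := by
    intro x y
    rw [← Finset.sum_div]
    congr 1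
    rw [Finset.sum_comm]
    exact Finset.sum_congr rfl fun k _ => t3_reindex V L (fun a => |Dk k a x - Dk k a y| ^ P)
  have herr : ∀ x y, CF * ((w : ℝ) ^ (1 - P) / V) * (∑ k, t k x + ∑ k, t k y) * d x y ^ P ≤
      CF * ((w : ℝ) ^ (1 - P) / V) * (2 * A) * d x y ^ P := by
    intro x y
    apply mul_le_mul_of_nonneg_right _ (hdP x y)
    apply mul_le_mul_of_nonneg_left _ (by positivity)
    linarith [htsum x, htsum y]
  refine ⟨Σ a0 : Fin V, Ω a0, inferInstance, fun ω => wt ω.1 ω.2 / V,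
    fun ω x => Ψ ω.1 ω.2 x,
    fun x y => ∑ k, (∑ a ∈ Finset.range (V * L), |Dk k a x - Dk k a y| ^ P) / V,
    fun ω => div_nonneg (hw0 _ _) hV0.le, ?_, fun x y => ?_, fun x y => ?_, fun x y => ?_,
    fun ω x y => hΨ1 ω.1 ω.2 x y, fun x y => ?_, fun x y => ?_⟩
  · rw [Fintype.sum_sigma]
    have : ∀ a0 : Fin V, ∑ ω, wt a0 ω / V = 1 / V := by
      intro a0
      rw [← Finset.sum_div, hws]
    rw [Finset.sum_congr rfl fun a0 _ => this a0, Finset.sum_const, Finset.card_univ,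
      Fintype.card_fin, nsmul_eq_mul]
    field_simp
  · exact Finset.sum_nonneg fun k _ =>
      div_nonneg (Finset.sum_nonneg fun a _ => Real.rpow_nonneg (abs_nonneg _) _) hV0.le
  · have h1 := Finset.sum_le_sum fun k (_ : k ∈ Finset.univ) => hD3 k x y
    rw [Finset.sum_add_distrib, ← Finset.mul_sum, ← hd, ← Finset.sum_mul, ← Finset.mul_sum,
      Finset.sum_add_distrib] at h1
    have := herr x y
    linarith
  · have h1 := Finset.sum_le_sum fun k (_ : k ∈ Finset.univ) => hD4 k x y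
    rw [Finset.sum_add_distrib, ← Finset.mul_sum, ← hd, ← Finset.mul_sum, ← Finset.sum_mul,
      ← Finset.mul_sum, Finset.sum_add_distrib] at h1
    have := herr x y
    linarith
  · beta_reduce
    rw [← hSD, mul_div_assoc', Fintype.sum_sigma, Finset.mul_sum]
    rw [le_div_iff₀ hV0, Finset.sum_mul]
    apply Finset.sum_le_sum
    intro a0 _
    rw [Finset.sum_mul]
    refine le_trans (le_of_eq ?_) (hΨ2 a0 x y)
    refine Finset.sum_congr rfl fun ω _ => ?_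
    field_simp
  · beta_reduce
    rw [← hSD, mul_div_assoc', div_le_iff₀ hV0, Finset.mul_sum]
    refine (Finset.sum_le_sum fun a0 _ => hΨ3 a0 x y).trans ?_
    rw [Finset.sum_add_distrib, Finset.sum_const, Finset.card_univ, Fintype.card_fin,
      nsmul_eq_mul, add_mul, Fintype.sum_sigma, Finset.sum_mul]
    refine add_le_add (le_of_eq ?_) (le_of_eq (by ring))
    refine Finset.sum_congr rfl fun a0 _ => ?_
    rw [Finset.sum_mul]
    refine Finset.sum_congr rfl fun ω _ => ?_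
    field_simp

end Vale.Agent.P249
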