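import Mathlib

open scoped BigOperators

namespace Vale.Agent.P249

/-- module J1: numerics. Here `A = CS * L ^ (γ * P)` and
`κ = μ / (2 * A)`, `B = (κ⁻¹)^(1/P) * (4 * exp (V + w))`. -/
theorem t3_num (P γ CS K1 μ CG η : ℝ) (hP : 1 < P) (hγ : 0 < γ) (hγ1 : γ < 1) (hCS : 1 ≤ CS)
    (hK1 : 1 ≤ K1) (hμ : 0 < μ) (hμ1 : μ ≤ 1) (hCG : 0 < CG) (hη : 0 < η) :
    ∃ K2 C : ℝ, 0 < K2 ∧ 1 ≤ C ∧ ∀ n : ℝ, 1 ≤ n → ∀ V w : ℕ, w ≤ V →
      (V : ℝ) ≤ K1 * (1 + Real.log n) ^ γ →
      CG * n * Real.exp (20 * μ - 2 * (K2 * (1 + Real.log n))) *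
        (((μ / (2 * (CS * (1 + Real.log n) ^ (γ * P))))⁻¹) ^ (1 / P) *
          (4 * Real.exp (V + w))) ^ P ≤ η ∧
      2 * (K2 * (1 + Real.log n)) *
        (((μ / (2 * (CS * (1 + Real.log n) ^ (γ * P))))⁻¹) ^ (1 / P) *
          (4 * Real.exp (V + w))) ≤ Real.exp (C * (1 + Real.log n) ^ γ) := by
  have hP0 : 0 < P := by linarith
  set q : ℝ := 2 * CS / μ with hq
  have hq0 : 0 < q := by positivity
  set M : ℝ := CG * Real.exp (20 * μ) * (q * 4 ^ P) with hM
  have hM0 : 0 < M := by positivity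
  set c : ℝ := max 0 (Real.log (M / η)) with hc
  have hc0 : 0 ≤ c := le_max_left _ _
  set K2 : ℝ := (1 + P * γ + 2 * P * K1 + c) / 2 with hK2
  have hK20 : 0 < K2 := by
    have h1 : 0 < P * γ := by positivity
    have h2 : 0 < 2 * P * K1 := by positivity
    rw [hK2]; linarith
  set D0 : ℝ := 4 * q ^ (1 / P) with hD0
  have hD00 : 0 < D0 := by positivity
  refine ⟨K2, 1 + (2 * K2 * D0 + 1 / γ + 2 * K1), hK20, ?_, ?_⟩
  · have : 0 ≤ 2 * K2 * D0 + 1 / γ + 2 * K1 := by positivity
    linarith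
  intro n hn V w hwV hV
  set L : ℝ := 1 + Real.log n with hL
  have hL1 : 1 ≤ L := by
    have := Real.log_nonneg hn
    linarith
  have hL0 : 0 < L := by linarith
  set x : ℝ := L ^ γ with hx
  have hx1 : 1 ≤ x := Real.one_le_rpow hL1 hγ.le
  have hxL : x ≤ L := by
    calc x ≤ L ^ (1 : ℝ) := Real.rpow_le_rpow_of_exponent_le hL1 hγ1.le
      _ = L := Real.rpow_one L
  have hlogx : Real.log L ≤ x / γ := Real.log_le_rpow_div hL0.le hγ
  have hVw : (V : ℝ) + w ≤ 2 * K1 * x := by
    have h1 : (w : ℝ) ≤ V := by exact_mod_cast hwV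
    linarith
  have hQ : (μ / (2 * (CS * L ^ (γ * P))))⁻¹ = q * x ^ P := by
    rw [hq, hx, ← Real.rpow_mul hL0.le]
    have : 0 < L ^ (γ * P) := Real.rpow_pos_of_pos hL0 _
    field_simp
  have hxP : 0 < x ^ P := Real.rpow_pos_of_pos (by linarith) _
  have hQ1 : (q * x ^ P) ^ (1 / P) = q ^ (1 / P) * x := by
    rw [Real.mul_rpow hq0.le hxP.le, ← Real.rpow_mul (by linarith : (0:ℝ) ≤ x),
      mul_one_div_cancel hP0.ne', Real.rpow_one]
  have hn0 : n = Real.exp (L - 1) := by
    rw [hL, add_sub_cancel_left, Real.exp_log (by linarith)]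
  constructor
  · rw [hQ, Real.mul_rpow (by positivity) (by positivity), ← Real.rpow_mul (by positivity),
      one_div_mul_cancel hP0.ne', Real.rpow_one, Real.mul_rpow (by norm_num) (Real.exp_pos _).le,
      ← Real.exp_mul]
    have h1 : x ^ P ≤ Real.exp (P * γ * L) := by
      have e : x ^ P = Real.exp (Real.log L * (γ * P)) := by
        rw [hx, ← Real.rpow_mul hL0.le, Real.rpow_def_of_pos hL0]
      rw [e]
      refine Real.exp_le_exp.2 ?_
      have h2 : Real.log L ≤ L := (Real.log_le_sub_one_of_pos hL0).trans (by linarith)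
      have h3 := mul_le_mul_of_nonneg_right h2 (show 0 ≤ γ * P by positivity)
      linarith
    have h2 : Real.exp (((V : ℝ) + w) * P) ≤ Real.exp (2 * P * K1 * L) := by
      refine Real.exp_le_exp.2 ?_
      have h3 : (V : ℝ) + w ≤ 2 * K1 * L :=
        hVw.trans (mul_le_mul_of_nonneg_left hxL (by linarith))
      have h4 := mul_le_mul_of_nonneg_right h3 hP0.le
      linarith
    have h3 : M ≤ η * Real.exp (c * L) := by
      have h4 : Real.log (M / η) ≤ c * L := by
        calc Real.log (M / η) ≤ c := le_max_right _ _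
          _ = c * 1 := by ring
          _ ≤ c * L := mul_le_mul_of_nonneg_left hL1 hc0
      have h5 : M / η ≤ Real.exp (c * L) := by
        rw [← Real.log_le_iff_le_exp (by positivity)]
        exact h4
      rw [div_le_iff₀ hη] at h5
      linarith
    calc CG * n * Real.exp (20 * μ - 2 * (K2 * L)) *
          (q * x ^ P * (4 ^ P * Real.exp (((V : ℝ) + w) * P)))
        ≤ CG * n * Real.exp (20 * μ - 2 * (K2 * L)) *
          (q * Real.exp (P * γ * L) * (4 ^ P * Real.exp (2 * P * K1 * L))) := by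
          refine mul_le_mul_of_nonneg_left ?_ (by positivity)
          refine mul_le_mul (mul_le_mul_of_nonneg_left h1 hq0.le)
            (mul_le_mul_of_nonneg_left h2 (by positivity)) (by positivity) (by positivity)
      _ = M * (Real.exp (L - 1) * Real.exp (-(2 * (K2 * L))) * Real.exp (P * γ * L) *
            Real.exp (2 * P * K1 * L)) := by
          rw [hM, hn0, sub_eq_add_neg (20 * μ), Real.exp_add (20 * μ)]
          ring
      _ = M * Real.exp (-1 - c * L) := by
          rw [← Real.exp_add, ← Real.exp_add, ← Real.exp_add]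
          congr 2
          rw [hK2]
          ring
      _ ≤ (η * Real.exp (c * L)) * Real.exp (-1 - c * L) :=
          mul_le_mul_of_nonneg_right h3 (Real.exp_pos _).le
      _ = η * Real.exp (-1) := by
          rw [mul_assoc, ← Real.exp_add]
          congr 2
          ring
      _ ≤ η * 1 := mul_le_mul_of_nonneg_left (Real.exp_le_one_iff.2 (by norm_num)) hη.le
      _ = η := mul_one _
  · rw [hQ, hQ1]
    have h1 : L ≤ Real.exp (1 / γ * x) := by
      calc L = Real.exp (Real.log L) := (Real.exp_log hL0).symm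
        _ ≤ Real.exp (1 / γ * x) := Real.exp_le_exp.2 (by
            calc Real.log L ≤ x / γ := hlogx
              _ = 1 / γ * x := by ring)
    have h2 : x ≤ Real.exp x := by
      have := Real.add_one_le_exp x
      linarith
    have h3 : 2 * K2 * D0 ≤ Real.exp (2 * K2 * D0 * x) := by
      have h4 := Real.add_one_le_exp (2 * K2 * D0 * x)
      have h5 : 2 * K2 * D0 * 1 ≤ 2 * K2 * D0 * x :=
        mul_le_mul_of_nonneg_left hx1 (by positivity)
      linarith
    have h4 : Real.exp ((V : ℝ) + w) ≤ Real.exp (2 * K1 * x) := Real.exp_le_exp.2 hVw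
    calc 2 * (K2 * L) * (q ^ (1 / P) * x * (4 * Real.exp ((V : ℝ) + w)))
        = (2 * K2 * D0) * L * x * Real.exp ((V : ℝ) + w) := by rw [hD0]; ring
      _ ≤ Real.exp (2 * K2 * D0 * x) * Real.exp (1 / γ * x) * Real.exp x *
            Real.exp (2 * K1 * x) := by
          have hx0 : 0 ≤ x := by linarith
          refine mul_le_mul (mul_le_mul (mul_le_mul h3 h1 hL0.le (Real.exp_pos _).le) h2 hx0
            (by positivity)) h4 (Real.exp_pos _).le (by positivity)
      _ = Real.exp ((1 + (2 * K2 * D0 + 1 / γ + 2 * K1)) * x) := by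
          rw [← Real.exp_add, ← Real.exp_add, ← Real.exp_add]
          congr 1
          ring

end Vale.Agent.P249
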