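import Mathlib
import Vale.Agent.P249.Gibbs

open scoped BigOperators ENNReal

namespace Vale.Agent.P249

/-- module D (GibbsPow.lean). -/
noncomputable def Lam {X : Type} [Fintype X] (D : X → ℝ) (β : ℝ) : ℝ :=
  Real.log (Zf D (β / 2)) - Real.log (Zf D β)

theorem Lam_nonneg {X : Type} [Fintype X] [Nonempty X] (D : X → ℝ) (hD : ∀ z, 0 ≤ D z)
    (β : ℝ) (hβ : 0 ≤ β) : 0 ≤ Lam D β := by
  unfold Lam
  rw [sub_nonneg]
  apply Real.log_le_log (Zf_pos D β)
  unfold Zf
  apply Finset.sum_le_sum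
  intro z _
  apply Real.exp_le_exp.mpr
  have := mul_nonneg hβ (hD z)
  nlinarith

theorem Lam_sum {X : Type} [Fintype X] [Nonempty X] (D : X → ℝ) (hD : ∀ z, 0 ≤ D z)
    (h0 : ∃ z, D z = 0) (b : ℝ) (hb : 0 < b) (J : ℕ) :
    ∑ j ∈ Finset.range J, Lam D (b / 2 ^ j) ≤ Real.log (Fintype.card X) := by
  have hstep : ∀ j, Lam D (b / 2 ^ j) =
      Real.log (Zf D (b / 2 ^ (j + 1))) - Real.log (Zf D (b / 2 ^ j)) := by
    intro j
    unfold Lam
    rw [div_div, ← pow_succ]
  rw [Finset.sum_congr rfl (fun j _ => hstep j),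
    Finset.sum_range_sub (fun j => Real.log (Zf D (b / 2 ^ j)))]
  have h1 : Real.log (Zf D (b / 2 ^ J)) ≤ Real.log (Fintype.card X) := by
    apply Real.log_le_log (Zf_pos D _)
    unfold Zf
    calc ∑ z, Real.exp (-(b / 2 ^ J * D z)) ≤ ∑ _z : X, (1 : ℝ) := by
          apply Finset.sum_le_sum
          intro z _
          apply Real.exp_le_one_iff.mpr
          have : 0 ≤ b / 2 ^ J * D z := mul_nonneg (by positivity) (hD z)
          linarith
      _ = Fintype.card X := by simp
  have h2 : 0 ≤ Real.log (Zf D (b / 2 ^ 0)) := by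
    apply Real.log_nonneg
    obtain ⟨z, hz⟩ := h0
    unfold Zf
    calc (1 : ℝ) = Real.exp (-(b / 2 ^ 0 * D z)) := by rw [hz]; simp
      _ ≤ ∑ z, Real.exp (-(b / 2 ^ 0 * D z)) :=
          Finset.single_le_sum (f := fun z => Real.exp (-(b / 2 ^ 0 * D z)))
            (fun i _ => (Real.exp_pos _).le) (Finset.mem_univ z)
  linarith

private lemma gpow_Z_le {X : Type} [Fintype X] [Nonempty X] (d : X → X → ℝ)
    (hs : ∀ x y, d x y = d y x) (ht : ∀ x y z, d x z ≤ d x y + d y z) (β : ℝ) (hβ : 0 ≤ β)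
    (x y : X) : Real.log (Zf (d x) β) ≤ Real.log (Zf (d y) β) + β * d x y := by
  have h : Zf (d x) β ≤ Real.exp (β * d x y) * Zf (d y) β := by
    unfold Zf
    rw [Finset.mul_sum]
    apply Finset.sum_le_sum
    intro z _
    rw [← Real.exp_add]
    apply Real.exp_le_exp.mpr
    have h := ht y x z
    rw [hs y x] at h
    nlinarith
  have h2 := Real.log_le_log (Zf_pos _ _) h
  rw [Real.log_mul (Real.exp_pos _).ne' (Zf_pos _ _).ne', Real.log_exp] at h2
  linarith

theorem Lam_close {X : Type} [Fintype X] [Nonempty X] (d : X → X → ℝ)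
    (hs : ∀ x y, d x y = d y x) (ht : ∀ x y z, d x z ≤ d x y + d y z) (β : ℝ) (hβ : 0 ≤ β)
    (x y : X) (h1 : β * d x y ≤ 1) : Lam (d x) β ≤ Lam (d y) β + 3 / 2 := by
  have hA := gpow_Z_le d hs ht (β / 2) (by linarith) x y
  have hB := gpow_Z_le d hs ht β hβ y x
  rw [hs y x] at hB
  unfold Lam
  linarith

theorem gibbs_pow (P : ℝ) (hP : 1 ≤ P) {X : Type} [Fintype X] [Nonempty X] (D : X → ℝ)
    (hD : ∀ z, 0 ≤ D z) (β : ℝ) (hβ : 0 ≤ β) :
    ∑ z, Real.exp (-(β * D z)) / Zf D β * (β * D z) ^ P ≤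
      (4 * Lam D β + 1) ^ (P - 1) * (2 * Lam D β) + 3 * (4 * P) ^ P * Lam D β := by
  have hZ := Zf_pos D β
  have hZ2 := Zf_pos D (β / 2)
  have hL0 := Lam_nonneg D hD β hβ
  have hJ := gibbs_jensen D β
  have hLdef : Lam D β = Real.log (Zf D (β / 2)) - Real.log (Zf D β) := rfl
  rw [← hLdef] at hJ
  have hexpL : Real.exp (Lam D β) = Zf D (β / 2) / Zf D β := by
    rw [hLdef, Real.exp_sub, Real.exp_log hZ, Real.exp_log hZ2]
  set L := Lam D β with hL
  have hsum1 : ∑ z, Real.exp (-(β * D z)) / Zf D β = 1 := by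
    rw [← Finset.sum_div]
    exact div_self hZ.ne'
  have hsumE : ∑ z, Real.exp (-(β * D z)) / Zf D β * Real.exp (β * D z / 2) = Real.exp L := by
    rw [hexpL]
    have : ∀ z, Real.exp (-(β * D z)) / Zf D β * Real.exp (β * D z / 2) =
        Real.exp (-(β / 2 * D z)) / Zf D β := by
      intro z
      rw [div_mul_eq_mul_div, ← Real.exp_add]
      congr 2
      ring
    rw [Finset.sum_congr rfl (fun z _ => this z), ← Finset.sum_div]
    rfl
  have hP0 : 0 < P := by linarith
  have key : ∀ t : ℝ, 0 ≤ t → t ^ P ≤ (4 * L + 1) ^ (P - 1) * t +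
      3 * (4 * P) ^ P * Real.exp (-L) * (Real.exp (t / 2) - 1) := by
    intro t ht
    have hA : 0 ≤ (4 * L + 1) ^ (P - 1) * t := by positivity
    have hB1 : 0 ≤ Real.exp (t / 2) - 1 := by
      have := Real.one_le_exp (show 0 ≤ t / 2 by linarith)
      linarith
    have hB : 0 ≤ 3 * (4 * P) ^ P * Real.exp (-L) * (Real.exp (t / 2) - 1) := by positivity
    rcases le_or_gt t (4 * L + 1) with h | h
    · have e : t ^ P = t ^ (P - 1) * t := by
        conv_rhs => rw [mul_comm, ← Real.rpow_one_add' ht (by linarith)]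
        congr 1
        ring
      have h2 : t ^ (P - 1) ≤ (4 * L + 1) ^ (P - 1) := Real.rpow_le_rpow ht h (by linarith)
      have h3 : t ^ (P - 1) * t ≤ (4 * L + 1) ^ (P - 1) * t := mul_le_mul_of_nonneg_right h2 ht
      linarith
    · have h1 : t ^ P ≤ (4 * P) ^ P * Real.exp (t / 4) := by
        have h4 : t ≤ 4 * P * Real.exp (t / (4 * P)) := by
          have h5 := Real.add_one_le_exp (t / (4 * P))
          have h6 : t = 4 * P * (t / (4 * P)) := by field_simp
          calc t = 4 * P * (t / (4 * P)) := h6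
            _ ≤ 4 * P * Real.exp (t / (4 * P)) :=
                mul_le_mul_of_nonneg_left (by linarith) (by positivity)
        calc t ^ P ≤ (4 * P * Real.exp (t / (4 * P))) ^ P := Real.rpow_le_rpow ht h4 hP0.le
          _ = (4 * P) ^ P * Real.exp (t / 4) := by
              rw [Real.mul_rpow (by positivity) (Real.exp_pos _).le, ← Real.exp_mul]
              congr 2
              field_simp
      have h2 : Real.exp (t / 4) ≤ Real.exp (-L) * Real.exp (t / 2) := by
        rw [← Real.exp_add]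
        apply Real.exp_le_exp.mpr
        linarith
      have h3 : Real.exp (t / 2) ≤ 3 * (Real.exp (t / 2) - 1) := by
        have := Real.add_one_le_exp (t / 2)
        linarith
      have hC : 0 ≤ (4 * P) ^ P := by positivity
      calc t ^ P ≤ (4 * P) ^ P * Real.exp (t / 4) := h1
        _ ≤ (4 * P) ^ P * (Real.exp (-L) * Real.exp (t / 2)) := mul_le_mul_of_nonneg_left h2 hC
        _ ≤ (4 * P) ^ P * (Real.exp (-L) * (3 * (Real.exp (t / 2) - 1))) :=
            mul_le_mul_of_nonneg_left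
              (mul_le_mul_of_nonneg_left h3 (Real.exp_pos _).le) hC
        _ = 3 * (4 * P) ^ P * Real.exp (-L) * (Real.exp (t / 2) - 1) := by ring
        _ ≤ _ := by linarith
  have hw : ∀ z, 0 ≤ Real.exp (-(β * D z)) / Zf D β :=
    fun z => div_nonneg (Real.exp_pos _).le hZ.le
  calc ∑ z, Real.exp (-(β * D z)) / Zf D β * (β * D z) ^ P
      ≤ ∑ z, Real.exp (-(β * D z)) / Zf D β * ((4 * L + 1) ^ (P - 1) * (β * D z) +
        3 * (4 * P) ^ P * Real.exp (-L) * (Real.exp (β * D z / 2) - 1)) :=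
        Finset.sum_le_sum fun z _ =>
          mul_le_mul_of_nonneg_left (key _ (mul_nonneg hβ (hD z))) (hw z)
    _ = (4 * L + 1) ^ (P - 1) * (∑ z, Real.exp (-(β * D z)) / Zf D β * (β * D z)) +
        3 * (4 * P) ^ P * Real.exp (-L) *
          ((∑ z, Real.exp (-(β * D z)) / Zf D β * Real.exp (β * D z / 2)) -
            ∑ z, Real.exp (-(β * D z)) / Zf D β) := by
        rw [Finset.mul_sum, ← Finset.sum_sub_distrib, Finset.mul_sum, ← Finset.sum_add_distrib]
        apply Finset.sum_congr rfl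
        intro z _
        ring
    _ = (4 * L + 1) ^ (P - 1) * (∑ z, Real.exp (-(β * D z)) / Zf D β * (β * D z)) +
        3 * (4 * P) ^ P * (1 - Real.exp (-L)) := by
        rw [hsumE, hsum1]
        have : Real.exp (-L) * Real.exp L = 1 := by rw [← Real.exp_add]; simp
        have h5 : 3 * (4 * P) ^ P * Real.exp (-L) * (Real.exp L - 1) =
            3 * (4 * P) ^ P * (Real.exp (-L) * Real.exp L - Real.exp (-L)) := by ring
        rw [h5, this]
    _ ≤ (4 * L + 1) ^ (P - 1) * (2 * L) + 3 * (4 * P) ^ P * L := by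
        apply add_le_add
        · exact mul_le_mul_of_nonneg_left hJ (by positivity)
        · apply mul_le_mul_of_nonneg_left _ (by positivity)
          have := Real.add_one_le_exp (-L)
          linarith

end Vale.Agent.P249
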