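import Mathlib

open scoped BigOperators ENNReal

namespace Vale.Agent.P249

/-- module C0 (Mazur.lean). -/
noncomputable def mz (s v : ℝ) : ℝ := SignType.sign v * |v| ^ s

private lemma mz_of_nonneg (s : ℝ) (hs : 0 < s) {v : ℝ} (hv : 0 ≤ v) : mz s v = v ^ s := by
  unfold mz
  rcases hv.eq_or_lt with h | h
  · subst h
    simp [Real.zero_rpow hs.ne']
  · rw [sign_pos h, abs_of_pos h]
    simp

private lemma mz_neg (s v : ℝ) : mz s (-v) = - mz s v := by
  unfold mz
  rw [Left.sign_neg, abs_neg]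
  push_cast
  ring

private lemma mz_cases {Q : ℝ → ℝ → Prop} (hsymm : ∀ a b, Q a b → Q b a)
    (hneg : ∀ a b, Q a b → Q (-a) (-b)) (h1 : ∀ a b, 0 ≤ b → b ≤ a → Q a b)
    (h2 : ∀ a c, 0 ≤ a → 0 ≤ c → Q a (-c)) : ∀ a b, Q a b := by
  intro a b
  rcases le_total 0 a with ha | ha <;> rcases le_total 0 b with hb | hb
  · rcases le_total b a with h | h
    · exact h1 a b hb h
    · exact hsymm _ _ (h1 b a ha h)
  · simpa using h2 a (-b) ha (by linarith)
  · exact hsymm _ _ (by simpa using h2 b (-a) hb (by linarith))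
  · have := hneg (-a) (-b)
    simp only [neg_neg] at this
    apply this
    rcases le_total b a with h | h
    · exact hsymm _ _ (h1 (-b) (-a) (by linarith) (by linarith))
    · exact h1 (-a) (-b) (by linarith) (by linarith)

theorem mz_upper_big (s : ℝ) (hs : 1 ≤ s) (a b : ℝ) :
    |mz s a - mz s b| ≤ s * |a - b| * (max |a| |b|) ^ (s - 1) := by
  have hs0 : 0 < s := by linarith
  revert a b
  apply mz_cases
  · intro a b h
    rw [abs_sub_comm, abs_sub_comm b a, max_comm]
    exact h
  · intro a b h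
    rw [mz_neg, mz_neg, abs_neg, abs_neg]
    have e1 : -mz s a - -mz s b = -(mz s a - mz s b) := by ring
    have e2 : -a - -b = -(a - b) := by ring
    rw [e1, e2, abs_neg, abs_neg]
    exact h
  · intro a b hb hab
    have ha : 0 ≤ a := hb.trans hab
    rw [mz_of_nonneg s hs0 ha, mz_of_nonneg s hs0 hb, abs_of_nonneg ha, abs_of_nonneg hb,
      max_eq_left hab, abs_of_nonneg (sub_nonneg.2 hab),
      abs_of_nonneg (sub_nonneg.2 (Real.rpow_le_rpow hb hab hs0.le))]
    rcases ha.eq_or_lt with h | h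
    · subst h
      have hb0 : b = 0 := le_antisymm hab hb
      subst hb0
      simp
    · have hB := one_add_mul_self_le_rpow_one_add (s := b / a - 1)
        (by have : 0 ≤ b / a := by positivity
            linarith) hs
      have e : (1 + (b / a - 1)) = b / a := by ring
      rw [e, Real.div_rpow hb ha] at hB
      have hp : 0 < a ^ s := Real.rpow_pos_of_pos h s
      have e3 : a ^ s = a * a ^ (s - 1) := by
        rw [← Real.rpow_one_add' ha (by linarith)]; congr 1; ring
      have hB2 : a ^ s * (1 + s * (b / a - 1)) ≤ b ^ s := by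
        rw [le_div_iff₀ hp] at hB
        linarith
      have e4 : a ^ s * (s * (b / a - 1)) = s * (b - a) * a ^ (s - 1) := by
        rw [e3]; field_simp
      nlinarith
  · intro a c ha hc
    rw [mz_neg, mz_of_nonneg s hs0 ha, mz_of_nonneg s hs0 hc, abs_neg, abs_of_nonneg ha,
      abs_of_nonneg hc]
    have e1 : a ^ s - -c ^ s = a ^ s + c ^ s := by ring
    have e2 : a - -c = a + c := by ring
    rw [e1, e2, abs_of_nonneg (by positivity), abs_of_nonneg (by positivity)]
    have e3 : ∀ x : ℝ, 0 ≤ x → x ^ s = x * x ^ (s - 1) := by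
      intro x hx
      rw [← Real.rpow_one_add' hx (by linarith)]; congr 1; ring
    have h1 : a ^ s ≤ a * (max a c) ^ (s - 1) := by
      rw [e3 a ha]
      exact mul_le_mul_of_nonneg_left
        (Real.rpow_le_rpow ha (le_max_left _ _) (by linarith)) ha
    have h2 : c ^ s ≤ c * (max a c) ^ (s - 1) := by
      rw [e3 c hc]
      exact mul_le_mul_of_nonneg_left
        (Real.rpow_le_rpow hc (le_max_right _ _) (by linarith)) hc
    have h3 : 0 ≤ (a + c) * (max a c) ^ (s - 1) := by positivity
    nlinarith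

theorem mz_lower_big (s : ℝ) (hs : 1 ≤ s) (a b : ℝ) :
    2 ^ (1 - s) * |a - b| ^ s ≤ |mz s a - mz s b| := by
  have hs0 : 0 < s := by linarith
  revert a b
  apply mz_cases
  · intro a b h
    rw [abs_sub_comm, abs_sub_comm (mz s b)]
    exact h
  · intro a b h
    rw [mz_neg, mz_neg]
    have e1 : -mz s a - -mz s b = -(mz s a - mz s b) := by ring
    have e2 : -a - -b = -(a - b) := by ring
    rw [e1, e2, abs_neg, abs_neg]
    exact h
  · intro a b hb hab
    have ha : 0 ≤ a := hb.trans hab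
    rw [mz_of_nonneg s hs0 ha, mz_of_nonneg s hs0 hb, abs_of_nonneg (sub_nonneg.2 hab),
      abs_of_nonneg (sub_nonneg.2 (Real.rpow_le_rpow hb hab hs0.le))]
    have h1 : (a - b) ^ s + b ^ s ≤ a ^ s := by
      have := Real.add_rpow_le_rpow_add (sub_nonneg.2 hab) hb hs
      simpa using this
    have h2 : (2 : ℝ) ^ (1 - s) ≤ 1 := Real.rpow_le_one_of_one_le_of_nonpos (by norm_num)
      (by linarith)
    have h3 : 0 ≤ (a - b) ^ s := Real.rpow_nonneg (sub_nonneg.2 hab) _
    nlinarith
  · intro a c ha hc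
    rw [mz_neg, mz_of_nonneg s hs0 ha, mz_of_nonneg s hs0 hc]
    have e1 : a ^ s - -c ^ s = a ^ s + c ^ s := by ring
    have e2 : a - -c = a + c := by ring
    rw [e1, e2, abs_of_nonneg (by positivity), abs_of_nonneg (by positivity)]
    have h : (a + c) ^ s ≤ 2 ^ (s - 1) * (a ^ s + c ^ s) := by
      have h := NNReal.rpow_add_le_mul_rpow_add_rpow ⟨a, ha⟩ ⟨c, hc⟩ hs
      exact_mod_cast h
    have h2 : (2 : ℝ) ^ (1 - s) * 2 ^ (s - 1) = 1 := by
      rw [← Real.rpow_add (by norm_num)]; simp
    have h3 : (0 : ℝ) ≤ 2 ^ (1 - s) := by positivity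
    calc (2 : ℝ) ^ (1 - s) * (a + c) ^ s ≤ 2 ^ (1 - s) * (2 ^ (s - 1) * (a ^ s + c ^ s)) :=
          mul_le_mul_of_nonneg_left h h3
      _ = a ^ s + c ^ s := by rw [← mul_assoc, h2, one_mul]

theorem mz_upper_small (s : ℝ) (hs : 0 < s) (hs1 : s ≤ 1) (a b : ℝ) :
    |mz s a - mz s b| ≤ 2 * |a - b| ^ s := by
  revert a b
  apply mz_cases
  · intro a b h
    rw [abs_sub_comm, abs_sub_comm b a]
    exact h
  · intro a b h
    rw [mz_neg, mz_neg]
    have e1 : -mz s a - -mz s b = -(mz s a - mz s b) := by ring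
    have e2 : -a - -b = -(a - b) := by ring
    rw [e1, e2, abs_neg, abs_neg]
    exact h
  · intro a b hb hab
    have ha : 0 ≤ a := hb.trans hab
    rw [mz_of_nonneg s hs ha, mz_of_nonneg s hs hb, abs_of_nonneg (sub_nonneg.2 hab),
      abs_of_nonneg (sub_nonneg.2 (Real.rpow_le_rpow hb hab hs.le))]
    have h1 : a ^ s ≤ (a - b) ^ s + b ^ s := by
      have := Real.rpow_add_le_add_rpow (sub_nonneg.2 hab) hb hs.le hs1
      simpa using this
    have h3 : 0 ≤ (a - b) ^ s := Real.rpow_nonneg (sub_nonneg.2 hab) _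
    linarith
  · intro a c ha hc
    rw [mz_neg, mz_of_nonneg s hs ha, mz_of_nonneg s hs hc]
    have e1 : a ^ s - -c ^ s = a ^ s + c ^ s := by ring
    have e2 : a - -c = a + c := by ring
    rw [e1, e2, abs_of_nonneg (by positivity), abs_of_nonneg (by positivity)]
    have h1 : a ^ s ≤ (a + c) ^ s := Real.rpow_le_rpow ha (by linarith) hs.le
    have h2 : c ^ s ≤ (a + c) ^ s := Real.rpow_le_rpow hc (by linarith) hs.le
    linarith

theorem mz_lower_small (s : ℝ) (hs : 0 < s) (hs1 : s ≤ 1) (a b : ℝ) :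
    s * |a - b| * (|a| + |b|) ^ (s - 1) ≤ |mz s a - mz s b| := by
  revert a b
  apply mz_cases
  · intro a b h
    rw [abs_sub_comm, abs_sub_comm (mz s b), add_comm |b|]
    exact h
  · intro a b h
    rw [mz_neg, mz_neg, abs_neg, abs_neg]
    have e1 : -mz s a - -mz s b = -(mz s a - mz s b) := by ring
    have e2 : -a - -b = -(a - b) := by ring
    rw [e1, e2, abs_neg, abs_neg]
    exact h
  · intro a b hb hab
    have ha : 0 ≤ a := hb.trans hab
    rw [mz_of_nonneg s hs ha, mz_of_nonneg s hs hb, abs_of_nonneg ha, abs_of_nonneg hb,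
      abs_of_nonneg (sub_nonneg.2 hab),
      abs_of_nonneg (sub_nonneg.2 (Real.rpow_le_rpow hb hab hs.le))]
    rcases ha.eq_or_lt with h | h
    · subst h
      have hb0 : b = 0 := le_antisymm hab hb
      subst hb0
      simp
    · have hB := rpow_one_add_le_one_add_mul_self (s := b / a - 1)
        (by have : 0 ≤ b / a := by positivity
            linarith) hs.le hs1
      have e : (1 + (b / a - 1)) = b / a := by ring
      rw [e, Real.div_rpow hb ha] at hB
      have hp : 0 < a ^ s := Real.rpow_pos_of_pos h s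
      have e3 : a ^ s = a * a ^ (s - 1) := by
        rw [← Real.rpow_one_add' ha (by linarith)]; congr 1; ring
      have hB2 : b ^ s ≤ a ^ s * (1 + s * (b / a - 1)) := by
        rw [div_le_iff₀ hp] at hB
        linarith
      have e4 : a ^ s * (s * (b / a - 1)) = s * (b - a) * a ^ (s - 1) := by
        rw [e3]; field_simp
      have h5 : (a + b) ^ (s - 1) ≤ a ^ (s - 1) :=
        Real.rpow_le_rpow_of_nonpos h (by linarith) (by linarith)
      have h6 : s * (a - b) * (a + b) ^ (s - 1) ≤ s * (a - b) * a ^ (s - 1) :=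
        mul_le_mul_of_nonneg_left h5 (mul_nonneg hs.le (sub_nonneg.2 hab))
      nlinarith
  · intro a c ha hc
    rw [mz_neg, mz_of_nonneg s hs ha, mz_of_nonneg s hs hc, abs_neg, abs_of_nonneg ha,
      abs_of_nonneg hc]
    have e1 : a ^ s - -c ^ s = a ^ s + c ^ s := by ring
    have e2 : a - -c = a + c := by ring
    rw [e1, e2, abs_of_nonneg (by positivity), abs_of_nonneg (by positivity)]
    have h0 : 0 ≤ a + c := by positivity
    have e3 : (a + c) * (a + c) ^ (s - 1) = (a + c) ^ s := by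
      rw [← Real.rpow_one_add' h0 (by linarith)]; congr 1; ring
    have h1 : (a + c) ^ s ≤ a ^ s + c ^ s := Real.rpow_add_le_add_rpow ha hc hs.le hs1
    have h2 : 0 ≤ (a + c) ^ s := by positivity
    calc s * (a + c) * (a + c) ^ (s - 1) = s * ((a + c) ^ s) := by rw [mul_assoc, e3]
      _ ≤ 1 * (a + c) ^ s := mul_le_mul_of_nonneg_right hs1 h2
      _ ≤ a ^ s + c ^ s := by rw [one_mul]; exact h1

end Vale.Agent.P249
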