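import Mathlib

open scoped BigOperators

namespace Vale.Agent.P249

private lemma chan_sq (p q : ℝ) (hp : 1 / 4 ≤ p) (hp' : p ≤ 3 / 4) (hq : 1 / 4 ≤ q)
    (hq' : q ≤ 3 / 4) :
    (p - q) ^ 2 / 3 ≤ (Real.sqrt p - Real.sqrt q) ^ 2 ∧
      (Real.sqrt p - Real.sqrt q) ^ 2 ≤ (p - q) ^ 2 := by
  have hps : Real.sqrt p ^ 2 = p := Real.sq_sqrt (by linarith)
  have hqs : Real.sqrt q ^ 2 = q := Real.sq_sqrt (by linarith)
  have h1 : 1 / 2 ≤ Real.sqrt p := by
    apply Real.le_sqrt_of_sq_le; norm_num; linarith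
  have h2 : 1 / 2 ≤ Real.sqrt q := by
    apply Real.le_sqrt_of_sq_le; norm_num; linarith
  set a := Real.sqrt p with ha
  set b := Real.sqrt q with hb
  have key : (p - q) ^ 2 = (a - b) ^ 2 * (a + b) ^ 2 := by
    rw [← hps, ← hqs]; ring
  have hab1 : 1 ≤ (a + b) ^ 2 := by nlinarith
  have hab3 : (a + b) ^ 2 ≤ 3 := by
    have : (a + b) ^ 2 ≤ 2 * (a ^ 2 + b ^ 2) := by nlinarith [sq_nonneg (a - b)]
    rw [hps, hqs] at this
    linarith
  have h0 : 0 ≤ (a - b) ^ 2 := sq_nonneg _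
  constructor
  · rw [key]; nlinarith
  · rw [key]; nlinarith

private lemma chan_scalar (p q : ℝ) (hp : 1 / 4 ≤ p) (hp' : p ≤ 3 / 4) (hq : 1 / 4 ≤ q)
    (hq' : q ≤ 3 / 4) :
    Real.exp (-(4 * (p - q) ^ 2)) ≤ Real.sqrt (p * q) + Real.sqrt ((1 - p) * (1 - q)) ∧
      Real.sqrt (p * q) + Real.sqrt ((1 - p) * (1 - q)) ≤ Real.exp (-((p - q) ^ 2 / 3)) := by
  obtain ⟨l1, u1⟩ := chan_sq p q hp hp' hq hq'
  obtain ⟨l2, u2⟩ := chan_sq (1 - p) (1 - q) (by linarith) (by linarith) (by linarith)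
    (by linarith)
  have e : (1 - p - (1 - q)) ^ 2 = (p - q) ^ 2 := by ring
  rw [e] at l2 u2
  have hps : Real.sqrt p ^ 2 = p := Real.sq_sqrt (by linarith)
  have hqs : Real.sqrt q ^ 2 = q := Real.sq_sqrt (by linarith)
  have hps' : Real.sqrt (1 - p) ^ 2 = 1 - p := Real.sq_sqrt (by linarith)
  have hqs' : Real.sqrt (1 - q) ^ 2 = 1 - q := Real.sq_sqrt (by linarith)
  rw [Real.sqrt_mul (by linarith), Real.sqrt_mul (by linarith)]
  have hb : Real.sqrt p * Real.sqrt q + Real.sqrt (1 - p) * Real.sqrt (1 - q) =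
      1 - ((Real.sqrt p - Real.sqrt q) ^ 2 + (Real.sqrt (1 - p) - Real.sqrt (1 - q)) ^ 2) / 2 := by
    nlinarith
  rw [hb]
  have hu : (p - q) ^ 2 ≤ 1 / 4 := by
    have h1 : p - q ≤ 1 / 2 := by linarith
    have h2 : -(1 / 2) ≤ p - q := by linarith
    nlinarith
  have hu0 : 0 ≤ (p - q) ^ 2 := sq_nonneg _
  set u := (p - q) ^ 2 with hudef
  constructor
  · have h1 : Real.exp (-(4 * u)) ≤ 1 / (1 + 4 * u) := by
      rw [Real.exp_neg, ← one_div]
      apply one_div_le_one_div_of_le (by linarith)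
      have := Real.add_one_le_exp (4 * u)
      linarith
    have h2 : 1 / (1 + 4 * u) ≤ 1 - u := by
      rw [div_le_iff₀ (by linarith)]
      nlinarith
    linarith
  · have h1 := Real.add_one_le_exp (-(u / 3))
    linarith

private lemma chan_sqrt_prod {α : Type} (s : Finset α) (g : α → ℝ) (hg : ∀ a, 0 ≤ g a) :
    Real.sqrt (∏ a ∈ s, g a) = ∏ a ∈ s, Real.sqrt (g a) := by
  classical
  induction s using Finset.induction_on with
  | empty => simp
  | insert a s ha ih =>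
    rw [Finset.prod_insert ha, Finset.prod_insert ha, Real.sqrt_mul (hg a), ih]

private lemma chan_sum_bool {α : Type} [Fintype α] [DecidableEq α] (g : α → Bool → ℝ) :
    ∑ ω : α → Bool, ∏ a, g a (ω a) = ∏ a, (g a true + g a false) := by
  have h := Finset.prod_univ_sum (fun _ : α => (Finset.univ : Finset Bool)) g
  rw [Fintype.piFinset_univ] at h
  rw [← h]
  apply Finset.prod_congr rfl
  intro a _
  simp

theorem hilbert_channel {X ι : Type} [Fintype X] [Fintype ι] (φ : X → ι → ℝ) :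
    ∃ (Ω : Type) (_ : Fintype Ω) (K : X → Ω → ℝ), (∀ x ω, 0 ≤ K x ω) ∧
      (∀ x, ∑ ω, K x ω = 1) ∧
      ∀ x y, Real.exp (-(∑ i, (φ x i - φ y i) ^ 2)) ≤ ∑ ω, Real.sqrt (K x ω * K y ω) ∧
        ∑ ω, Real.sqrt (K x ω * K y ω) ≤ Real.exp (-((∑ i, (φ x i - φ y i) ^ 2) / 12)) := by
  classical
  -- choose N
  obtain ⟨N, hN⟩ := exists_nat_gt (1 + ∑ x, ∑ i, 4 * (φ x i) ^ 2)
  have hsum0 : 0 ≤ ∑ x, ∑ i, 4 * (φ x i) ^ 2 :=
    Finset.sum_nonneg fun x _ => Finset.sum_nonneg fun i _ => by positivity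
  have hNpos : (0 : ℝ) < N := by linarith
  have hφ : ∀ x i, 4 * (φ x i) ^ 2 ≤ N := by
    intro x i
    have h1 : 4 * (φ x i) ^ 2 ≤ ∑ i, 4 * (φ x i) ^ 2 :=
      Finset.single_le_sum (f := fun i => 4 * (φ x i) ^ 2) (fun i _ => by positivity)
        (Finset.mem_univ i)
    have h2 : ∑ i, 4 * (φ x i) ^ 2 ≤ ∑ x, ∑ i, 4 * (φ x i) ^ 2 :=
      Finset.single_le_sum (f := fun x => ∑ i, 4 * (φ x i) ^ 2)
        (fun x _ => Finset.sum_nonneg fun i _ => by positivity) (Finset.mem_univ x)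
    linarith
  set r := Real.sqrt N with hr
  have hr0 : 0 < r := Real.sqrt_pos.2 hNpos
  have hrsq : r ^ 2 = N := Real.sq_sqrt hNpos.le
  let p : X → ι → ℝ := fun x i => (1 + φ x i / r) / 2
  have hpr : ∀ x i, 1 / 4 ≤ p x i ∧ p x i ≤ 3 / 4 := by
    intro x i
    have h1 : (φ x i / r) ^ 2 ≤ (1 / 2) ^ 2 := by
      rw [div_pow, hrsq, div_le_iff₀ hNpos]
      have := hφ x i
      linarith
    have h2 := abs_le_of_sq_le_sq' h1 (by norm_num)
    constructor <;> simp only [p] <;> linarith [h2.1, h2.2]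
  have hdiff : ∀ x y i, (p x i - p y i) ^ 2 = (φ x i - φ y i) ^ 2 / (4 * N) := by
    intro x y i
    have : p x i - p y i = (φ x i - φ y i) / (2 * r) := by
      simp only [p]
      field_simp
      ring
    rw [this, div_pow, mul_pow, hrsq]
    norm_num
  let g : X → (ι × Fin N) → Bool → ℝ := fun x a b => if b then p x a.1 else 1 - p x a.1
  have hg0 : ∀ x a b, 0 ≤ g x a b := by
    intro x a b
    obtain ⟨h1, h2⟩ := hpr x a.1
    cases b
    · simp only [g]; norm_num; linarith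
    · simp only [g]; norm_num; linarith
  refine ⟨(ι × Fin N) → Bool, inferInstance, fun x ω => ∏ a, g x a (ω a), ?_, ?_, ?_⟩
  · intro x ω
    exact Finset.prod_nonneg fun a _ => hg0 x a _
  · intro x
    rw [chan_sum_bool (g x)]
    apply Finset.prod_eq_one
    intro a _
    simp [g]
  · intro x y
    have haff : ∑ ω : (ι × Fin N) → Bool,
        Real.sqrt ((∏ a, g x a (ω a)) * ∏ a, g y a (ω a)) =
        ∏ a : ι × Fin N, (Real.sqrt (p x a.1 * p y a.1) +
          Real.sqrt ((1 - p x a.1) * (1 - p y a.1))) := by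
      have h1 : ∀ ω : (ι × Fin N) → Bool,
          Real.sqrt ((∏ a, g x a (ω a)) * ∏ a, g y a (ω a)) =
          ∏ a, (fun a b => Real.sqrt (g x a b * g y a b)) a (ω a) := by
        intro ω
        rw [← Finset.prod_mul_distrib, chan_sqrt_prod _ _ (fun a => mul_nonneg (hg0 x a _)
          (hg0 y a _))]
      rw [Finset.sum_congr rfl fun ω _ => h1 ω,
        chan_sum_bool (fun a b => Real.sqrt (g x a b * g y a b))]
      apply Finset.prod_congr rfl
      intro a _
      simp [g]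
    rw [haff]
    have hprod : ∀ (c : ℝ) , ∏ a : ι × Fin N, Real.exp (-(c * (p x a.1 - p y a.1) ^ 2)) =
        Real.exp (-(c / 4 * ∑ i, (φ x i - φ y i) ^ 2)) := by
      intro c
      rw [← Real.exp_sum]
      congr 1
      rw [Fintype.sum_prod_type]
      simp only [Finset.sum_const, Finset.card_univ, Fintype.card_fin, nsmul_eq_mul]
      rw [Finset.mul_sum, ← Finset.sum_neg_distrib]
      apply Finset.sum_congr rfl
      intro i _
      rw [hdiff]
      field_simp
    constructor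
    · have h := hprod 4
      rw [show (4 : ℝ) / 4 = 1 by norm_num, one_mul] at h
      rw [← h]
      apply Finset.prod_le_prod
      · intro a _
        exact (Real.exp_pos _).le
      · intro a _
        obtain ⟨h1, h2⟩ := hpr x a.1
        obtain ⟨h3, h4⟩ := hpr y a.1
        exact (chan_scalar _ _ h1 h2 h3 h4).1
    · have h := hprod (1 / 3)
      have e : Real.exp (-((∑ i, (φ x i - φ y i) ^ 2) / 12)) =
          Real.exp (-(1 / 3 / 4 * ∑ i, (φ x i - φ y i) ^ 2)) := by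
        congr 1; ring
      rw [e, ← h]
      apply Finset.prod_le_prod
      · intro a _
        positivity
      · intro a _
        obtain ⟨h1, h2⟩ := hpr x a.1
        obtain ⟨h3, h4⟩ := hpr y a.1
        have := (chan_scalar _ _ h1 h2 h3 h4).2
        rw [show (1 : ℝ) / 3 * (p x a.1 - p y a.1) ^ 2 = (p x a.1 - p y a.1) ^ 2 / 3 by ring]
        exact this

end Vale.Agent.P249
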