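import Mathlib

open scoped BigOperators

namespace Vale.Agent.P249

/-- module B (PostK.lean): posterior kernel of a finite channel. -/
noncomputable def postK {X Ω : Type} [Fintype X] [Fintype Ω] (K : X → Ω → ℝ) (x z : X) : ℝ :=
  ∑ ω, K x ω * K z ω / ∑ y, K y ω

theorem postK_nonneg {X Ω : Type} [Fintype X] [Fintype Ω] (K : X → Ω → ℝ)
    (hK : ∀ x ω, 0 ≤ K x ω) (x z : X) : 0 ≤ postK K x z :=
  Finset.sum_nonneg fun ω _ => div_nonneg (mul_nonneg (hK x ω) (hK z ω))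
    (Finset.sum_nonneg fun y _ => hK y ω)

/-- cancellation of the total -/
theorem postK_cancel {X Ω : Type} [Fintype X] (K : X → Ω → ℝ)
    (hK : ∀ x ω, 0 ≤ K x ω) (m : Ω → ℝ) (x : X) (hm0 : ∀ ω, 0 ≤ m ω) (hm : ∀ ω, m ω ≤ K x ω)
    (ω : Ω) : ∑ z, m ω * K z ω / ∑ y, K y ω = m ω := by
  rw [← Finset.sum_div, ← Finset.mul_sum]
  rcases eq_or_ne (∑ y, K y ω) 0 with h | h
  · have h1 : K x ω = 0 := by
      have := (Finset.sum_eq_zero_iff_of_nonneg (fun y _ => hK y ω)).1 h x (Finset.mem_univ x)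
      exact this
    have h2 : m ω = 0 := le_antisymm (by rw [← h1]; exact hm ω) (hm0 ω)
    rw [h2]; simp
  · rw [mul_div_assoc, div_self h, mul_one]

theorem postK_sum {X Ω : Type} [Fintype X] [Fintype Ω] (K : X → Ω → ℝ)
    (hK : ∀ x ω, 0 ≤ K x ω) (hK1 : ∀ x, ∑ ω, K x ω = 1) (x : X) : ∑ z, postK K x z = 1 := by
  unfold postK
  rw [Finset.sum_comm, ← hK1 x]
  refine Finset.sum_congr rfl fun ω _ => ?_
  exact postK_cancel K hK (K x) x (hK x) (fun _ => le_rfl) ω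

theorem postK_le {X Ω : Type} [Fintype X] [Fintype Ω] (K : X → Ω → ℝ)
    (hK : ∀ x ω, 0 ≤ K x ω) (x z : X) : postK K x z ≤ ∑ ω, Real.sqrt (K x ω * K z ω) := by
  unfold postK
  refine Finset.sum_le_sum fun ω _ => ?_
  set s := Real.sqrt (K x ω * K z ω) with hs
  have hp : 0 ≤ K x ω * K z ω := mul_nonneg (hK x ω) (hK z ω)
  have hs2 : s * s = K x ω * K z ω := Real.mul_self_sqrt hp
  have hs0 : 0 ≤ s := Real.sqrt_nonneg _
  have hx : K x ω ≤ ∑ y, K y ω := Finset.single_le_sum (fun y _ => hK y ω) (Finset.mem_univ x)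
  have hz : K z ω ≤ ∑ y, K y ω := Finset.single_le_sum (fun y _ => hK y ω) (Finset.mem_univ z)
  have hT : s ≤ ∑ y, K y ω := by
    rw [hs, Real.sqrt_le_left ((hK x ω).trans hx), sq]
    exact mul_le_mul hx hz (hK z ω) ((hK x ω).trans hx)
  rcases eq_or_lt_of_le ((hK x ω).trans hx) with h | h
  · rw [← h, div_zero]; exact hs0
  · rw [div_le_iff₀ h, ← hs2]
    exact mul_le_mul_of_nonneg_left hT hs0

theorem postK_rpow_add {P : ℝ} (hP : 1 ≤ P) {u v : ℝ} (hu : 0 ≤ u) (hv : 0 ≤ v) :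
    (u + v) ^ P ≤ 2 ^ (P - 1) * (u ^ P + v ^ P) := by
  have h := NNReal.rpow_add_le_mul_rpow_add_rpow ⟨u, hu⟩ ⟨v, hv⟩ hP
  have h' := NNReal.coe_le_coe.2 h
  push_cast at h'
  exact h'

theorem postK_pair {X Ω : Type} [Fintype X] [Fintype Ω] (K : X → Ω → ℝ)
    (hK : ∀ x ω, 0 ≤ K x ω) (hK1 : ∀ x, ∑ ω, K x ω = 1) (P : ℝ) (hP : 1 ≤ P) (a : X → ℝ)
    (x y : X) :
    (∑ ω, Real.sqrt (K x ω * K y ω)) ^ 2 / 2 * |a x - a y| ^ P ≤
      2 ^ (P - 1) * (∑ z, postK K x z * |a x - a z| ^ P + ∑ z, postK K y z * |a y - a z| ^ P) := by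
  set mn : Ω → ℝ := fun ω => min (K x ω) (K y ω) with hmn
  set mx : Ω → ℝ := fun ω => max (K x ω) (K y ω) with hmx
  have hmn0 : ∀ ω, 0 ≤ mn ω := fun ω => le_min (hK x ω) (hK y ω)
  have hmx0 : ∀ ω, 0 ≤ mx ω := fun ω => (hK x ω).trans (le_max_left _ _)
  -- affinity bound
  have h1 : (∑ ω, Real.sqrt (K x ω * K y ω)) ^ 2 ≤ 2 * ∑ ω, mn ω := by
    have e1 : ∀ ω ∈ Finset.univ, Real.sqrt (K x ω * K y ω) =
        Real.sqrt (mn ω) * Real.sqrt (mx ω) := by
      intro ω _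
      rw [← Real.sqrt_mul (hmn0 ω), hmn, hmx, min_mul_max]
    rw [Finset.sum_congr rfl e1]
    refine (Finset.sum_mul_sq_le_sq_mul_sq _ _ _).trans ?_
    have e2 : ∑ ω, Real.sqrt (mn ω) ^ 2 = ∑ ω, mn ω :=
      Finset.sum_congr rfl fun ω _ => Real.sq_sqrt (hmn0 ω)
    have e3 : ∑ ω, Real.sqrt (mx ω) ^ 2 = ∑ ω, mx ω :=
      Finset.sum_congr rfl fun ω _ => Real.sq_sqrt (hmx0 ω)
    rw [e2, e3]
    have e4 : ∑ ω, mx ω ≤ 2 := by
      have e5 : ∑ ω, mx ω ≤ ∑ ω, (K x ω + K y ω) := by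
        refine Finset.sum_le_sum fun ω _ => ?_
        exact max_le (by linarith [hK y ω]) (by linarith [hK x ω])
      rw [Finset.sum_add_distrib, hK1, hK1] at e5
      linarith
    have e6 : 0 ≤ ∑ ω, mn ω := Finset.sum_nonneg fun ω _ => hmn0 ω
    nlinarith
  -- common part
  have h2 : ∑ ω, mn ω ≤ ∑ z, min (postK K x z) (postK K y z) := by
    have e1 : ∑ ω, mn ω = ∑ z, ∑ ω, mn ω * K z ω / ∑ y, K y ω := by
      rw [Finset.sum_comm]
      refine Finset.sum_congr rfl fun ω _ => ?_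
      exact (postK_cancel K hK mn x hmn0 (fun ω => min_le_left _ _) ω).symm
    rw [e1]
    refine Finset.sum_le_sum fun z _ => ?_
    refine le_min ?_ ?_
    · unfold postK
      refine Finset.sum_le_sum fun ω _ => ?_
      refine div_le_div_of_nonneg_right ?_ (Finset.sum_nonneg fun y _ => hK y ω)
      exact mul_le_mul_of_nonneg_right (min_le_left _ _) (hK z ω)
    · unfold postK
      refine Finset.sum_le_sum fun ω _ => ?_
      refine div_le_div_of_nonneg_right ?_ (Finset.sum_nonneg fun y _ => hK y ω)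
      exact mul_le_mul_of_nonneg_right (min_le_right _ _) (hK z ω)
  have h3 : (∑ ω, Real.sqrt (K x ω * K y ω)) ^ 2 / 2 ≤
      ∑ z, min (postK K x z) (postK K y z) := by linarith
  have hpos : 0 ≤ |a x - a y| ^ P := Real.rpow_nonneg (abs_nonneg _) _
  refine (mul_le_mul_of_nonneg_right h3 hpos).trans ?_
  rw [Finset.sum_mul, ← Finset.sum_add_distrib, Finset.mul_sum]
  refine Finset.sum_le_sum fun z _ => ?_
  set m := min (postK K x z) (postK K y z) with hm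
  have hm0 : 0 ≤ m := le_min (postK_nonneg K hK x z) (postK_nonneg K hK y z)
  have h4 : |a x - a y| ^ P ≤ 2 ^ (P - 1) * (|a x - a z| ^ P + |a y - a z| ^ P) := by
    refine le_trans ?_ (postK_rpow_add hP (abs_nonneg _) (abs_nonneg _))
    refine Real.rpow_le_rpow (abs_nonneg _) ?_ (by linarith)
    have : a x - a y = (a x - a z) - (a y - a z) := by ring
    rw [this]
    exact abs_sub _ _
  have hA : 0 ≤ |a x - a z| ^ P := Real.rpow_nonneg (abs_nonneg _) _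
  have hB : 0 ≤ |a y - a z| ^ P := Real.rpow_nonneg (abs_nonneg _) _
  have hc : (0 : ℝ) ≤ 2 ^ (P - 1) := by positivity
  calc m * |a x - a y| ^ P ≤ m * (2 ^ (P - 1) * (|a x - a z| ^ P + |a y - a z| ^ P)) :=
        mul_le_mul_of_nonneg_left h4 hm0
    _ = 2 ^ (P - 1) * (m * |a x - a z| ^ P + m * |a y - a z| ^ P) := by ring
    _ ≤ 2 ^ (P - 1) * (postK K x z * |a x - a z| ^ P + postK K y z * |a y - a z| ^ P) := by
        refine mul_le_mul_of_nonneg_left (add_le_add ?_ ?_) hc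
        · exact mul_le_mul_of_nonneg_right (min_le_left _ _) hA
        · exact mul_le_mul_of_nonneg_right (min_le_right _ _) hB

end Vale.Agent.P249
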