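import Mathlib
import Vale.Agent.P249.T3.Channel
import Vale.Agent.P249.T3.PostK
import Vale.Agent.P249.Up.Sens

open scoped BigOperators

namespace Vale.Agent.P249

theorem pow_le_exp_quarter (P : ℝ) (hP : 1 ≤ P) (t : ℝ) (ht : 0 ≤ t) :
    t ^ P ≤ (4 * P) ^ P * Real.exp (t / 4) := by
  have hP0 : 0 < P := by linarith
  have h1 : t / (4 * P) ≤ Real.exp (t / (4 * P)) := by
    have := Real.add_one_le_exp (t / (4 * P)); linarith
  have h2 : (t / (4 * P)) ^ P ≤ (Real.exp (t / (4 * P))) ^ P :=
    Real.rpow_le_rpow (by positivity) h1 hP0.le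
  rw [← Real.exp_mul, Real.div_rpow ht (by positivity), div_le_iff₀ (by positivity)] at h2
  have h3 : t / (4 * P) * P = t / 4 := by field_simp
  rw [h3] at h2
  linarith

theorem sep_moment (P : ℝ) (hP : 1 ≤ P) {X : Type} [Fintype X] [Nonempty X] (S t : X → ℝ)
    (hS : ∀ z, 0 ≤ S z) (hS1 : ∑ z, S z = 1) (ht : ∀ z, 0 ≤ t z)
    (h1 : ∀ z, S z ≤ Fintype.card X * Real.exp (-(t z / 2))) (R : ℝ) (hR : 0 ≤ R)
    (h2 : ∀ z, R < t z ^ P → t z ≤ 8 * (1 + Real.log (Fintype.card X)) →
      S z ≤ Fintype.card X * Real.exp (-(4 * (1 + Real.log (Fintype.card X))))) :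
    ∑ z, S z * t z ^ P ≤ R + (4 * P) ^ P := by
  have hc : (1:ℝ) ≤ Fintype.card X := by exact_mod_cast Fintype.card_pos
  set n : ℝ := (Fintype.card X : ℝ) with hn
  set Lg := 1 + Real.log n with hLg
  have hlog : 0 ≤ Real.log n := Real.log_nonneg hc
  have hn0 : 0 < n := by linarith
  have hPP : 0 < (4 * P) ^ P := Real.rpow_pos_of_pos (by linarith) _
  have hsmall : Real.exp (-(2 * Lg)) ≤ 1 / n ^ 2 := by
    have e1 : Real.exp (2 * Real.log n) = n ^ 2 := by
      rw [show 2 * Real.log n = ((2 : ℕ) : ℝ) * Real.log n by norm_num, Real.exp_nat_mul,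
        Real.exp_log hn0]
    rw [← e1, one_div, ← Real.exp_neg]
    apply Real.exp_le_exp.2
    linarith
  have key : ∀ z, S z * t z ^ P ≤ S z * R + (4 * P) ^ P / n := by
    intro z
    have hpow := pow_le_exp_quarter P hP (t z) (ht z)
    have htP : 0 ≤ t z ^ P := Real.rpow_nonneg (ht z) _
    have hfar : S z * t z ^ P ≤ (4 * P) ^ P / n → R < t z ^ P →
        S z * t z ^ P ≤ S z * R + (4 * P) ^ P / n := by
      intro h h'
      have := mul_nonneg (hS z) hR
      linarith
    rcases le_or_gt (t z ^ P) R with h | h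
    · have h3 := mul_le_mul_of_nonneg_left h (hS z)
      have h4 : 0 ≤ (4 * P) ^ P / n := by positivity
      linarith
    · apply hfar _ h
      have h5 : (n * ((4 * P) ^ P * Real.exp (-(2 * Lg)))) ≤ (4 * P) ^ P / n := by
        calc n * ((4 * P) ^ P * Real.exp (-(2 * Lg))) ≤ n * ((4 * P) ^ P * (1 / n ^ 2)) := by
              gcongr
          _ = (4 * P) ^ P / n := by field_simp
      refine le_trans ?_ h5
      rcases le_or_gt (t z) (8 * Lg) with h6 | h6
      · have h7 := h2 z h h6
        have h8 : Real.exp (t z / 4) ≤ Real.exp (2 * Lg) := Real.exp_le_exp.2 (by linarith)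
        have h9 : Real.exp (-(2 * Lg)) = Real.exp (-(4 * Lg)) * Real.exp (2 * Lg) := by
          rw [← Real.exp_add]; congr 1; ring
        calc S z * t z ^ P ≤ (n * Real.exp (-(4 * Lg))) * ((4 * P) ^ P * Real.exp (2 * Lg)) := by
              apply mul_le_mul h7 (hpow.trans _) htP (by positivity)
              gcongr
          _ = _ := by rw [h9]; ring
      · have h7 := h1 z
        have h8 : Real.exp (-(t z / 2)) * Real.exp (t z / 4) ≤ Real.exp (-(2 * Lg)) := by
          rw [← Real.exp_add]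
          apply Real.exp_le_exp.2
          linarith
        calc S z * t z ^ P ≤ (n * Real.exp (-(t z / 2))) * ((4 * P) ^ P * Real.exp (t z / 4)) :=
              mul_le_mul h7 hpow htP (by positivity)
          _ = n * ((4 * P) ^ P * (Real.exp (-(t z / 2)) * Real.exp (t z / 4))) := by ring
          _ ≤ _ := by gcongr
  calc ∑ z, S z * t z ^ P ≤ ∑ z, (S z * R + (4 * P) ^ P / n) := Finset.sum_le_sum fun z _ => key z
    _ = R + (4 * P) ^ P := by
        rw [Finset.sum_add_distrib, ← Finset.sum_mul, hS1, one_mul, Finset.sum_const,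
          Finset.card_univ, nsmul_eq_mul, ← hn]
        field_simp


theorem gp_nearly_half {X : Type} [Fintype X] [Nonempty X] (d : X → X → ℝ)
    (h0 : ∀ x, d x x = 0) (β : ℝ) (x : X) :
    1 / 2 ≤ ∑ c with β * d x c ≤ 1 + Real.log (Fintype.card X), gp d β x c := by
  classical
  have hc : (1:ℝ) ≤ Fintype.card X := by exact_mod_cast Fintype.card_pos
  set n : ℝ := (Fintype.card X : ℝ) with hn
  have hn0 : 0 < n := by linarith
  have h1 := Finset.sum_filter_add_sum_filter_not (Finset.univ : Finset X)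
    (fun c => β * d x c ≤ 1 + Real.log n) (fun c => gp d β x c)
  rw [gp_sum] at h1
  have h2 : ∑ c with ¬ (β * d x c ≤ 1 + Real.log n), gp d β x c ≤ 1 / 2 := by
    calc ∑ c with ¬ (β * d x c ≤ 1 + Real.log n), gp d β x c ≤
        ∑ c with ¬ (β * d x c ≤ 1 + Real.log n), (1 / 2 / n : ℝ) := by
          apply Finset.sum_le_sum
          intro c hc'
          simp only [Finset.mem_filter, Finset.mem_univ, true_and, not_le] at hc'
          refine (gp_le_exp d h0 β x c).trans ?_
          have e1 : Real.exp (-(β * d x c)) ≤ Real.exp (-(1 + Real.log n)) :=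
            Real.exp_le_exp.2 (by linarith)
          refine e1.trans ?_
          have e2 : Real.exp (-(1 + Real.log n)) = (Real.exp 1)⁻¹ * n⁻¹ := by
            rw [neg_add, Real.exp_add, Real.exp_neg, Real.exp_neg, Real.exp_log hn0]
          rw [e2, div_eq_mul_inv (1 / 2 : ℝ) n]
          apply mul_le_mul_of_nonneg_right _ (by positivity)
          rw [one_div]
          apply inv_anti₀ (by norm_num)
          have := Real.add_one_le_exp (1:ℝ)
          linarith
      _ ≤ ∑ _c : X, (1 / 2 / n : ℝ) := by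
          apply Finset.sum_le_sum_of_subset_of_nonneg (Finset.filter_subset _ _)
          intro _ _ _
          positivity
      _ = 1 / 2 := by
          rw [Finset.sum_const, Finset.card_univ, nsmul_eq_mul, ← hn]
          field_simp
  linarith

theorem sqrt_gp_le {X : Type} [Fintype X] [Nonempty X] (d : X → X → ℝ)
    (h0 : ∀ x, d x x = 0) (β : ℝ) (x z c : X) :
    Real.sqrt (gp d β x c * gp d β z c) ≤ Real.exp (-((β * d x c + β * d z c) / 2)) := by
  rw [Real.sqrt_le_left (Real.exp_pos _).le, sq, ← Real.exp_add]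
  have h1 := gp_le_exp d h0 β x c
  have h2 := gp_le_exp d h0 β z c
  calc gp d β x c * gp d β z c ≤ Real.exp (-(β * d x c)) * Real.exp (-(β * d z c)) :=
        mul_le_mul h1 h2 (gp_pos d β z c).le (Real.exp_pos _).le
    _ = _ := by rw [← Real.exp_add]; congr 1; ring

theorem comp_kernel {X I : Type} [Fintype X] [Nonempty X] [Fintype I] (d : X → X → ℝ)
    (h0 : ∀ x, d x x = 0) (hn : ∀ x y, 0 ≤ d x y) (hs : ∀ x y, d x y = d y x)
    (ht : ∀ x y z, d x z ≤ d x y + d y z) (β : ℝ) (hβ : 0 < β) (φ : X → X → I → ℝ)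
    (P : ℝ) (hP : 1 ≤ P) (C0 : ℝ)
    (hnear : ∀ c x y, β * d x y ≤ 1 → β * d x c ≤ 1 + Real.log (Fintype.card X) →
      ∑ k, (φ c x k - φ c y k) ^ 2 ≤ C0) :
    ∃ S : X → X → ℝ, (∀ x z, 0 ≤ S x z) ∧ (∀ x, ∑ z, S x z = 1) ∧
      (∀ x z, S x z ≤ ∑ c, Real.exp (-((β * d x c + β * d z c) / 2)) *
        Real.exp (-((∑ k, (φ c x k - φ c z k) ^ 2) / 12))) ∧
      ∀ x y, β * d x y ≤ 1 → ∀ a : X → ℝ, |a x - a y| ^ P ≤
        2 ^ (P - 1) * (8 * Real.exp (1 + C0) ^ 2) *
          (∑ z, S x z * |a x - a z| ^ P + ∑ z, S y z * |a y - a z| ^ P) := by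
  classical
  choose Ω hΩ K hK0 hK1 hK2 using fun c => hilbert_channel (φ c)
  let K' : X → (Σ c, Ω c) → ℝ := fun x ω => gp d β x ω.1 * K ω.1 x ω.2
  have hK'0 : ∀ x ω, 0 ≤ K' x ω := fun x ω => mul_nonneg (gp_pos d β x _).le (hK0 _ _ _)
  have hK'1 : ∀ x, ∑ ω, K' x ω = 1 := by
    intro x
    rw [Fintype.sum_sigma]
    simp only [K']
    simp_rw [← Finset.mul_sum, hK1, mul_one]
    exact gp_sum d β x
  have haff : ∀ x z, ∑ ω, Real.sqrt (K' x ω * K' z ω) =
      ∑ c, Real.sqrt (gp d β x c * gp d β z c) * ∑ ω, Real.sqrt (K c x ω * K c z ω) := by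
    intro x z
    rw [Fintype.sum_sigma]
    refine Finset.sum_congr rfl fun c _ => ?_
    rw [Finset.mul_sum]
    refine Finset.sum_congr rfl fun ω _ => ?_
    simp only [K']
    rw [← Real.sqrt_mul (mul_nonneg (gp_pos d β x c).le (gp_pos d β z c).le)]
    congr 1
    ring
  refine ⟨postK K', postK_nonneg K' hK'0, postK_sum K' hK'0 hK'1, fun x z => ?_,
    fun x y hxy a => ?_⟩
  · refine (postK_le K' hK'0 x z).trans ?_
    rw [haff]
    apply Finset.sum_le_sum
    intro c _
    apply mul_le_mul (sqrt_gp_le d h0 β x z c) (hK2 c x z).2 _ (Real.exp_pos _).le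
    exact Finset.sum_nonneg fun ω _ => Real.sqrt_nonneg _
  · have h1 := postK_pair K' hK'0 hK'1 P hP a x y
    have h2 : (2 * Real.exp (1 + C0))⁻¹ ≤ ∑ ω, Real.sqrt (K' x ω * K' y ω) := by
      rw [haff]
      have h3 : ∀ c, β * d x c ≤ 1 + Real.log (Fintype.card X) →
          Real.exp (-(1 + C0)) * gp d β x c ≤ Real.sqrt (gp d β x c * gp d β y c) *
            ∑ ω, Real.sqrt (K c x ω * K c y ω) := by
        intro c hc
        have h4 := (hK2 c x y).1
        have h5 : Real.exp (-C0) ≤ ∑ ω, Real.sqrt (K c x ω * K c y ω) :=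
          le_trans (Real.exp_le_exp.2 (by have := hnear c x y hxy hc; linarith)) h4
        have h6 : Real.exp (-1) * gp d β x c ≤ Real.sqrt (gp d β x c * gp d β y c) := by
          apply Real.le_sqrt_of_sq_le
          have h7 := gp_le d hs ht β hβ.le x y c
          have h8 : Real.exp (2 * (β * d x y)) ≤ Real.exp 2 := Real.exp_le_exp.2 (by linarith)
          have h9 : gp d β x c ≤ Real.exp 2 * gp d β y c :=
            h7.trans (mul_le_mul_of_nonneg_right h8 (gp_pos d β y c).le)
          have h10 : Real.exp (-1) ^ 2 * Real.exp 2 = 1 := by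
            rw [sq, ← Real.exp_add, ← Real.exp_add]; norm_num
          calc (Real.exp (-1) * gp d β x c) ^ 2 =
              Real.exp (-1) ^ 2 * gp d β x c * gp d β x c := by ring
            _ ≤ Real.exp (-1) ^ 2 * gp d β x c * (Real.exp 2 * gp d β y c) := by
                apply mul_le_mul_of_nonneg_left h9
                exact mul_nonneg (by positivity) (gp_pos d β x c).le
            _ = (Real.exp (-1) ^ 2 * Real.exp 2) * (gp d β x c * gp d β y c) := by ring
            _ = _ := by rw [h10, one_mul]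
        calc Real.exp (-(1 + C0)) * gp d β x c =
            (Real.exp (-1) * gp d β x c) * Real.exp (-C0) := by
              rw [neg_add, Real.exp_add]; ring
          _ ≤ _ := mul_le_mul h6 h5 (Real.exp_pos _).le (Real.sqrt_nonneg _)
      have h11 := gp_nearly_half d h0 β x
      calc (2 * Real.exp (1 + C0))⁻¹ = Real.exp (-(1 + C0)) * (1 / 2) := by
            rw [Real.exp_neg]; field_simp
        _ ≤ Real.exp (-(1 + C0)) *
            ∑ c with β * d x c ≤ 1 + Real.log (Fintype.card X), gp d β x c :=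
            mul_le_mul_of_nonneg_left h11 (Real.exp_pos _).le
        _ = ∑ c with β * d x c ≤ 1 + Real.log (Fintype.card X),
            Real.exp (-(1 + C0)) * gp d β x c := by rw [Finset.mul_sum]
        _ ≤ ∑ c with β * d x c ≤ 1 + Real.log (Fintype.card X),
            (Real.sqrt (gp d β x c * gp d β y c) * ∑ ω, Real.sqrt (K c x ω * K c y ω)) := by
            apply Finset.sum_le_sum
            intro c hc
            simp only [Finset.mem_filter, Finset.mem_univ, true_and] at hc
            exact h3 c hc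
        _ ≤ _ := by
            apply Finset.sum_le_sum_of_subset_of_nonneg (Finset.filter_subset _ _)
            intro c _ _
            exact mul_nonneg (Real.sqrt_nonneg _)
              (Finset.sum_nonneg fun ω _ => Real.sqrt_nonneg _)
    have hE : 0 < Real.exp (1 + C0) := Real.exp_pos _
    have h12 : (8 * Real.exp (1 + C0) ^ 2)⁻¹ ≤ (∑ ω, Real.sqrt (K' x ω * K' y ω)) ^ 2 / 2 := by
      have h13 : ((2 * Real.exp (1 + C0))⁻¹) ^ 2 ≤ (∑ ω, Real.sqrt (K' x ω * K' y ω)) ^ 2 :=
        pow_le_pow_left₀ (by positivity) h2 2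
      have h14 : (8 * Real.exp (1 + C0) ^ 2)⁻¹ = ((2 * Real.exp (1 + C0))⁻¹) ^ 2 / 2 := by
        field_simp; ring
      rw [h14]
      linarith
    have hab : 0 ≤ |a x - a y| ^ P := Real.rpow_nonneg (abs_nonneg _) _
    have h15 := (mul_le_mul_of_nonneg_right h12 hab).trans h1
    rw [inv_mul_le_iff₀ (by positivity)] at h15
    calc |a x - a y| ^ P ≤ _ := h15
      _ = _ := by ring

end Vale.Agent.P249
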