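import Mathlib
import Vale.Agent.P249.T3.Sep1
import Vale.Agent.P249.T3.Mazur

open scoped BigOperators

namespace Vale.Agent.P249

/-- the common first steps: from near and far bounds on the Hilbert distances -/
theorem sep_of_bounds {X I : Type} [Fintype X] [Nonempty X] [Fintype I] (d : X → X → ℝ)
    (h0 : ∀ x, d x x = 0) (hn : ∀ x y, 0 ≤ d x y) (hs : ∀ x y, d x y = d y x)
    (ht : ∀ x y z, d x z ≤ d x y + d y z) (β : ℝ) (hβ : 0 < β) (φ : X → X → I → ℝ)
    (P : ℝ) (hP : 1 ≤ P) (C0 : ℝ)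
    (hnear : ∀ c x y, β * d x y ≤ 1 → β * d x c ≤ 1 + Real.log (Fintype.card X) →
      ∑ k, (φ c x k - φ c y k) ^ 2 ≤ C0) (R : ℝ) (hR : 0 ≤ R)
    (hfar : ∀ c x z, R < (β * d x z) ^ P → β * d x z ≤ 8 * (1 + Real.log (Fintype.card X)) →
      4 * (1 + Real.log (Fintype.card X)) ≤
        (β * d x c + β * d z c) / 2 + (∑ k, (φ c x k - φ c z k) ^ 2) / 12) :
    ∃ S : X → X → ℝ, (∀ x z, 0 ≤ S x z) ∧ (∀ x, ∑ z, S x z = 1) ∧
      (∀ x, ∑ z, S x z * (β * d x z) ^ P ≤ R + (4 * P) ^ P) ∧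
      ∀ x y, β * d x y ≤ 1 → ∀ a : X → ℝ, |a x - a y| ^ P ≤
        2 ^ (P - 1) * (8 * Real.exp (1 + C0) ^ 2) *
          (∑ z, S x z * |a x - a z| ^ P + ∑ z, S y z * |a y - a z| ^ P) := by
  obtain ⟨S, hS0, hS1, hS2, hS3⟩ := comp_kernel d h0 hn hs ht β hβ φ P hP C0 hnear
  refine ⟨S, hS0, hS1, fun x => ?_, hS3⟩
  have hsum : ∀ (v : ℝ), ∑ _c : X, Real.exp v = Fintype.card X * Real.exp v := by
    intro v
    rw [Finset.sum_const, Finset.card_univ, nsmul_eq_mul]
  refine sep_moment P hP (S x) (fun z => β * d x z) (hS0 x) (hS1 x)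
    (fun z => mul_nonneg hβ.le (hn x z)) (fun z => ?_) R hR (fun z h1 h2 => ?_)
  · refine (hS2 x z).trans ?_
    rw [← hsum]
    apply Finset.sum_le_sum
    intro c _
    rw [← Real.exp_add]
    apply Real.exp_le_exp.2
    have h3 := ht x c z
    rw [hs c z] at h3
    have h4 := mul_le_mul_of_nonneg_left h3 hβ.le
    have h5 : 0 ≤ ∑ k, (φ c x k - φ c z k) ^ 2 := Finset.sum_nonneg fun k _ => sq_nonneg _
    nlinarith
  · refine (hS2 x z).trans ?_
    rw [← hsum]
    apply Finset.sum_le_sum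
    intro c _
    rw [← Real.exp_add]
    apply Real.exp_le_exp.2
    have := hfar c x z h1 h2
    linarith

theorem card_log_ge {X : Type} [Fintype X] [Nonempty X] :
    1 ≤ 1 + Real.log (Fintype.card X) := by
  have hc : (1:ℝ) ≤ Fintype.card X := by exact_mod_cast Fintype.card_pos
  have := Real.log_nonneg hc
  linarith

theorem young_big (P θ u m : ℝ) (hP : 2 ≤ P) (hθ : 0 < θ) (hu : 0 ≤ u) (hm : 0 ≤ m) :
    u ^ 2 * m ^ (P - 2) ≤ (θ ^ P * u ^ P + m ^ P) / θ ^ 2 := by
  rw [le_div_iff₀ (by positivity)]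
  set M := max (θ * u) m with hM
  have hM0 : 0 ≤ M := le_max_of_le_right hm
  have h1 : (θ * u) ^ 2 * m ^ (P - 2) ≤ M ^ P := by
    have h2 : (θ * u) ^ 2 ≤ M ^ 2 := pow_le_pow_left₀ (by positivity) (le_max_left _ _) 2
    have h3 : m ^ (P - 2) ≤ M ^ (P - 2) := Real.rpow_le_rpow hm (le_max_right _ _) (by linarith)
    have h4 : M ^ 2 * M ^ (P - 2) = M ^ P := by
      rcases eq_or_lt_of_le hM0 with h | h
      · rw [← h, zero_pow two_ne_zero, zero_mul, Real.zero_rpow (by linarith)]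
      · rw [← Real.rpow_natCast M 2, ← Real.rpow_add h]; norm_num
    calc (θ * u) ^ 2 * m ^ (P - 2) ≤ M ^ 2 * M ^ (P - 2) :=
          mul_le_mul h2 h3 (Real.rpow_nonneg hm _) (by positivity)
      _ = _ := h4
  have h5 : M ^ P ≤ (θ * u) ^ P + m ^ P := by
    rcases max_choice (θ * u) m with h | h
    · rw [hM, h]; have := Real.rpow_nonneg hm P; linarith
    · rw [hM, h]
      have := Real.rpow_nonneg (show 0 ≤ θ * u by positivity) P; linarith
  rw [Real.mul_rpow hθ.le hu] at h5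
  nlinarith

theorem sep_kernel_big (P : ℝ) (hP : 2 ≤ P) {X I : Type} [Fintype X] [Nonempty X] [Fintype I]
    (f : X → I → ℝ) (d : X → X → ℝ)
    (hd : ∀ x y, d x y ^ P = ∑ k, |f x k - f y k| ^ P) (h0 : ∀ x, d x x = 0)
    (hn : ∀ x y, 0 ≤ d x y) (hs : ∀ x y, d x y = d y x)
    (ht : ∀ x y z, d x z ≤ d x y + d y z) (β : ℝ) (hβ : 0 < β) :
    ∃ S : X → X → ℝ, (∀ x z, 0 ≤ S x z) ∧ (∀ x, ∑ z, S x z = 1) ∧
      (∀ x, ∑ z, S x z * (β * d x z) ^ P ≤
        48 * 2 ^ (P - 2) * (1 + Real.log (Fintype.card X)) ^ (P - 1) + (4 * P) ^ P) ∧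
      ∀ x y, β * d x y ≤ 1 → ∀ a : X → ℝ, |a x - a y| ^ P ≤
        2 ^ (P - 1) * (8 * Real.exp (1 + (P / 2) ^ 2 * (1 + 2 * 2 ^ P)) ^ 2) *
          (∑ z, S x z * |a x - a z| ^ P + ∑ z, S y z * |a y - a z| ^ P) := by
  have hL1 := card_log_ge (X := X)
  set Lg := 1 + Real.log (Fintype.card X) with hLg
  have hL0 : 0 < Lg := by linarith
  have hβP : 0 < β ^ P := Real.rpow_pos_of_pos hβ _
  have hν : 0 < β ^ P * Lg ^ (2 - P) := mul_pos hβP (Real.rpow_pos_of_pos hL0 _)
  set ν := β ^ P * Lg ^ (2 - P) with hνd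
  have hsq : ∀ c x y k, (Real.sqrt ν * mz (P / 2) (f x k - f c k) -
      Real.sqrt ν * mz (P / 2) (f y k - f c k)) ^ 2 =
      ν * |mz (P / 2) (f x k - f c k) - mz (P / 2) (f y k - f c k)| ^ 2 := by
    intro c x y k
    rw [← mul_sub, mul_pow, Real.sq_sqrt hν.le, sq_abs]
  have hs1 : (1:ℝ) ≤ P / 2 := by linarith
  refine sep_of_bounds d h0 hn hs ht β hβ
    (fun c x k => Real.sqrt ν * mz (P / 2) (f x k - f c k)) P (by linarith)
    ((P / 2) ^ 2 * (1 + 2 * 2 ^ P)) (fun c x y hxy hxc => ?_)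
    (48 * 2 ^ (P - 2) * Lg ^ (P - 1)) (by positivity) (fun c x z h1 h2 => ?_)
  · simp only [hsq]
    have hk : ∀ k, ν * |mz (P / 2) (f x k - f c k) - mz (P / 2) (f y k - f c k)| ^ 2 ≤
        ν * (P / 2) ^ 2 / Lg ^ 2 * (Lg ^ P * |f x k - f y k| ^ P +
          (|f x k - f c k| ^ P + |f y k - f c k| ^ P)) := by
      intro k
      have h3 := mz_upper_big (P / 2) hs1 (f x k - f c k) (f y k - f c k)
      have e1 : f x k - f c k - (f y k - f c k) = f x k - f y k := by ring
      rw [e1] at h3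
      set m := max |f x k - f c k| |f y k - f c k| with hm
      have hm0 : 0 ≤ m := le_max_of_le_left (abs_nonneg _)
      have h4 : |mz (P / 2) (f x k - f c k) - mz (P / 2) (f y k - f c k)| ^ 2 ≤
          (P / 2) ^ 2 * (|f x k - f y k| ^ 2 * m ^ (P - 2)) := by
        calc _ ≤ (P / 2 * |f x k - f y k| * m ^ (P / 2 - 1)) ^ 2 :=
              pow_le_pow_left₀ (abs_nonneg _) h3 2
          _ = (P / 2) ^ 2 * (|f x k - f y k| ^ 2 * (m ^ (P / 2 - 1)) ^ 2) := by ring
          _ = _ := by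
              rw [← Real.rpow_natCast (m ^ (P / 2 - 1)) 2, ← Real.rpow_mul hm0]
              congr 3
              push_cast
              ring
      have h5 := young_big P Lg |f x k - f y k| m hP hL0 (abs_nonneg _) hm0
      have h6 : m ^ P ≤ |f x k - f c k| ^ P + |f y k - f c k| ^ P := by
        rcases max_choice |f x k - f c k| |f y k - f c k| with h | h
        · rw [hm, h]; have := Real.rpow_nonneg (abs_nonneg (f y k - f c k)) P; linarith
        · rw [hm, h]; have := Real.rpow_nonneg (abs_nonneg (f x k - f c k)) P; linarith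
      calc ν * |mz (P / 2) (f x k - f c k) - mz (P / 2) (f y k - f c k)| ^ 2 ≤
          ν * ((P / 2) ^ 2 * ((Lg ^ P * |f x k - f y k| ^ P + m ^ P) / Lg ^ 2)) := by
            apply mul_le_mul_of_nonneg_left _ hν.le
            refine h4.trans ?_
            exact mul_le_mul_of_nonneg_left h5 (by positivity)
        _ = ν * (P / 2) ^ 2 / Lg ^ 2 * (Lg ^ P * |f x k - f y k| ^ P + m ^ P) := by ring
        _ ≤ _ := by
            apply mul_le_mul_of_nonneg_left _ (by positivity)
            linarith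
    refine (Finset.sum_le_sum fun k _ => hk k).trans ?_
    rw [← Finset.mul_sum, Finset.sum_add_distrib, ← Finset.mul_sum, Finset.sum_add_distrib,
      ← hd, ← hd, ← hd]
    have h7 : (β * d x y) ^ P ≤ 1 := by
      calc (β * d x y) ^ P ≤ 1 ^ P := Real.rpow_le_rpow (mul_nonneg hβ.le (hn x y)) hxy
            (by linarith)
        _ = 1 := Real.one_rpow _
    have h8 : (β * d x c) ^ P ≤ (2 * Lg) ^ P :=
      Real.rpow_le_rpow (mul_nonneg hβ.le (hn x c)) (by linarith) (by linarith)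
    have h9 : (β * d y c) ^ P ≤ (2 * Lg) ^ P := by
      apply Real.rpow_le_rpow (mul_nonneg hβ.le (hn y c)) _ (by linarith)
      have := ht y x c
      rw [hs y x] at this
      nlinarith
    rw [Real.mul_rpow hβ.le (hn _ _)] at h7 h8 h9
    rw [Real.mul_rpow (by norm_num) hL0.le] at h8 h9
    have hLP : 0 < Lg ^ P := Real.rpow_pos_of_pos hL0 _
    have hν2 : ν / Lg ^ 2 * Lg ^ P = β ^ P := by
      rw [hνd, Real.rpow_sub hL0, Real.rpow_two]
      field_simp
    have h10 : ν * (P / 2) ^ 2 / Lg ^ 2 * (Lg ^ P * d x y ^ P + (d x c ^ P + d y c ^ P)) =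
        (P / 2) ^ 2 * (ν / Lg ^ 2 * (Lg ^ P * d x y ^ P + (d x c ^ P + d y c ^ P))) := by ring
    rw [h10]
    apply mul_le_mul_of_nonneg_left _ (by positivity)
    have h11 : ν / Lg ^ 2 = β ^ P / Lg ^ P := by
      rw [eq_div_iff hLP.ne', hν2]
    rw [h11]
    calc β ^ P / Lg ^ P * (Lg ^ P * d x y ^ P + (d x c ^ P + d y c ^ P)) =
        β ^ P * d x y ^ P + (β ^ P * d x c ^ P) / Lg ^ P + (β ^ P * d y c ^ P) / Lg ^ P := by
          field_simp
          ring
      _ ≤ 1 + (2 ^ P * Lg ^ P) / Lg ^ P + (2 ^ P * Lg ^ P) / Lg ^ P := by gcongr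
      _ = _ := by field_simp; ring
  · simp only [hsq]
    have hk : ∀ k, ν * ((2:ℝ) ^ (2 - P) * |f x k - f z k| ^ P) ≤
        ν * |mz (P / 2) (f x k - f c k) - mz (P / 2) (f z k - f c k)| ^ 2 := by
      intro k
      apply mul_le_mul_of_nonneg_left _ hν.le
      have h3 := mz_lower_big (P / 2) hs1 (f x k - f c k) (f z k - f c k)
      have e1 : f x k - f c k - (f z k - f c k) = f x k - f z k := by ring
      rw [e1] at h3
      have h4 := pow_le_pow_left₀ (by positivity) h3 2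
      refine le_trans (le_of_eq ?_) h4
      rw [mul_pow, ← Real.rpow_natCast ((2:ℝ) ^ (1 - P / 2)) 2,
        ← Real.rpow_natCast (|f x k - f z k| ^ (P / 2)) 2, ← Real.rpow_mul (by norm_num),
        ← Real.rpow_mul (abs_nonneg _)]
      congr 2 <;> (push_cast; ring)
    have h5 := Finset.sum_le_sum fun k (_ : k ∈ Finset.univ) => hk k
    rw [← Finset.mul_sum, ← Finset.mul_sum, ← hd] at h5
    have h6 : 48 * Lg ≤ ν * (2 ^ (2 - P) * d x z ^ P) := by
      rw [Real.mul_rpow hβ.le (hn _ _)] at h1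
      calc 48 * Lg = Lg ^ (2 - P) * 2 ^ (2 - P) * (48 * 2 ^ (P - 2) * Lg ^ (P - 1)) := by
            have e1 : (2:ℝ) ^ (2 - P) * 2 ^ (P - 2) = 1 := by
              rw [← Real.rpow_add (by norm_num)]; norm_num
            have e2 : Lg ^ (2 - P) * Lg ^ (P - 1) = Lg := by
              rw [← Real.rpow_add hL0]
              have : 2 - P + (P - 1) = 1 := by ring
              rw [this, Real.rpow_one]
            calc 48 * Lg = 48 * (((2:ℝ) ^ (2 - P) * 2 ^ (P - 2)) *
                (Lg ^ (2 - P) * Lg ^ (P - 1))) := by rw [e1, e2]; ring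
              _ = _ := by ring
        _ ≤ Lg ^ (2 - P) * 2 ^ (2 - P) * (β ^ P * d x z ^ P) :=
            mul_le_mul_of_nonneg_left h1.le (by positivity)
        _ = _ := by rw [hνd]; ring
    have h7 : 0 ≤ β * d x c := mul_nonneg hβ.le (hn _ _)
    have h8 : 0 ≤ β * d z c := mul_nonneg hβ.le (hn _ _)
    linarith


theorem young_small (P ε u m : ℝ) (hP0 : 0 < P) (hP : P ≤ 2) (hε : 0 < ε) (hu : 0 ≤ u)
    (hm : u ≤ m) :
    u ^ P ≤ ε ^ (P - 2) * (u ^ 2 * m ^ (P - 2)) + ε ^ P * m ^ P := by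
  have hm0 : 0 ≤ m := hu.trans hm
  rcases eq_or_lt_of_le hu with h | h
  · rw [← h, Real.zero_rpow hP0.ne']
    positivity
  have hmp : 0 < m := h.trans_le hm
  rcases le_or_gt u (ε * m) with h1 | h1
  · have h2 : u ^ P ≤ (ε * m) ^ P := Real.rpow_le_rpow hu h1 hP0.le
    rw [Real.mul_rpow hε.le hm0] at h2
    have : 0 ≤ ε ^ (P - 2) * (u ^ 2 * m ^ (P - 2)) := by positivity
    linarith
  · have h2 : u ^ (P - 2) ≤ (ε * m) ^ (P - 2) :=
      Real.rpow_le_rpow_of_nonpos (by positivity) h1.le (by linarith)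
    rw [Real.mul_rpow hε.le hm0] at h2
    have h3 : u ^ P = u ^ 2 * u ^ (P - 2) := by
      rw [← Real.rpow_natCast u 2, ← Real.rpow_add h]; norm_num
    have h4 : u ^ 2 * u ^ (P - 2) ≤ u ^ 2 * (ε ^ (P - 2) * m ^ (P - 2)) :=
      mul_le_mul_of_nonneg_left h2 (by positivity)
    have : 0 ≤ ε ^ P * m ^ P := by positivity
    rw [h3]
    linarith

theorem rpow_add_le_add (P a b : ℝ) (hP : 1 ≤ P) (ha : 0 ≤ a) (hb : 0 ≤ b) :
    (a + b) ^ P ≤ 2 ^ (P - 1) * (a ^ P + b ^ P) := by
  have h12 : ((a + b) / 2) ^ P ≤ (a ^ P + b ^ P) / 2 := by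
    have := (convexOn_rpow hP).2 (Set.mem_Ici.2 ha) (Set.mem_Ici.2 hb)
      (show (0:ℝ) ≤ 1 / 2 by norm_num) (show (0:ℝ) ≤ 1 / 2 by norm_num) (by norm_num)
    simp only [smul_eq_mul] at this
    have e2 : 1 / 2 * a + 1 / 2 * b = (a + b) / 2 := by ring
    rw [e2] at this
    linarith
  rw [Real.div_rpow (by positivity) (by norm_num), div_le_iff₀ (by positivity)] at h12
  have e : (2:ℝ) ^ (P - 1) = 2 ^ P / 2 := by
    rw [Real.rpow_sub (by norm_num), Real.rpow_one]
  rw [e]
  linarith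

theorem sep_kernel_small (P : ℝ) (hP1 : 1 ≤ P) (hP : P ≤ 2) {X I : Type} [Fintype X] [Nonempty X]
    [Fintype I] (f : X → I → ℝ) (d : X → X → ℝ)
    (hd : ∀ x y, d x y ^ P = ∑ k, |f x k - f y k| ^ P) (h0 : ∀ x, d x x = 0)
    (hn : ∀ x y, 0 ≤ d x y) (hs : ∀ x y, d x y = d y x)
    (ht : ∀ x y z, d x z ≤ d x y + d y z) (β : ℝ) (hβ : 0 < β) :
    ∃ S : X → X → ℝ, (∀ x z, 0 ≤ S x z) ∧ (∀ x, ∑ z, S x z = 1) ∧
      (∀ x, ∑ z, S x z * (β * d x z) ^ P ≤
        12288 ^ (P / 2) * (1 + Real.log (Fintype.card X)) ^ ((3 - P) * (P / 2)) + (4 * P) ^ P) ∧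
      ∀ x y, β * d x y ≤ 1 → ∀ a : X → ℝ, |a x - a y| ^ P ≤
        2 ^ (P - 1) * (8 * Real.exp (1 + 4) ^ 2) *
          (∑ z, S x z * |a x - a z| ^ P + ∑ z, S y z * |a y - a z| ^ P) := by
  have hL1 := card_log_ge (X := X)
  set Lg := 1 + Real.log (Fintype.card X) with hLg
  have hL0 : 0 < Lg := by linarith
  have hP0 : 0 < P := by linarith
  have hν : 0 < β ^ P := Real.rpow_pos_of_pos hβ _
  have hsq : ∀ c x y k, (Real.sqrt (β ^ P) * mz (P / 2) (f x k - f c k) -
      Real.sqrt (β ^ P) * mz (P / 2) (f y k - f c k)) ^ 2 =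
      β ^ P * |mz (P / 2) (f x k - f c k) - mz (P / 2) (f y k - f c k)| ^ 2 := by
    intro c x y k
    rw [← mul_sub, mul_pow, Real.sq_sqrt hν.le, sq_abs]
  have hs0 : (0:ℝ) < P / 2 := by linarith
  have hs1 : P / 2 ≤ 1 := by linarith
  refine sep_of_bounds d h0 hn hs ht β hβ
    (fun c x k => Real.sqrt (β ^ P) * mz (P / 2) (f x k - f c k)) P (by linarith)
    4 (fun c x y hxy hxc => ?_)
    (12288 ^ (P / 2) * Lg ^ ((3 - P) * (P / 2))) (by positivity) (fun c x z h1 h2 => ?_)
  · simp only [hsq]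
    have hk : ∀ k, β ^ P * |mz (P / 2) (f x k - f c k) - mz (P / 2) (f y k - f c k)| ^ 2 ≤
        4 * β ^ P * |f x k - f y k| ^ P := by
      intro k
      have h3 := mz_upper_small (P / 2) hs0 hs1 (f x k - f c k) (f y k - f c k)
      have e1 : f x k - f c k - (f y k - f c k) = f x k - f y k := by ring
      rw [e1] at h3
      have h4 := pow_le_pow_left₀ (abs_nonneg _) h3 2
      have h5 : (2 * |f x k - f y k| ^ (P / 2)) ^ 2 = 4 * |f x k - f y k| ^ P := by
        rw [mul_pow, ← Real.rpow_natCast (|f x k - f y k| ^ (P / 2)) 2,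
          ← Real.rpow_mul (abs_nonneg _)]
        congr 2
        · norm_num
        · push_cast; ring
      rw [h5] at h4
      calc _ ≤ β ^ P * (4 * |f x k - f y k| ^ P) := mul_le_mul_of_nonneg_left h4 hν.le
        _ = _ := by ring
    refine (Finset.sum_le_sum fun k _ => hk k).trans ?_
    rw [← Finset.mul_sum, ← hd]
    have h7 : (β * d x y) ^ P ≤ 1 := by
      calc (β * d x y) ^ P ≤ 1 ^ P := Real.rpow_le_rpow (mul_nonneg hβ.le (hn x y)) hxy
            (by linarith)
        _ = 1 := Real.one_rpow _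
    rw [Real.mul_rpow hβ.le (hn _ _)] at h7
    linarith
  · simp only [hsq]
    set t := β * d x z with htd
    set s := β * d x c + β * d z c with hsd
    have ht0 : 0 ≤ t := mul_nonneg hβ.le (hn _ _)
    have hRpos : 0 ≤ 12288 ^ (P / 2) * Lg ^ ((3 - P) * (P / 2)) := by positivity
    have htpos : 0 < t := by
      rcases eq_or_lt_of_le ht0 with h | h
      · rw [← h, Real.zero_rpow hP0.ne'] at h1
        linarith
      · exact h
    have hts : t ≤ s := by
      have h3 := ht x c z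
      rw [hs c z] at h3
      rw [htd, hsd, ← mul_add]
      exact mul_le_mul_of_nonneg_left h3 hβ.le
    have hspos : 0 < s := htpos.trans_le hts
    set ρ := ∑ k, β ^ P * |mz (P / 2) (f x k - f c k) - mz (P / 2) (f z k - f c k)| ^ 2 with hρ
    have hρ0 : 0 ≤ ρ := Finset.sum_nonneg fun k _ => by positivity
    -- lower bound for the Hilbert distance
    have hlow : t ^ 2 * s ^ (P - 2) / 32 ≤ ρ := by
      set ε := t / (4 * s) with hε
      have hε0 : 0 < ε := by positivity
      have hk : ∀ k, β ^ P * |f x k - f z k| ^ P ≤ 4 * ε ^ (P - 2) *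
          (β ^ P * |mz (P / 2) (f x k - f c k) - mz (P / 2) (f z k - f c k)| ^ 2) +
          2 * ε ^ P * (β ^ P * |f x k - f c k| ^ P + β ^ P * |f z k - f c k| ^ P) := by
        intro k
        set m := |f x k - f c k| + |f z k - f c k| with hm
        have e1 : f x k - f c k - (f z k - f c k) = f x k - f z k := by ring
        have hum : |f x k - f z k| ≤ m := by
          rw [← e1]; exact abs_sub _ _
        have hm0 : 0 ≤ m := by positivity
        have h3 := mz_lower_small (P / 2) hs0 hs1 (f x k - f c k) (f z k - f c k)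
        rw [e1] at h3
        have h4 := pow_le_pow_left₀ (by positivity) h3 2
        have h5 : (P / 2 * |f x k - f z k| * m ^ (P / 2 - 1)) ^ 2 =
            (P / 2) ^ 2 * (|f x k - f z k| ^ 2 * m ^ (P - 2)) := by
          rw [mul_pow, mul_pow, ← Real.rpow_natCast (m ^ (P / 2 - 1)) 2, ← Real.rpow_mul hm0,
            mul_assoc]
          congr 3
          push_cast
          ring
        rw [h5] at h4
        have h6 : |f x k - f z k| ^ 2 * m ^ (P - 2) ≤
            4 * |mz (P / 2) (f x k - f c k) - mz (P / 2) (f z k - f c k)| ^ 2 := by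
          have h7 : 0 ≤ |f x k - f z k| ^ 2 * m ^ (P - 2) := by positivity
          have h8 : (1:ℝ) / 4 ≤ (P / 2) ^ 2 := by nlinarith
          nlinarith
        have h9 := young_small P ε |f x k - f z k| m hP0 hP hε0 (abs_nonneg _) hum
        have h10 : m ^ P ≤ 2 * (|f x k - f c k| ^ P + |f z k - f c k| ^ P) := by
          refine (rpow_add_le_add P _ _ hP1 (abs_nonneg _) (abs_nonneg _)).trans ?_
          apply mul_le_mul_of_nonneg_right _ (by positivity)
          calc (2:ℝ) ^ (P - 1) ≤ 2 ^ (1:ℝ) :=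
                Real.rpow_le_rpow_of_exponent_le (by norm_num) (by linarith)
            _ = 2 := Real.rpow_one _
        have h11 : |f x k - f z k| ^ P ≤ ε ^ (P - 2) *
            (4 * |mz (P / 2) (f x k - f c k) - mz (P / 2) (f z k - f c k)| ^ 2) +
            ε ^ P * (2 * (|f x k - f c k| ^ P + |f z k - f c k| ^ P)) := by
          refine h9.trans (add_le_add ?_ ?_)
          · exact mul_le_mul_of_nonneg_left h6 (by positivity)
          · exact mul_le_mul_of_nonneg_left h10 (by positivity)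
        calc β ^ P * |f x k - f z k| ^ P ≤ β ^ P * _ := mul_le_mul_of_nonneg_left h11 hν.le
          _ = _ := by ring
      have h5 : β ^ P * d x z ^ P ≤ 4 * ε ^ (P - 2) * ρ +
          2 * ε ^ P * (β ^ P * d x c ^ P + β ^ P * d z c ^ P) := by
        rw [hd x z, hd x c, hd z c, hρ]
        simp only [Finset.mul_sum, ← Finset.sum_add_distrib]
        exact Finset.sum_le_sum fun k _ => hk k
      rw [← Real.mul_rpow hβ.le (hn _ _), ← Real.mul_rpow hβ.le (hn _ _),
        ← Real.mul_rpow hβ.le (hn _ _), ← htd] at h5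
      have h6 : (β * d x c) ^ P + (β * d z c) ^ P ≤ s ^ P := by
        have ha : 0 ≤ β * d x c := mul_nonneg hβ.le (hn _ _)
        have hb : 0 ≤ β * d z c := mul_nonneg hβ.le (hn _ _)
        exact Real.add_rpow_le_rpow_add ha hb hP1
      have h7 : 2 * ε ^ P * s ^ P ≤ t ^ P / 2 := by
        have e1 : ε ^ P * s ^ P = t ^ P / 4 ^ P := by
          rw [← Real.mul_rpow hε0.le hspos.le, ← Real.div_rpow ht0 (by norm_num)]
          congr 1
          rw [hε]; field_simp
        have e2 : (4:ℝ) ≤ 4 ^ P := by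
          calc (4:ℝ) = 4 ^ (1:ℝ) := (Real.rpow_one _).symm
            _ ≤ 4 ^ P := Real.rpow_le_rpow_of_exponent_le (by norm_num) hP1
        have e3 : t ^ P / 4 ^ P ≤ t ^ P / 4 :=
          div_le_div_of_nonneg_left (by positivity) (by norm_num) e2
        calc 2 * ε ^ P * s ^ P = 2 * (ε ^ P * s ^ P) := by ring
          _ ≤ 2 * (t ^ P / 4) := by rw [e1]; linarith
          _ = _ := by ring
      have h8 : t ^ P / 2 ≤ 4 * ε ^ (P - 2) * ρ := by
        have : 2 * ε ^ P * ((β * d x c) ^ P + (β * d z c) ^ P) ≤ 2 * ε ^ P * s ^ P :=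
          mul_le_mul_of_nonneg_left h6 (by positivity)
        linarith
      have h9 : t ^ P * ε ^ (2 - P) / 8 ≤ ρ := by
        have e1 : ε ^ (P - 2) * ε ^ (2 - P) = 1 := by
          rw [← Real.rpow_add hε0]; norm_num
        have e2 := mul_le_mul_of_nonneg_right h8 (show 0 ≤ ε ^ (2 - P) by positivity)
        have e3 : 4 * ε ^ (P - 2) * ρ * ε ^ (2 - P) = 4 * ρ * (ε ^ (P - 2) * ε ^ (2 - P)) := by
          ring
        rw [e3, e1] at e2
        linarith
      have h10 : t ^ 2 * s ^ (P - 2) / 4 ≤ t ^ P * ε ^ (2 - P) := by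
        have e1 : ε ^ (2 - P) = t ^ (2 - P) / (4 ^ (2 - P) * s ^ (2 - P)) := by
          rw [hε, Real.div_rpow ht0 (by positivity), Real.mul_rpow (by norm_num) hspos.le]
        have e2 : t ^ P * t ^ (2 - P) = t ^ 2 := by
          rw [← Real.rpow_add htpos, ← Real.rpow_natCast t 2]; congr 1; push_cast; ring
        have e3 : s ^ (P - 2) = (s ^ (2 - P))⁻¹ := by
          rw [← Real.rpow_neg hspos.le]; congr 1; ring
        have e4 : (4:ℝ) ^ (2 - P) ≤ 4 := by
          calc (4:ℝ) ^ (2 - P) ≤ 4 ^ (1:ℝ) :=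
                Real.rpow_le_rpow_of_exponent_le (by norm_num) (by linarith)
            _ = 4 := Real.rpow_one _
        have hsP : 0 < s ^ (2 - P) := by positivity
        rw [e1, e3]
        calc t ^ 2 * (s ^ (2 - P))⁻¹ / 4 = t ^ 2 / (4 * s ^ (2 - P)) := by field_simp
          _ ≤ t ^ 2 / (4 ^ (2 - P) * s ^ (2 - P)) := by
              apply div_le_div_of_nonneg_left (by positivity) (by positivity)
              exact mul_le_mul_of_nonneg_right e4 hsP.le
          _ = _ := by rw [← e2]; ring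
      linarith
    rcases le_or_gt (8 * Lg) s with h3 | h3
    · linarith
    · have h4 : (8 * Lg) ^ (P - 2) ≤ s ^ (P - 2) :=
        Real.rpow_le_rpow_of_nonpos hspos h3.le (by linarith)
      have h5 : 12288 * Lg ^ (3 - P) ≤ t ^ 2 := by
        have h6 := Real.rpow_le_rpow hRpos h1.le (show 0 ≤ 2 / P by positivity)
        rw [← Real.rpow_mul ht0, Real.mul_rpow (by positivity) (by positivity),
          ← Real.rpow_mul (by norm_num), ← Real.rpow_mul hL0.le] at h6
        have e1 : P / 2 * (2 / P) = 1 := by field_simp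
        have e2 : (3 - P) * (P / 2) * (2 / P) = 3 - P := by field_simp
        have e3 : P * (2 / P) = ((2 : ℕ) : ℝ) := by push_cast; field_simp
        rw [e1, e2, e3, Real.rpow_one, Real.rpow_natCast] at h6
        exact h6
      have h7 : 1536 * Lg ≤ t ^ 2 * s ^ (P - 2) := by
        calc 1536 * Lg ≤ 12288 * Lg ^ (3 - P) * (8 * Lg) ^ (P - 2) := by
              rw [Real.mul_rpow (by norm_num) hL0.le]
              have e1 : Lg ^ (3 - P) * Lg ^ (P - 2) = Lg := by
                rw [← Real.rpow_add hL0]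
                have : 3 - P + (P - 2) = 1 := by ring
                rw [this, Real.rpow_one]
              have e2 : (1:ℝ) / 8 ≤ 8 ^ (P - 2) := by
                calc (1:ℝ) / 8 = 8 ^ (-1:ℝ) := by
                      rw [Real.rpow_neg (by norm_num), Real.rpow_one]; norm_num
                  _ ≤ 8 ^ (P - 2) :=
                      Real.rpow_le_rpow_of_exponent_le (by norm_num) (by linarith)
              calc 1536 * Lg = 12288 * (1 / 8) * (Lg ^ (3 - P) * Lg ^ (P - 2)) := by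
                    rw [e1]; ring
                _ ≤ 12288 * (8 ^ (P - 2)) * (Lg ^ (3 - P) * Lg ^ (P - 2)) := by
                    apply mul_le_mul_of_nonneg_right _ (by positivity)
                    linarith
                _ = _ := by ring
          _ ≤ t ^ 2 * s ^ (P - 2) := mul_le_mul h5 h4 (by positivity) (by positivity)
      linarith


/-- the exponent of the moment bound of the separating kernel -/
noncomputable def sepR (P : ℝ) : ℝ := if 2 ≤ P then P - 1 else (3 - P) * (P / 2)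

theorem sepR_nonneg (P : ℝ) (hP : 1 < P) : 0 ≤ sepR P := by
  unfold sepR
  split_ifs with h
  · linarith
  · push Not at h
    exact mul_nonneg (by linarith) (by linarith)

theorem sepR_lt (P : ℝ) (hP : 1 < P) : sepR P < P := by
  unfold sepR
  split_ifs with h
  · linarith
  · nlinarith

/-- module C: separating kernel. -/
theorem sep_kernel (P : ℝ) (hP : 1 < P) : ∃ C : ℝ, 1 ≤ C ∧
    ∀ {X I : Type} [Fintype X] [Nonempty X] [Fintype I] (f : X → I → ℝ) (d : X → X → ℝ)
      (_ : ∀ x y, d x y ^ P = ∑ k, |f x k - f y k| ^ P) (_ : ∀ x, d x x = 0)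
      (_ : ∀ x y, 0 ≤ d x y) (_ : ∀ x y, d x y = d y x) (_ : ∀ x y z, d x z ≤ d x y + d y z)
      (β : ℝ) (_ : 0 < β),
      ∃ S : X → X → ℝ, (∀ x z, 0 ≤ S x z) ∧ (∀ x, ∑ z, S x z = 1) ∧
        (∀ x, ∑ z, S x z * (β * d x z) ^ P ≤ C * (1 + Real.log (Fintype.card X)) ^ sepR P) ∧
        ∀ x y, β * d x y ≤ 1 → ∀ a : X → ℝ, |a x - a y| ^ P ≤
          C * (∑ z, S x z * |a x - a z| ^ P + ∑ z, S y z * |a y - a z| ^ P) := by
  rcases le_or_gt 2 P with h2 | h2
  · set C1 := 48 * 2 ^ (P - 2) + (4 * P) ^ P with hC1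
    set C2 := 2 ^ (P - 1) * (8 * Real.exp (1 + (P / 2) ^ 2 * (1 + 2 * 2 ^ P)) ^ 2) with hC2
    refine ⟨max 1 (max C1 C2), le_max_left _ _, ?_⟩
    intro X I _ _ _ f d hd h0 hn hs ht β hβ
    obtain ⟨S, hS0, hS1, hS2, hS3⟩ := sep_kernel_big P h2 f d hd h0 hn hs ht β hβ
    have hL1 := card_log_ge (X := X)
    refine ⟨S, hS0, hS1, fun x => (hS2 x).trans ?_, fun x y hxy a => (hS3 x y hxy a).trans ?_⟩
    · have e : sepR P = P - 1 := by simp [sepR, h2]
      rw [e]
      set L := (1 + Real.log (Fintype.card X)) ^ (P - 1) with hL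
      have hL' : 1 ≤ L := Real.one_le_rpow hL1 (by linarith)
      have h4 : (4 * P) ^ P ≤ (4 * P) ^ P * L :=
        le_mul_of_one_le_right (by positivity) hL'
      calc 48 * 2 ^ (P - 2) * L + (4 * P) ^ P ≤ C1 * L := by rw [hC1]; linarith
        _ ≤ _ := mul_le_mul_of_nonneg_right
              ((le_max_left _ _).trans (le_max_right _ _)) (by linarith)
    · apply mul_le_mul_of_nonneg_right ((le_max_right _ _).trans (le_max_right _ _))
      apply add_nonneg <;> exact Finset.sum_nonneg fun z _ =>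
        mul_nonneg (hS0 _ _) (Real.rpow_nonneg (abs_nonneg _) _)
  · set C1 := 12288 ^ (P / 2) + (4 * P) ^ P with hC1
    set C2 := 2 ^ (P - 1) * (8 * Real.exp (1 + 4) ^ 2) with hC2
    refine ⟨max 1 (max C1 C2), le_max_left _ _, ?_⟩
    intro X I _ _ _ f d hd h0 hn hs ht β hβ
    obtain ⟨S, hS0, hS1, hS2, hS3⟩ := sep_kernel_small P hP.le h2.le f d hd h0 hn hs ht β hβ
    have hL1 := card_log_ge (X := X)
    refine ⟨S, hS0, hS1, fun x => (hS2 x).trans ?_, fun x y hxy a => (hS3 x y hxy a).trans ?_⟩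
    · have e : sepR P = (3 - P) * (P / 2) := by simp [sepR, not_le.2 h2]
      rw [e]
      set L := (1 + Real.log (Fintype.card X)) ^ ((3 - P) * (P / 2)) with hL
      have hL' : 1 ≤ L := Real.one_le_rpow hL1 (mul_nonneg (by linarith) (by linarith))
      have h4 : (4 * P) ^ P ≤ (4 * P) ^ P * L :=
        le_mul_of_one_le_right (by positivity) hL'
      calc 12288 ^ (P / 2) * L + (4 * P) ^ P ≤ C1 * L := by rw [hC1]; linarith
        _ ≤ _ := mul_le_mul_of_nonneg_right
              ((le_max_left _ _).trans (le_max_right _ _)) (by linarith)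
    · apply mul_le_mul_of_nonneg_right ((le_max_right _ _).trans (le_max_right _ _))
      apply add_nonneg <;> exact Finset.sum_nonneg fun z _ =>
        mul_nonneg (hS0 _ _) (Real.rpow_nonneg (abs_nonneg _) _)

end Vale.Agent.P249
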