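import Mathlib
import Vale.Agent.P249.T3.Sep
import Vale.Agent.P249.T3.GibbsPow
import Vale.Agent.P249.Up.Sens

open scoped BigOperators

namespace Vale.Agent.P249

/-- the exponent of the pointwise sensitivity bound -/
noncomputable def sensR (P : ℝ) : ℝ := 1 + sepR P * ((P - 1) / P)

theorem sensR_ge (P : ℝ) (hP : 1 < P) : 1 ≤ sensR P := by
  unfold sensR
  have h1 := sepR_nonneg P hP
  have h2 : 0 ≤ (P - 1) / P := div_nonneg (by linarith) (by linarith)
  nlinarith [mul_nonneg h1 h2]

theorem sensR_lt (P : ℝ) (hP : 1 < P) : sensR P < P := by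
  unfold sensR
  have h1 := sepR_lt P hP
  have hP0 : 0 < P := by linarith
  have h2 : 0 < (P - 1) / P := div_pos (by linarith) hP0
  have h3 := mul_lt_mul_of_pos_right h1 h2
  have h4 : P * ((P - 1) / P) = P - 1 := by field_simp
  linarith

theorem scale_exists {X : Type} [Fintype X] [Nonempty X] (d : X → X → ℝ)
    (hdpos : ∀ x y, x ≠ y → 0 < d x y) :
    ∃ (b : ℝ) (J : ℕ), 0 < b ∧ (∀ x y, x ≠ y → 1 ≤ b * d x y) ∧ ∀ x y, b * d x y ≤ 2 ^ J := by
  classical
  obtain ⟨b, hb, hb1⟩ : ∃ b : ℝ, 0 < b ∧ ∀ x y, x ≠ y → 1 ≤ b * d x y := by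
    by_cases hne : (Finset.univ.filter (fun q : X × X => q.1 ≠ q.2)).Nonempty
    · obtain ⟨q, hq, hmin⟩ := Finset.exists_min_image _ (fun q : X × X => d q.1 q.2) hne
      simp only [Finset.mem_filter, Finset.mem_univ, true_and] at hq
      have hq0 := hdpos _ _ hq
      refine ⟨1 / d q.1 q.2, by positivity, fun x y hxy => ?_⟩
      have := hmin (x, y) (by simp [hxy])
      rw [one_div, inv_mul_eq_div, one_le_div hq0]
      exact this
    · refine ⟨1, one_pos, fun x y hxy => ?_⟩
      exact absurd ⟨(x, y), by simp [hxy]⟩ hne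
  obtain ⟨M, hM⟩ : ∃ M : ℝ, ∀ x y, b * d x y ≤ M := by
    obtain ⟨q, -, hq⟩ := Finset.exists_max_image (Finset.univ : Finset (X × X))
      (fun q => b * d q.1 q.2) Finset.univ_nonempty
    exact ⟨b * d q.1 q.2, fun x y => hq (x, y) (Finset.mem_univ _)⟩
  obtain ⟨J, hJ⟩ := pow_unbounded_of_one_lt M (show (1:ℝ) < 2 by norm_num)
  exact ⟨b, J, hb, hb1, fun x y => (hM x y).trans hJ.le⟩

/-- module E: pointwise sensitivities. -/
theorem sens_pt (P : ℝ) (hP : 1 < P) : ∃ C : ℝ, 1 ≤ C ∧
    ∀ {X I : Type} [Fintype X] [Nonempty X] [Fintype I] (f : X → I → ℝ) (d : X → X → ℝ)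
      (_ : ∀ x y, d x y ^ P = ∑ k, |f x k - f y k| ^ P) (_ : ∀ x, d x x = 0)
      (_ : ∀ x y, x ≠ y → 0 < d x y) (_ : ∀ x y, d x y = d y x)
      (_ : ∀ x y z, d x z ≤ d x y + d y z),
      ∃ (t : I → X → ℝ), (∀ k x, 0 < t k x) ∧
        (∀ k x y, |f x k - f y k| ^ P ≤ (t k x + t k y) * d x y ^ P) ∧
        ∀ x, ∑ k, t k x ≤ C * (1 + Real.log (Fintype.card X)) ^ sensR P := by
  classical
  obtain ⟨CS, hCS1, hCS⟩ := sep_kernel P hP
  have hP1 : 1 ≤ P := hP.le
  have hP0 : 0 < P := by linarith
  set r0 := sepR P with hr0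
  have hr0n : 0 ≤ r0 := sepR_nonneg P hP
  set C1 : ℝ := max (32 ^ P) (2 ^ P * CS) with hC1
  have hC1a : (32:ℝ) ^ P ≤ C1 := le_max_left _ _
  have hC1b : 2 ^ P * CS ≤ C1 := le_max_right _ _
  have hC10 : 0 < C1 := lt_of_lt_of_le (by positivity) hC1a
  set C2 : ℝ := 2 * 13 ^ (P - 1) + 3 * (4 * P) ^ P with hC2
  have hC20 : 0 < C2 := by positivity
  refine ⟨1 + C1 * (C2 + CS), by nlinarith [mul_pos hC10 (show 0 < C2 + CS by linarith)], ?_⟩
  intro X I _ _ _ f d hd hd0 hdpos hds hdt
  have hdn : ∀ x y, 0 ≤ d x y := by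
    intro x y
    by_cases h : x = y
    · rw [h, hd0]
    · exact (hdpos x y h).le
  obtain ⟨b, J, hb, hb1, hJ⟩ := scale_exists d hdpos
  have hL1 := card_log_ge (X := X)
  set Lg := 1 + Real.log (Fintype.card X) with hLg
  have hL0 : 0 < Lg := by linarith
  set β : ℕ → ℝ := fun j => b / 2 ^ j with hβ
  have hβ0 : ∀ j, 0 < β j := fun j => by simp only [hβ]; positivity
  have hβP : ∀ j, 0 < β j ^ P := fun j => Real.rpow_pos_of_pos (hβ0 j) _
  choose S hS0 hS1 hS2 hS3 using fun j => hCS f d hd hd0 hdn hds hdt (β j) (hβ0 j)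
  set K := Lg ^ (r0 / P) with hK
  have hK1 : 1 ≤ K := Real.one_le_rpow hL1 (div_nonneg hr0n hP0.le)
  have hK0 : 0 < K := by linarith
  set Λ : ℕ → X → ℝ := fun j x => Lam (d x) (β j) with hΛ
  have hΛ0 : ∀ j x, 0 ≤ Λ j x := fun j x => Lam_nonneg (d x) (hdn x) (β j) (hβ0 j).le
  set g : I → ℕ → X → ℝ := fun k j x =>
    ∑ z, gp d (β j) x z * (β j ^ P * |f z k - f x k| ^ P) with hg
  set h : I → ℕ → X → ℝ := fun k j x =>
    ∑ z, S j x z * (β j ^ P * |f x k - f z k| ^ P) with hh
  have hg0 : ∀ k j x, 0 ≤ g k j x := fun k j x =>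
    Finset.sum_nonneg fun z _ => mul_nonneg (gp_pos d _ x z).le
      (mul_nonneg (hβP j).le (Real.rpow_nonneg (abs_nonneg _) _))
  have hh0 : ∀ k j x, 0 ≤ h k j x := fun k j x =>
    Finset.sum_nonneg fun z _ => mul_nonneg (hS0 j x z)
      (mul_nonneg (hβP j).le (Real.rpow_nonneg (abs_nonneg _) _))
  set G : I → ℕ → X → ℝ := fun k j x =>
    (if Λ j x ≤ K + 2 then g k j x else 0) + (if K < Λ j x then h k j x else 0) with hG
  have hG0 : ∀ k j x, 0 ≤ G k j x := by
    intro k j x
    simp only [hG]
    apply add_nonneg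
    · split_ifs
      · exact hg0 k j x
      · exact le_rfl
    · split_ifs
      · exact hh0 k j x
      · exact le_rfl
  have hI0 : (0:ℝ) < Fintype.card I + 1 := by positivity
  have hmax0 : ∀ k x, 0 ≤ C1 * ∑ j ∈ Finset.range (J + 1), G k j x := fun k x =>
    mul_nonneg hC10.le (Finset.sum_nonneg fun j _ => hG0 k j x)
  refine ⟨fun k x => 1 / (Fintype.card I + 1) + C1 * ∑ j ∈ Finset.range (J + 1), G k j x,
    fun k x => ?_, fun k x y => ?_, fun x => ?_⟩
  · have := hmax0 k x
    positivity
  · by_cases hxy : x = y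
    · subst hxy
      rw [sub_self, abs_zero, Real.zero_rpow hP0.ne']
      apply mul_nonneg _ (Real.rpow_nonneg (hdn x x) _)
      have := hmax0 k x
      positivity
    obtain ⟨j, hj, hj1, hj2⟩ := dyadic_scale J (b * d x y) (hb1 x y hxy) (hJ x y)
    have e1 : b * d x y / 2 ^ j = β j * d x y := by simp only [hβ]; ring
    rw [e1] at hj1 hj2
    have hdP : 0 ≤ d x y ^ P := Real.rpow_nonneg (hdn x y) _
    -- the key estimate for this scale
    have hkey : |f x k - f y k| ^ P ≤ C1 * (G k j x + G k j y) * d x y ^ P := by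
      by_cases hcase : Λ j x ≤ K + 2 ∧ Λ j y ≤ K + 2
      · have h1 := osc_pair d hdn hds hdt (β j) (hβ0 j).le x y hj2 hj1 P hP1 (fun z => f z k)
        rw [Real.mul_rpow (hβ0 j).le (hdn x y)] at h1
        have h2 : β j ^ P * (∑ z, gp d (β j) x z * |f z k - f x k| ^ P +
            ∑ z, gp d (β j) y z * |f z k - f y k| ^ P) = g k j x + g k j y := by
          simp only [hg]
          rw [mul_add, Finset.mul_sum, Finset.mul_sum]
          congr 1 <;> exact Finset.sum_congr rfl fun z _ => by ring
        have h3 : g k j x ≤ G k j x := by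
          simp only [hG, hcase.1, if_true]
          have : 0 ≤ (if K < Λ j x then h k j x else 0) := by
            split_ifs
            · exact hh0 k j x
            · exact le_rfl
          linarith
        have h4 : g k j y ≤ G k j y := by
          simp only [hG, hcase.2, if_true]
          have : 0 ≤ (if K < Λ j y then h k j y else 0) := by
            split_ifs
            · exact hh0 k j y
            · exact le_rfl
          linarith
        calc |f x k - f y k| ^ P ≤ _ := h1
          _ = 32 ^ P * (β j ^ P * (∑ z, gp d (β j) x z * |f z k - f x k| ^ P +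
              ∑ z, gp d (β j) y z * |f z k - f y k| ^ P)) * d x y ^ P := by ring
          _ = 32 ^ P * (g k j x + g k j y) * d x y ^ P := by rw [h2]
          _ ≤ C1 * (G k j x + G k j y) * d x y ^ P := by
              apply mul_le_mul_of_nonneg_right _ hdP
              apply mul_le_mul hC1a (by linarith) (add_nonneg (hg0 k j x) (hg0 k j y)) hC10.le
      · have hc1 := Lam_close d hds hdt (β j) (hβ0 j).le x y hj2
        have hc2 := Lam_close d hds hdt (β j) (hβ0 j).le y x (by rw [hds y x]; exact hj2)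
        have hKx : K < Λ j x ∧ K < Λ j y := by
          simp only [hΛ] at hcase ⊢
          by_cases h5 : Lam (d x) (β j) ≤ K + 2
          · have h6 : K + 2 < Lam (d y) (β j) := by
              by_contra h7
              push Not at h7
              exact hcase ⟨h5, h7⟩
            constructor <;> linarith
          · push Not at h5
            constructor <;> linarith
        have h1 := hS3 j x y hj2 (fun z => f z k)
        have h3 : h k j x ≤ G k j x := by
          simp only [hG, hKx.1, if_true]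
          have : 0 ≤ (if Λ j x ≤ K + 2 then g k j x else 0) := by
            split_ifs
            · exact hg0 k j x
            · exact le_rfl
          linarith
        have h4 : h k j y ≤ G k j y := by
          simp only [hG, hKx.2, if_true]
          have : 0 ≤ (if Λ j y ≤ K + 2 then g k j y else 0) := by
            split_ifs
            · exact hg0 k j y
            · exact le_rfl
          linarith
        set s1 := ∑ z, S j x z * |f x k - f z k| ^ P with hs1
        set s2 := ∑ z, S j y z * |f y k - f z k| ^ P with hs2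
        have hs1n : 0 ≤ s1 := Finset.sum_nonneg fun z _ =>
          mul_nonneg (hS0 _ _ _) (Real.rpow_nonneg (abs_nonneg _) _)
        have hs2n : 0 ≤ s2 := Finset.sum_nonneg fun z _ =>
          mul_nonneg (hS0 _ _ _) (Real.rpow_nonneg (abs_nonneg _) _)
        have h2 : β j ^ P * (s1 + s2) = h k j x + h k j y := by
          simp only [hh, hs1, hs2]
          rw [mul_add, Finset.mul_sum, Finset.mul_sum]
          congr 1 <;> exact Finset.sum_congr rfl fun z _ => by ring
        have h5 : 1 ≤ 2 ^ P * (β j ^ P * d x y ^ P) := by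
          rw [← Real.mul_rpow (hβ0 j).le (hdn x y), ← Real.mul_rpow (by norm_num)
            (mul_nonneg (hβ0 j).le (hdn x y))]
          exact Real.one_le_rpow (by linarith) hP0.le
        calc |f x k - f y k| ^ P ≤ CS * (s1 + s2) := h1
          _ ≤ CS * (s1 + s2) * (2 ^ P * (β j ^ P * d x y ^ P)) :=
              le_mul_of_one_le_right (mul_nonneg (by linarith) (by linarith)) h5
          _ = (2 ^ P * CS) * (β j ^ P * (s1 + s2)) * d x y ^ P := by ring
          _ = (2 ^ P * CS) * (h k j x + h k j y) * d x y ^ P := by rw [h2]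
          _ ≤ C1 * (G k j x + G k j y) * d x y ^ P := by
              apply mul_le_mul_of_nonneg_right _ hdP
              apply mul_le_mul hC1b (by linarith) (add_nonneg (hh0 k j x) (hh0 k j y)) hC10.le
    have h6 : ∀ x, G k j x ≤ ∑ j ∈ Finset.range (J + 1), G k j x := fun x =>
      Finset.single_le_sum (f := fun j => G k j x) (fun j _ => hG0 k j x) hj
    refine hkey.trans (mul_le_mul_of_nonneg_right ?_ hdP)
    have h7 := mul_le_mul_of_nonneg_left (add_le_add (h6 x) (h6 y)) hC10.le
    have h8 : (0:ℝ) < 1 / (Fintype.card I + 1) := by positivity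
    rw [mul_add C1 (∑ j ∈ Finset.range (J + 1), G k j x)] at h7
    linarith
  · -- the sum
    set e := r0 * ((P - 1) / P) with he
    have he0 : 0 ≤ e := mul_nonneg hr0n (div_nonneg (by linarith) hP0.le)
    have hLe : 0 < Lg ^ e := Real.rpow_pos_of_pos hL0 _
    have hKP : K ^ (P - 1) = Lg ^ e := by
      rw [hK, ← Real.rpow_mul hL0.le, he]
      congr 1
      field_simp
    have hLK : Lg ^ r0 / K = Lg ^ e := by
      rw [hK, ← Real.rpow_sub hL0, he]
      congr 1
      field_simp
    have hgs : ∀ j, ∑ k, g k j x = ∑ z, gp d (β j) x z * (β j * d x z) ^ P := by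
      intro j
      simp only [hg]
      rw [Finset.sum_comm]
      refine Finset.sum_congr rfl fun z _ => ?_
      rw [← Finset.mul_sum, ← Finset.mul_sum]
      congr 1
      rw [Real.mul_rpow (hβ0 j).le (hdn x z), hds x z, hd z x]
    have hhs : ∀ j, ∑ k, h k j x = ∑ z, S j x z * (β j * d x z) ^ P := by
      intro j
      simp only [hh]
      rw [Finset.sum_comm]
      refine Finset.sum_congr rfl fun z _ => ?_
      rw [← Finset.mul_sum, ← Finset.mul_sum]
      congr 1
      rw [Real.mul_rpow (hβ0 j).le (hdn x z), hd x z]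
    have hGs : ∀ j, ∑ k, G k j x ≤ (C2 + CS) * Lg ^ e * Λ j x := by
      intro j
      have hΛj := hΛ0 j x
      simp only [hG]
      rw [Finset.sum_add_distrib]
      have h1 : ∑ k, (if Λ j x ≤ K + 2 then g k j x else 0) ≤ C2 * Lg ^ e * Λ j x := by
        by_cases hc : Λ j x ≤ K + 2
        · simp only [hc, if_true]
          rw [hgs]
          have h2 := gibbs_pow P hP1 (d x) (hdn x) (β j) (hβ0 j).le
          refine le_trans h2 ?_
          change (4 * Λ j x + 1) ^ (P - 1) * (2 * Λ j x) + 3 * (4 * P) ^ P * Λ j x ≤ _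
          have h3 : (4 * Λ j x + 1) ^ (P - 1) ≤ 13 ^ (P - 1) * Lg ^ e := by
            rw [← hKP, ← Real.mul_rpow (by norm_num) hK0.le]
            apply Real.rpow_le_rpow (by linarith) (by linarith) (by linarith)
          have h4 : (1:ℝ) ≤ Lg ^ e := Real.one_le_rpow hL1 he0
          have h5 : 3 * (4 * P) ^ P ≤ 3 * (4 * P) ^ P * Lg ^ e :=
            le_mul_of_one_le_right (by positivity) h4
          have h6 := mul_le_mul_of_nonneg_right h3 (show 0 ≤ 2 * Λ j x by linarith)
          have h7 := mul_le_mul_of_nonneg_right h5 hΛj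
          calc _ ≤ 13 ^ (P - 1) * Lg ^ e * (2 * Λ j x) + 3 * (4 * P) ^ P * Lg ^ e * Λ j x :=
                add_le_add h6 h7
            _ = _ := by rw [hC2]; ring
        · simp only [hc, if_false, Finset.sum_const_zero]
          positivity
      have h2 : ∑ k, (if K < Λ j x then h k j x else 0) ≤ CS * Lg ^ e * Λ j x := by
        by_cases hc : K < Λ j x
        · simp only [hc, if_true]
          rw [hhs]
          refine (hS2 j x).trans ?_
          have h3 : 1 ≤ Λ j x / K := by rw [one_le_div hK0]; exact hc.le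
          have h4 : 0 < Lg ^ r0 := Real.rpow_pos_of_pos hL0 _
          calc CS * Lg ^ r0 ≤ CS * Lg ^ r0 * (Λ j x / K) :=
                le_mul_of_one_le_right (by positivity) h3
            _ = CS * (Lg ^ r0 / K) * Λ j x := by ring
            _ = _ := by rw [hLK]
        · simp only [hc, if_false, Finset.sum_const_zero]
          have : 0 ≤ CS := by linarith
          positivity
      calc _ ≤ C2 * Lg ^ e * Λ j x + CS * Lg ^ e * Λ j x := add_le_add h1 h2
        _ = _ := by ring
    have hΛs : ∑ j ∈ Finset.range (J + 1), Λ j x ≤ Lg := by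
      have := Lam_sum (d x) (hdn x) ⟨x, hd0 x⟩ b hb (J + 1)
      simp only [hΛ, hβ]
      linarith
    rw [Finset.sum_add_distrib, ← Finset.mul_sum, Finset.sum_comm]
    have h1 : ∑ _k : I, (1:ℝ) / (Fintype.card I + 1) ≤ 1 := by
      rw [Finset.sum_const, Finset.card_univ, nsmul_eq_mul, mul_one_div, div_le_one hI0]
      linarith
    have h2 : ∑ j ∈ Finset.range (J + 1), ∑ k, G k j x ≤ (C2 + CS) * Lg ^ e * Lg := by
      refine (Finset.sum_le_sum fun j _ => hGs j).trans ?_
      rw [← Finset.mul_sum]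
      apply mul_le_mul_of_nonneg_left hΛs
      have : 0 ≤ CS := by linarith
      positivity
    have h3 : Lg ^ e * Lg = Lg ^ sensR P := by
      rw [← Real.rpow_add_one hL0.ne', sensR, he]
      congr 1
      ring
    have h4 : 1 ≤ Lg ^ sensR P := Real.one_le_rpow hL1 (by have := sensR_ge P hP; linarith)
    have h5 := mul_le_mul_of_nonneg_left h2 hC10.le
    rw [mul_assoc (C2 + CS), h3] at h5
    calc _ ≤ 1 + C1 * ((C2 + CS) * Lg ^ sensR P) := add_le_add h1 h5
      _ ≤ Lg ^ sensR P + C1 * ((C2 + CS) * Lg ^ sensR P) := by linarith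
      _ = _ := by ring

end Vale.Agent.P249
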