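import Mathlib
import Vale.Agent.P249.T3.SensPt
import Vale.Agent.P249.T3.Asm2
import Vale.Agent.P249.T3.Num

open scoped BigOperators

namespace Vale.Agent.P249

/-- choice of the window parameters -/
theorem t3_window (P γ CF CS η Lg : ℝ) (hP : 1 < P) (hγ : 0 < γ) (hCF : 0 < CF) (hCS : 1 ≤ CS)
    (hη : 0 < η) (hη1 : η ≤ 1 / 20) (hLg : 1 ≤ Lg) (K1 : ℝ) (hK1a : 1 / η ≤ K1)
    (hK1b : (2 * CF * CS / η ^ P) ^ (1 / P) ≤ K1) :
    ∃ V w : ℕ, 1 ≤ w ∧ w ≤ V ∧ (V : ℝ) ≤ (K1 + 1) * Lg ^ γ ∧ (w : ℝ) / V ≤ 2 * η ∧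
      CF * ((w : ℝ) ^ (1 - P) / V) * (2 * (CS * Lg ^ (γ * P))) ≤ η := by
  have hP0 : 0 < P := by linarith
  have hL0 : 0 < Lg := by linarith
  have hLγ : 1 ≤ Lg ^ γ := Real.one_le_rpow hLg hγ.le
  have hinvη : 20 ≤ 1 / η := by rw [le_div_iff₀ hη]; linarith
  set V : ℕ := ⌈K1 * Lg ^ γ⌉₊ with hVd
  have hV1 : K1 * Lg ^ γ ≤ V := Nat.le_ceil _
  have hK1V : K1 ≤ V := le_trans (le_mul_of_one_le_right (by linarith) hLγ) hV1
  have hK10 : 0 ≤ K1 * Lg ^ γ := mul_nonneg (by linarith) (by linarith)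
  have hV2 : (V : ℝ) ≤ (K1 + 1) * Lg ^ γ := by
    have := (Nat.ceil_lt_add_one hK10).le
    linarith
  have hV20 : (20:ℝ) ≤ V := by linarith
  have hV0 : (0:ℝ) < V := by linarith
  have hVη : 1 ≤ η * V := by
    have : 1 / η ≤ V := hK1a.trans hK1V
    rw [div_le_iff₀ hη] at this
    linarith
  set w : ℕ := ⌈η * V⌉₊ with hwd
  have hw1 : η * V ≤ w := Nat.le_ceil _
  have hw2 : (w : ℝ) ≤ 2 * η * V := by
    have := (Nat.ceil_lt_add_one (a := η * V) (by positivity)).le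
    linarith
  refine ⟨V, w, ?_, ?_, hV2, ?_, ?_⟩
  · have : (1:ℝ) ≤ w := by linarith
    exact_mod_cast this
  · have : (w:ℝ) ≤ V := by nlinarith
    exact_mod_cast this
  · rw [div_le_iff₀ hV0]; exact hw2
  · set A := CS * Lg ^ (γ * P) with hAd
    have h1 : (w : ℝ) ^ (1 - P) ≤ (η * V) ^ (1 - P) :=
      Real.rpow_le_rpow_of_nonpos (by positivity) hw1 (by linarith)
    have hA0 : 0 < A := by positivity
    have h2 : 2 * CF * A / η ^ P ≤ (V : ℝ) ^ P := by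
      have h3 : ((2 * CF * CS / η ^ P) ^ (1 / P) * Lg ^ γ) ^ P ≤ (V : ℝ) ^ P := by
        apply Real.rpow_le_rpow (by positivity) _ hP0.le
        refine le_trans ?_ hV1
        exact mul_le_mul_of_nonneg_right hK1b (by positivity)
      rw [Real.mul_rpow (by positivity) (by positivity), ← Real.rpow_mul (by positivity),
        one_div_mul_cancel hP0.ne', Real.rpow_one, ← Real.rpow_mul hL0.le] at h3
      calc 2 * CF * A / η ^ P = 2 * CF * CS / η ^ P * Lg ^ (γ * P) := by rw [hAd]; ring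
        _ ≤ _ := h3
    have hηP : 0 < η ^ P := by positivity
    have hVP : 0 < (V : ℝ) ^ P := by positivity
    rw [div_le_iff₀ hηP] at h2
    calc CF * ((w : ℝ) ^ (1 - P) / V) * (2 * A) ≤ CF * ((η * V) ^ (1 - P) / V) * (2 * A) := by
          gcongr
      _ = 2 * CF * A * η / (η ^ P * V ^ P) := by
          rw [Real.mul_rpow hη.le hV0.le, Real.rpow_sub hη, Real.rpow_sub hV0, Real.rpow_one,
            Real.rpow_one]
          field_simp
      _ ≤ η := by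
          rw [div_le_iff₀ (by positivity)]
          have := mul_le_mul_of_nonneg_right h2 hη.le
          linarith

/-- final numerical inequalities for one pair -/
theorem t3_final_num (η μ s CGμ e1 e2 e3 D SD E : ℝ) (hη : 0 < η) (hη1 : η ≤ 1 / 20) (hμ : 0 < μ)
    (hμη : μ ≤ η) (hCG : CGμ ≤ η) (hD : 0 ≤ D) (hSD : 0 ≤ SD) (he1 : e1 ≤ η) (hs : s ≤ 2 * η)
    (he2 : e2 ≤ η * D) (h1 : SD ≤ (1 + η + e1) * D) (h2 : (1 - s) * D ≤ (1 + η) * SD + e1 * D)
    (h3 : E ≤ (1 + η) * Real.exp CGμ * SD) (h4 : (1 - 2 * μ) * SD ≤ E + e2) :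
    (1 - 20 * η) * D ≤ E ∧ E ≤ (1 + 20 * η) * D := by
  constructor
  · have h5 : (1 - 2 * η) * D ≤ (1 - s) * D := mul_le_mul_of_nonneg_right (by linarith) hD
    have h5' : e1 * D ≤ η * D := mul_le_mul_of_nonneg_right he1 hD
    have h6 : (1 - 2 * η) * SD ≤ (1 - 2 * μ) * SD := mul_le_mul_of_nonneg_right (by linarith) hSD
    have h7 : (1 - 3 * η) * (1 - η) * D ≤ SD := by
      have h8 : (1 - η) * ((1 - 3 * η) * D) ≤ (1 - η) * ((1 + η) * SD) :=
        mul_le_mul_of_nonneg_left (by linarith) (by linarith)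
      have h9 : (1 - η) * ((1 + η) * SD) ≤ SD := by nlinarith [mul_nonneg (sq_nonneg η) hSD]
      linarith
    have h8 : (1 - 2 * η) * ((1 - 3 * η) * (1 - η) * D) ≤ (1 - 2 * η) * SD :=
      mul_le_mul_of_nonneg_left h7 (by linarith)
    have h9 : (1 - 20 * η) * D + η * D ≤ (1 - 2 * η) * ((1 - 3 * η) * (1 - η) * D) := by
      have h11 : 1 - 20 * η + η ≤ (1 - 2 * η) * ((1 - 3 * η) * (1 - η)) := by
        nlinarith [hη, hη1, mul_pos hη hη]
      have := mul_le_mul_of_nonneg_right h11 hD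
      linarith
    linarith
  · have h5 : Real.exp CGμ ≤ 1 + 2 * η := by
      have h3 : Real.exp CGμ ≤ Real.exp η := Real.exp_le_exp.2 hCG
      have h4 := Real.abs_exp_sub_one_sub_id_le (show |η| ≤ 1 by rw [abs_of_pos hη]; linarith)
      have h5 := (abs_le.1 h4).2
      nlinarith
    have h6 : SD ≤ (1 + 2 * η) * D := by
      have : (1 + η + e1) * D ≤ (1 + 2 * η) * D := mul_le_mul_of_nonneg_right (by linarith) hD
      linarith
    calc E ≤ (1 + η) * Real.exp CGμ * SD := h3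
      _ ≤ (1 + η) * (1 + 2 * η) * ((1 + 2 * η) * D) := by
          apply mul_le_mul _ h6 hSD (by positivity)
          exact mul_le_mul_of_nonneg_left h5 (by linarith)
      _ ≤ (1 + 20 * η) * D := by
          rw [← mul_assoc]
          apply mul_le_mul_of_nonneg_right _ hD
          nlinarith [mul_pos hη hη, mul_pos hη (mul_pos hη hη)]

/-- module J2: the family of functions. -/
theorem assemble (P : ℝ) (hP : 1 < P) (δ : ℝ) (hδ : 0 < δ) (hδ1 : δ < 1) : ∃ C : ℝ, 1 ≤ C ∧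
    ∀ {X I : Type} [Fintype X] [Nonempty X] [Fintype I] (f : X → I → ℝ) (d : X → X → ℝ)
      (_ : ∀ x y, d x y ^ P = ∑ k, |f x k - f y k| ^ P) (_ : ∀ x, d x x = 0)
      (_ : ∀ x y, x ≠ y → 0 < d x y) (_ : ∀ x y, d x y = d y x)
      (_ : ∀ x y z, d x z ≤ d x y + d y z),
      ∃ (Ω : Type) (_ : Fintype Ω) (w : Ω → ℝ) (Ψ : Ω → X → ℝ) (B : ℝ),
        (∀ ω, 0 ≤ w ω) ∧ ∑ ω, w ω = 1 ∧ 0 < B ∧
        B ≤ Real.exp (C * (1 + Real.log (Fintype.card X)) ^ (sensR P / P)) ∧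
        (∀ ω x y, |Ψ ω x - Ψ ω y| ≤ B * d x y) ∧
        (∀ x y, (1 - δ) * d x y ^ P ≤ ∑ ω, w ω * |Ψ ω x - Ψ ω y| ^ P) ∧
        (∀ x y, ∑ ω, w ω * |Ψ ω x - Ψ ω y| ^ P ≤ (1 + δ) * d x y ^ P) := by
  classical
  have hP0 : 0 < P := by linarith
  have hP1 : 1 ≤ P := hP.le
  set η : ℝ := δ / 20 with hηd
  have hη : 0 < η := by positivity
  have hη1 : η ≤ 1 / 20 := by rw [hηd]; linarith
  have hδη : δ = 20 * η := by rw [hηd]; ring
  obtain ⟨CF, CG, hCF, hCG, hcore⟩ := asm_core P hP1 η hη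
  obtain ⟨CS, hCS, hS⟩ := sens_pt P hP
  set γ := sensR P / P with hγd
  have hsR := sensR_ge P hP
  have hsR2 := sensR_lt P hP
  have hγ : 0 < γ := div_pos (by linarith) hP0
  have hγ1 : γ < 1 := by rw [hγd, div_lt_one hP0]; exact hsR2
  have hγP : γ * P = sensR P := by rw [hγd]; field_simp
  set μ := min η (η / CG) with hμd
  have hμ : 0 < μ := lt_min hη (by positivity)
  have hμη : μ ≤ η := min_le_left _ _
  have hμ1 : μ ≤ 1 := by linarith
  have hCGμ : CG * μ ≤ η := by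
    have : μ ≤ η / CG := min_le_right _ _
    rw [le_div_iff₀ hCG] at this
    linarith
  set K1 : ℝ := max (1 / η) ((2 * CF * CS / η ^ P) ^ (1 / P)) with hK1d
  have hinvη : 20 ≤ 1 / η := by rw [le_div_iff₀ hη]; linarith
  have hK1a : 1 / η ≤ K1 := le_max_left _ _
  obtain ⟨K2, C, hK2, hC, hnum⟩ := t3_num P γ CS (K1 + 1) μ CG η hP hγ hγ1 hCS (by linarith)
    hμ hμ1 hCG hη
  refine ⟨C, hC, ?_⟩
  intro X I _ _ _ f d hd hd0 hdpos hds hdt
  obtain ⟨t, ht0, ht1, ht2⟩ := hS f d hd hd0 hdpos hds hdt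
  have hdn : ∀ x y, 0 ≤ d x y := by
    intro x y
    by_cases h : x = y
    · rw [h, hd0]
    · exact (hdpos x y h).le
  have hn1 : (1:ℝ) ≤ Fintype.card X := by exact_mod_cast Fintype.card_pos
  have hL1 := card_log_ge (X := X)
  obtain ⟨V, w, hw1, hwV, hV, hwV2, herr⟩ := t3_window P γ CF CS η
    (1 + Real.log (Fintype.card X)) hP hγ hCF hCS hη hη1 hL1 K1 hK1a (le_max_right _ _)
  obtain ⟨hnum1, hnum2⟩ := hnum (Fintype.card X) hn1 V w hwV hV
  have hL0 : 0 < 1 + Real.log (Fintype.card X) := by linarith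
  have hA0 : 0 < CS * (1 + Real.log (Fintype.card X)) ^ (γ * P) := by positivity
  obtain ⟨Ω, hΩ, wt, Ψ, SD, g0, g1, g2, g3, g4, g5, g6, g7⟩ := hcore f d hd hd0 hdn hds hdt t ht0
    ht1 (CS * (1 + Real.log (Fintype.card X)) ^ (γ * P)) hA0 (by rw [hγP]; exact ht2) V w hw1 hwV
    μ hμ hμ1 (K2 * (1 + Real.log (Fintype.card X))) (by positivity) _ rfl
  have hfin : ∀ x y, (1 - 20 * η) * d x y ^ P ≤ ∑ ω, wt ω * |Ψ ω x - Ψ ω y| ^ P ∧
      ∑ ω, wt ω * |Ψ ω x - Ψ ω y| ^ P ≤ (1 + 20 * η) * d x y ^ P := by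
    intro x y
    have hdP : 0 ≤ d x y ^ P := Real.rpow_nonneg (hdn x y) _
    refine t3_final_num η μ ((w : ℝ) / V) (CG * μ) _ _ 0 (d x y ^ P) (SD x y) _ hη hη1 hμ hμη
      hCGμ hdP (g2 x y) herr hwV2 ?_ (g3 x y) (g4 x y) (g6 x y) (g7 x y)
    rw [Real.mul_rpow (by positivity) (hdn x y), ← mul_assoc]
    exact mul_le_mul_of_nonneg_right hnum1 hdP
  exact ⟨Ω, hΩ, wt, Ψ, _, g0, g1, by positivity, hnum2, g5,
    fun x y => by rw [hδη]; exact (hfin x y).1, fun x y => by rw [hδη]; exact (hfin x y).2⟩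

end Vale.Agent.P249
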