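import Mathlib
import Vale.Agent.P249.Up.Main
import Vale.Agent.P249.Up.SampleMul
import Vale.Agent.P249.StageA

open scoped BigOperators ENNReal

namespace Vale.Agent.P249

/-- module H (SampEmb.lean). -/
theorem samp_embed (p : ℝ≥0∞) [Fact (1 ≤ p)] (hp : p ≠ ∞) {X Ω : Type} [Fintype X]
    [Nonempty X] [Fintype Ω] (w : Ω → ℝ) (hw0 : ∀ ω, 0 ≤ w ω) (hw1 : ∑ ω, w ω = 1)
    (Ψ : Ω → X → ℝ) (d : X → X → ℝ) (hd : ∀ x, d x x = 0) (hdp : ∀ x y, x ≠ y → 0 < d x y)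
    (B : ℝ) (hB : 0 < B) (hΨ : ∀ ω x y, |Ψ ω x - Ψ ω y| ≤ B * d x y)
    (c1 c2 : ℝ) (hc1 : 0 < c1)
    (hlow : ∀ x y, c1 * d x y ^ p.toReal ≤ ∑ ω, w ω * |Ψ ω x - Ψ ω y| ^ p.toReal)
    (hup : ∀ x y, ∑ ω, w ω * |Ψ ω x - Ψ ω y| ^ p.toReal ≤ c2 * d x y ^ p.toReal)
    (δ : ℝ) (hδ : 0 < δ) (hδ1 : δ ≤ 1) (N : ℕ) (hN0 : 0 < N)
    (hN : 2 * (Fintype.card X : ℝ) ^ 2 < Real.exp (δ ^ 2 * c1 * N / (4 * B ^ p.toReal))) :
    ∃ F : X → PiLp p (fun _ : Fin N => ℝ), ∀ x y,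
      (1 - δ) * c1 * d x y ^ p.toReal ≤ ‖F x - F y‖ ^ p.toReal ∧
      ‖F x - F y‖ ^ p.toReal ≤ (1 + δ) * c2 * d x y ^ p.toReal := by
  classical
  have hP : 1 ≤ p.toReal := one_le_toReal hp
  set P := p.toReal with hPd
  have hP0 : 0 < P := by linarith
  have hNR : (0:ℝ) < N := Nat.cast_pos.2 hN0
  have hBP : 0 < B ^ P := Real.rpow_pos_of_pos hB _
  let Q := {q : X × X // q.1 ≠ q.2}
  let E : X → X → ℝ := fun x y => ∑ ω, w ω * |Ψ ω x - Ψ ω y| ^ P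
  have hdq : ∀ q : Q, 0 < d q.1.1 q.1.2 := fun q => hdp _ _ q.2
  have hdP : ∀ q : Q, 0 < d q.1.1 q.1.2 ^ P := fun q => Real.rpow_pos_of_pos (hdq q) _
  have hE : ∀ q : Q, 0 < E q.1.1 q.1.2 := fun q =>
    (mul_pos hc1 (hdP q)).trans_le (hlow q.1.1 q.1.2)
  -- normalised variables with common mean `c1 / B ^ P`
  let Y : Q → Ω → ℝ := fun q ω => c1 / B ^ P * (|Ψ ω q.1.1 - Ψ ω q.1.2| ^ P / E q.1.1 q.1.2)
  have hY0 : ∀ q ω, 0 ≤ Y q ω := fun q ω =>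
    mul_nonneg (by positivity) (div_nonneg (by positivity) (hE q).le)
  have hY1 : ∀ q ω, Y q ω ≤ 1 := by
    intro q ω
    simp only [Y]
    rw [div_mul_div_comm]
    refine div_le_one_of_le₀ ?_ (mul_nonneg hBP.le (hE q).le)
    have h1 : |Ψ ω q.1.1 - Ψ ω q.1.2| ^ P ≤ B ^ P * d q.1.1 q.1.2 ^ P := by
      rw [← Real.mul_rpow hB.le (hdq q).le]
      exact Real.rpow_le_rpow (abs_nonneg _) (hΨ _ _ _) hP0.le
    have h2 := hlow q.1.1 q.1.2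
    calc c1 * |Ψ ω q.1.1 - Ψ ω q.1.2| ^ P ≤ c1 * (B ^ P * d q.1.1 q.1.2 ^ P) :=
          mul_le_mul_of_nonneg_left h1 hc1.le
      _ = B ^ P * (c1 * d q.1.1 q.1.2 ^ P) := by ring
      _ ≤ B ^ P * E q.1.1 q.1.2 := mul_le_mul_of_nonneg_left h2 hBP.le
  have hm : ∀ q, ∑ ω, w ω * Y q ω = c1 / B ^ P := by
    intro q
    have h1 : ∀ ω ∈ Finset.univ, w ω * Y q ω =
        c1 / B ^ P / E q.1.1 q.1.2 * (w ω * |Ψ ω q.1.1 - Ψ ω q.1.2| ^ P) := by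
      intro ω _
      simp only [Y]
      ring
    rw [Finset.sum_congr rfl h1, ← Finset.mul_sum]
    exact div_mul_cancel₀ _ (hE q).ne'
  have hcard : (Fintype.card Q : ℝ) ≤ (Fintype.card X : ℝ) ^ 2 := by
    have h1 : Fintype.card Q ≤ Fintype.card (X × X) := Fintype.card_subtype_le _
    rw [Fintype.card_prod] at h1
    have h2 : (Fintype.card Q : ℝ) ≤ ((Fintype.card X * Fintype.card X : ℕ) : ℝ) := by
      exact_mod_cast h1
    rw [sq]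
    push_cast at h2
    exact h2
  obtain ⟨t, ht⟩ := sampling_mul w hw0 hw1 Y hY0 hY1 (c1 / B ^ P) (by positivity) hm δ hδ hδ1 N hN0
    (by
      calc 2 * (Fintype.card Q : ℝ) ≤ 2 * (Fintype.card X : ℝ) ^ 2 := by linarith
        _ < _ := hN
        _ ≤ _ := by
          apply Real.exp_le_exp.2
          have e : δ ^ 2 * (c1 / B ^ P) * N / 4 = δ ^ 2 * c1 * N / (4 * B ^ P) := by field_simp
          rw [e])
  let F : X → PiLp p (fun _ : Fin N => ℝ) := fun x =>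
    WithLp.toLp p (fun i => (1 / (N : ℝ)) ^ (1 / P) * Ψ (t i) x)
  have hF : ∀ x y, ‖F x - F y‖ ^ P = (∑ i, |Ψ (t i) x - Ψ (t i) y| ^ P) / N := by
    intro x y
    rw [pilp_rpow hp (F x - F y), Finset.sum_div]
    refine Finset.sum_congr rfl fun i _ => ?_
    have e1 : (F x - F y) i = (1 / (N : ℝ)) ^ (1 / P) * (Ψ (t i) x - Ψ (t i) y) := by
      simp only [F, PiLp.sub_apply]
      ring
    have h0 : 0 ≤ 1 / (N : ℝ) := by positivity
    rw [← hPd, e1, abs_mul, abs_of_nonneg (Real.rpow_nonneg h0 _),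
      Real.mul_rpow (Real.rpow_nonneg h0 _) (abs_nonneg _), ← Real.rpow_mul h0,
      one_div_mul_cancel hP0.ne', Real.rpow_one]
    ring
  refine ⟨F, fun x y => ?_⟩
  by_cases hxy : x = y
  · subst hxy
    rw [hd, sub_self, norm_zero, Real.zero_rpow hP0.ne']
    simp
  have h1 := ht ⟨(x, y), hxy⟩
  have hEq := hE ⟨(x, y), hxy⟩
  simp only at hEq
  have h2 : (∑ i, Y ⟨(x, y), hxy⟩ (t i)) / N = c1 / B ^ P * (‖F x - F y‖ ^ P / E x y) := by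
    rw [hF]
    simp only [Y]
    rw [← Finset.mul_sum, ← Finset.sum_div]
    ring
  rw [h2] at h1
  set R := ‖F x - F y‖ ^ P with hR
  have hm0 : 0 < c1 / B ^ P := by positivity
  have h3 : c1 / B ^ P * (R / E x y) - c1 / B ^ P = c1 / B ^ P * (R / E x y - 1) := by ring
  rw [h3, abs_mul, abs_of_pos hm0, mul_comm δ] at h1
  have h4 : |R / E x y - 1| ≤ δ := le_of_mul_le_mul_left h1 hm0
  rw [abs_le] at h4
  have h5 : (1 - δ) * E x y ≤ R := by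
    have : 1 - δ ≤ R / E x y := by linarith [h4.1]
    rwa [le_div_iff₀ hEq] at this
  have h6 : R ≤ (1 + δ) * E x y := by
    have : R / E x y ≤ 1 + δ := by linarith [h4.2]
    rwa [div_le_iff₀ hEq] at this
  have h7 := hlow x y
  have h8 := hup x y
  constructor
  · calc (1 - δ) * c1 * d x y ^ P = (1 - δ) * (c1 * d x y ^ P) := by ring
      _ ≤ (1 - δ) * E x y := mul_le_mul_of_nonneg_left h7 (by linarith)
      _ ≤ R := h5
  · calc R ≤ (1 + δ) * E x y := h6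
      _ ≤ (1 + δ) * (c2 * d x y ^ P) := mul_le_mul_of_nonneg_left h8 (by linarith)
      _ = (1 + δ) * c2 * d x y ^ P := by ring

end Vale.Agent.P249
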