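import Mathlib
import Vale.Agent.P249.T3.Assemble
import Vale.Agent.P249.T3.SampEmb
import Vale.Agent.P249.Defs
import Vale.Agent.P249.Up.Assembly

open MeasureTheory
open scoped ENNReal BigOperators

namespace Vale.Agent.P249

universe u

theorem t3_params (P δ C γ : ℝ) (hP : 1 ≤ P) (hδ : 0 < δ) (hδ1 : δ < 1) (hC : 1 ≤ C)
    (hγ : 0 < γ) :
    ∃ C' : ℝ, 0 < C' ∧ ∀ n : ℕ, 2 ≤ n → ∃ N : ℕ, 0 < N ∧
      (N : ℝ) ≤ Real.exp (C' * Real.log n ^ γ) ∧
      2 * (n : ℝ) ^ 2 < Real.exp (δ ^ 2 * (1 - δ) * N /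
        (4 * (Real.exp (C * (1 + Real.log n) ^ γ)) ^ P)) := by
  set K := 12 / (δ ^ 2 * (1 - δ)) with hK
  have h1δ : 0 < 1 - δ := by linarith
  have hK0 : 0 < K := by rw [hK]; positivity
  set a := C * P * 3 ^ γ with ha
  have ha0 : 0 < a := by rw [ha]; positivity
  set m := Real.log 2 ^ γ with hm
  have hlog2 : (0.69:ℝ) < Real.log 2 := by
    have := Real.log_two_gt_d9; linarith
  have hm0 : 0 < m := by rw [hm]; apply Real.rpow_pos_of_pos; linarith
  refine ⟨(2 + K) / m + 1 / γ + a, by positivity, fun n hn => ?_⟩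
  have hn2 : (2:ℝ) ≤ n := by exact_mod_cast hn
  have hn0 : (0:ℝ) < n := by linarith
  have hL2 : Real.log 2 ≤ Real.log n := Real.log_le_log (by norm_num) hn2
  set L := Real.log n with hL
  have hL0 : 0 < L := by linarith
  set B := (Real.exp (C * (1 + L) ^ γ)) ^ P with hB
  have hB0 : 0 < B := by positivity
  have hBle : B ≤ Real.exp (a * L ^ γ) := by
    rw [hB, ← Real.exp_mul]
    apply Real.exp_le_exp.2
    have h1 : (1 + L) ^ γ ≤ 3 ^ γ * L ^ γ := by
      rw [← Real.mul_rpow (by norm_num) hL0.le]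
      apply Real.rpow_le_rpow (by linarith) (by linarith) hγ.le
    calc C * (1 + L) ^ γ * P ≤ C * (3 ^ γ * L ^ γ) * P := by gcongr
      _ = a * L ^ γ := by rw [ha]; ring
  set T := L ^ γ with hT
  have hTm : m ≤ T := Real.rpow_le_rpow (by linarith) hL2 hγ.le
  have hT0 : 0 < T := by linarith
  have hLT : L ≤ Real.exp (1 / γ * T) := by
    have h1 : L = T ^ (1 / γ) := by
      rw [hT, ← Real.rpow_mul hL0.le, mul_one_div_cancel hγ.ne', Real.rpow_one]
    have h2 : T ≤ Real.exp T := by have := Real.add_one_le_exp T; linarith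
    calc L = T ^ (1 / γ) := h1
      _ ≤ (Real.exp T) ^ (1 / γ) := Real.rpow_le_rpow hT0.le h2 (by positivity)
      _ = Real.exp (1 / γ * T) := by rw [← Real.exp_mul]; congr 1; ring
  have hKe : K ≤ Real.exp K := by have := Real.add_one_le_exp K; linarith
  have hX : 4 * B / (δ ^ 2 * (1 - δ)) * (3 * L) = K * L * B := by rw [hK]; ring
  refine ⟨⌈4 * B / (δ ^ 2 * (1 - δ)) * (3 * L)⌉₊ + 1, by omega, ?_, ?_⟩
  · have h1 : ((⌈4 * B / (δ ^ 2 * (1 - δ)) * (3 * L)⌉₊ + 1 : ℕ) : ℝ) ≤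
        4 * B / (δ ^ 2 * (1 - δ)) * (3 * L) + 2 := by
      push_cast
      have := Nat.ceil_lt_add_one (a := 4 * B / (δ ^ 2 * (1 - δ)) * (3 * L)) (by positivity)
      linarith
    refine h1.trans ?_
    rw [hX]
    have h2 : K * L * B ≤ Real.exp (K + 1 / γ * T + a * T) := by
      rw [Real.exp_add, Real.exp_add]
      gcongr
    have h3 : (1:ℝ) ≤ Real.exp (K + 1 / γ * T + a * T) := Real.one_le_exp (by positivity)
    have h4 : (3:ℝ) ≤ Real.exp 2 := by have := Real.add_one_le_exp (2:ℝ); linarith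
    calc K * L * B + 2 ≤ 3 * Real.exp (K + 1 / γ * T + a * T) := by linarith
      _ ≤ Real.exp 2 * Real.exp (K + 1 / γ * T + a * T) := by gcongr
      _ = Real.exp (2 + (K + 1 / γ * T + a * T)) := (Real.exp_add _ _).symm
      _ ≤ _ := by
        apply Real.exp_le_exp.2
        have h5 : (2 + K) ≤ (2 + K) / m * T := by
          rw [div_mul_eq_mul_div, le_div_iff₀ hm0]
          gcongr
        linarith
  · have h1 : 4 * B / (δ ^ 2 * (1 - δ)) * (3 * L) <
        ((⌈4 * B / (δ ^ 2 * (1 - δ)) * (3 * L)⌉₊ + 1 : ℕ) : ℝ) := by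
      push_cast
      have := Nat.le_ceil (4 * B / (δ ^ 2 * (1 - δ)) * (3 * L))
      linarith
    have h2 : 3 * L < δ ^ 2 * (1 - δ) *
        ((⌈4 * B / (δ ^ 2 * (1 - δ)) * (3 * L)⌉₊ + 1 : ℕ) : ℝ) / (4 * B) := by
      rw [lt_div_iff₀ (by positivity)]
      have h3 := mul_lt_mul_of_pos_left h1 (show 0 < δ ^ 2 * (1 - δ) by positivity)
      have h4 : δ ^ 2 * (1 - δ) * (4 * B / (δ ^ 2 * (1 - δ)) * (3 * L)) = 3 * L * (4 * B) := by
        field_simp
      linarith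
    refine lt_of_le_of_lt ?_ (Real.exp_lt_exp.2 h2)
    have h5 : Real.exp (3 * L) = (n : ℝ) ^ 3 := by
      rw [show 3 * L = ((3 : ℕ) : ℝ) * L by norm_num, Real.exp_nat_mul, hL, Real.exp_log hn0]
    rw [h5]
    nlinarith [sq_nonneg (n : ℝ)]

/-- module J3 (from `assemble`, `samp_embed`, `discretize_delta`; template: `upper_bound` in
Up/Assembly.lean). -/
theorem t3_upper (p : ℝ≥0∞) [Fact (1 ≤ p)] (hp : p ≠ ∞) (hp1 : 1 < p.toReal) (D : ℝ)
    (hD : 1 < D) :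
    ∃ C : ℝ, 0 < C ∧ ∀ n : ℕ, 2 ≤ n → ∃ N : ℕ,
      (N : ℝ) ≤ Real.exp (C * Real.log n ^ (sensR p.toReal / p.toReal)) ∧
      Suffices.{u} p n D N := by
  set P := p.toReal with hPd
  have hP : 1 ≤ P := hp1.le
  have hP0 : 0 < P := by linarith
  set γ := sensR P / P with hγd
  have hγ : 0 < γ := div_pos (by have := sensR_ge P hp1; linarith) hP0
  set r := D ^ (1 / 3 : ℝ) with hr
  have hr1 : 1 < r := by rw [hr]; exact Real.one_lt_rpow hD (by norm_num)
  have hr3 : r ^ 3 = D := by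
    rw [hr, ← Real.rpow_natCast, ← Real.rpow_mul (by linarith)]
    norm_num
  set δ := (r - 1) / (r + 1) with hδd
  have hδ : 0 < δ := div_pos (by linarith) (by linarith)
  have hδ1 : δ < 1 := by rw [hδd, div_lt_one (by linarith)]; linarith
  have h1δ : 0 < 1 - δ := by linarith
  have hδr : (1 + δ) = r * (1 - δ) := by
    rw [hδd]; field_simp; ring
  obtain ⟨C, hC, hA⟩ := assemble P hp1 δ hδ hδ1
  obtain ⟨C', hC', hC2⟩ := t3_params P δ C γ hP hδ hδ1 hC hγ
  refine ⟨C', hC', fun n hn => ?_⟩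
  obtain ⟨N, hN0, hN1, hN2⟩ := hC2 n hn
  refine ⟨N, hN1, fun α _ μ X hX => ?_⟩
  let e : X ≃ Fin n := X.equivFinOfCardEq hX
  have hfinj : Function.Injective (fun i : Fin n => ((e.symm i : X) : Lp ℝ p μ)) :=
    Subtype.val_injective.comp e.symm.injective
  have : Nonempty (Fin n) := ⟨⟨0, by omega⟩⟩
  obtain ⟨m, g, hg⟩ := discretize_delta μ p hp (fun i : Fin n => ((e.symm i : X) : Lp ℝ p μ))
    hfinj δ hδ hδ1
  have hginj : Function.Injective g := by
    intro i j hij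
    have h7 := (hg i j).1
    rw [hij, sub_self, norm_zero] at h7
    have h8 : ‖((e.symm i : X) : Lp ℝ p μ) - ((e.symm j : X) : Lp ℝ p μ)‖ = 0 := by
      apply le_antisymm _ (norm_nonneg _)
      by_contra h9
      push Not at h9
      have := mul_pos (show 0 < 1 - δ by linarith) h9
      linarith
    exact hfinj (sub_eq_zero.mp (norm_eq_zero.mp h8))
  have hd0 : ∀ x : Fin n, ‖g x - g x‖ = 0 := fun x => by simp
  have hdp : ∀ x y : Fin n, x ≠ y → 0 < ‖g x - g y‖ := fun x y hxy =>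
    norm_pos_iff.2 (sub_ne_zero.2 (fun h => hxy (hginj h)))
  obtain ⟨Ω, hΩ, w, Ψ, B, hw0, hw1, hB0, hB1, hΨ, hlow, hup⟩ :=
    hA (X := Fin n) (I := Fin m) (fun x k => g x k) (fun x y => ‖g x - g y‖)
      (fun x y => by
        rw [hPd, pilp_rpow hp (g x - g y)]
        rfl)
      hd0 hdp (fun x y => norm_sub_rev _ _) (fun x y z => norm_sub_le_norm_sub_add_norm_sub _ _ _)
  rw [Fintype.card_fin] at hB1
  obtain ⟨F, hF⟩ := samp_embed p hp w hw0 hw1 Ψ (fun x y => ‖g x - g y‖) hd0 hdp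
    (Real.exp (C * (1 + Real.log n) ^ γ)) (Real.exp_pos _)
    (fun ω x y => (hΨ ω x y).trans (mul_le_mul_of_nonneg_right hB1 (norm_nonneg _)))
    (1 - δ) (1 + δ) h1δ hlow hup δ hδ hδ1.le N hN0 (by rw [Fintype.card_fin]; exact hN2)
  refine ⟨fun x => F (e x), (1 - δ) ^ 3, by positivity, fun x y => ?_⟩
  obtain ⟨a1, a2⟩ := hF (e x) (e y)
  obtain ⟨b1, b2⟩ := hg (e x) (e y)
  simp only [Equiv.symm_apply_apply] at b1 b2
  rw [← hPd] at a1 a2
  set t := ‖(x : Lp ℝ p μ) - (y : Lp ℝ p μ)‖ with ht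
  set d := ‖g (e x) - g (e y)‖ with hd
  have ht0 : 0 ≤ t := norm_nonneg _
  have hdn : 0 ≤ d := norm_nonneg _
  have c1 : (1 - δ) ^ 2 * d ≤ ‖F (e x) - F (e y)‖ := by
    refine (Real.rpow_le_rpow_iff (by positivity) (norm_nonneg _) hP0).1 (le_trans ?_ a1)
    rw [Real.mul_rpow (by positivity) hdn]
    apply mul_le_mul_of_nonneg_right _ (by positivity)
    calc ((1 - δ) ^ 2) ^ P ≤ ((1 - δ) ^ 2) ^ (1:ℝ) := by
          apply Real.rpow_le_rpow_of_exponent_ge (by positivity) _ hP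
          nlinarith
      _ = (1 - δ) * (1 - δ) := by rw [Real.rpow_one]; ring
  have c2 : ‖F (e x) - F (e y)‖ ≤ (1 + δ) ^ 2 * d := by
    refine (Real.rpow_le_rpow_iff (norm_nonneg _) (by positivity) hP0).1 (a2.trans ?_)
    rw [Real.mul_rpow (by positivity) hdn]
    apply mul_le_mul_of_nonneg_right _ (by positivity)
    calc (1 + δ) * (1 + δ) = ((1 + δ) ^ 2) ^ (1:ℝ) := by rw [Real.rpow_one]; ring
      _ ≤ ((1 + δ) ^ 2) ^ P := by
          apply Real.rpow_le_rpow_of_exponent_le _ hP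
          nlinarith
  constructor
  · calc (1 - δ) ^ 3 * t = (1 - δ) ^ 2 * ((1 - δ) * t) := by ring
      _ ≤ (1 - δ) ^ 2 * d := by gcongr
      _ ≤ _ := c1
  · calc _ ≤ (1 + δ) ^ 2 * d := c2
      _ ≤ (1 + δ) ^ 2 * ((1 + δ) * t) := by gcongr
      _ = r ^ 3 * (1 - δ) ^ 3 * t := by rw [hδr]; ring
      _ = _ := by rw [hr3]

end Vale.Agent.P249
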