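import Mathlib
import Vale.Agent.P249.Defs
import Vale.Agent.P249.Main
import Vale.Agent.P249.T3.Upper

open MeasureTheory Filter
open scoped ENNReal

namespace Vale.Agent.P249

universe u

/-- the exponent `sensR P / P` in closed form -/
theorem sens_exponent (P : ℝ) (hP : 1 < P) : sensR P / P =
    if 2 ≤ P then 1 - (P - 1) / P ^ 2 else 1 - (P - 1) ^ 2 / (2 * P) := by
  have hP0 : P ≠ 0 := by linarith
  unfold sensR sepR
  split_ifs with h
  · field_simp; ring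
  · field_simp; ring

theorem t3_rpow_littleO (a b : ℝ) (h : a < b) :
    (fun x : ℝ => x ^ a) =o[atTop] (fun x : ℝ => x ^ b) := by
  apply Asymptotics.isLittleO_of_tendsto'
  · filter_upwards [eventually_gt_atTop (0:ℝ)] with x hx h
    exact absurd h (Real.rpow_pos_of_pos hx _).ne'
  · have h5 := tendsto_rpow_neg_atTop (show (0:ℝ) < b - a by linarith)
    refine h5.congr' ?_
    filter_upwards [eventually_gt_atTop (0:ℝ)] with x hx
    rw [show -(b - a) = a - b by ring, Real.rpow_sub hx]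

theorem t3_dim (p : ℝ≥0∞) [Fact (1 ≤ p)] (hp : p ≠ ∞) (hp1 : 1 < p.toReal) (D : ℝ)
    (hD : 1 < D) :
    ∃ C : ℝ, 0 < C ∧ ∀ n : ℕ, 2 ≤ n → Suffices.{u} p n D (dimLp.{u} p n D) ∧
      (dimLp.{u} p n D : ℝ) ≤ Real.exp (C * Real.log n ^ (sensR p.toReal / p.toReal)) := by
  obtain ⟨C, hC, h⟩ := t3_upper.{u} p hp hp1 D hD
  refine ⟨C, hC, fun n hn => ?_⟩
  obtain ⟨N, hN, hS⟩ := h n hn
  obtain ⟨h1, h2⟩ := dimLp_spec.{u} p n N D hS
  refine ⟨h1, le_trans ?_ hN⟩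
  exact_mod_cast h2

theorem t3_pow (p : ℝ≥0∞) [Fact (1 ≤ p)] (hp : p ≠ ∞) (hp1 : 1 < p.toReal) (D : ℝ)
    (hD : 1 < D) (ε : ℝ) (hε : 0 < ε) :
    ∀ᶠ n : ℕ in atTop, (dimLp.{u} p n D : ℝ) ≤ (n : ℝ) ^ ε := by
  obtain ⟨C, hC, h⟩ := t3_dim.{u} p hp hp1 D hD
  set γ := sensR p.toReal / p.toReal with hγ
  have hγ1 : γ < 1 := by
    rw [hγ, div_lt_one (by linarith)]
    exact sensR_lt _ hp1
  have t1 : Tendsto (fun n : ℕ => Real.log n) atTop atTop :=
    Real.tendsto_log_atTop.comp tendsto_natCast_atTop_atTop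
  have h2 : (fun x : ℝ => x ^ γ) =o[atTop] (fun x : ℝ => x ^ (1:ℝ)) :=
    t3_rpow_littleO _ _ hγ1
  have h3 := (h2.comp_tendsto t1).bound (show 0 < ε / C by positivity)
  filter_upwards [h3, t1.eventually_ge_atTop 1, eventually_ge_atTop 2] with n hn hn1 hn2
  have hn0 : (0:ℝ) < n := by
    have : 0 < n := by omega
    exact_mod_cast this
  simp only [Function.comp, Real.rpow_one] at hn
  rw [Real.norm_of_nonneg (by positivity), Real.norm_of_nonneg (by linarith)] at hn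
  refine (h n hn2).2.trans ?_
  rw [Real.rpow_def_of_pos hn0]
  apply Real.exp_le_exp.2
  have h4 := mul_le_mul_of_nonneg_left hn hC.le
  have h5 : C * (ε / C * Real.log n) = Real.log n * ε := by field_simp
  linarith

theorem t3_littleO (p : ℝ≥0∞) [Fact (1 ≤ p)] (hp : p ≠ ∞) (hp1 : 1 < p.toReal) (D : ℝ)
    (hD : 1 < D) :
    (fun n : ℕ => (dimLp.{u} p n D : ℝ)) =o[atTop] (fun n : ℕ => (n : ℝ)) := by
  have h1 := t3_pow.{u} p hp hp1 D hD (1 / 2) (by norm_num)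
  have h2 : (fun n : ℕ => (dimLp.{u} p n D : ℝ)) =O[Filter.atTop]
      (fun n : ℕ => (n : ℝ) ^ (1 / 2 : ℝ)) := by
    apply Asymptotics.IsBigO.of_bound 1
    filter_upwards [h1] with n hn
    rw [one_mul, Real.norm_of_nonneg (Nat.cast_nonneg _),
      Real.norm_of_nonneg (Real.rpow_nonneg (Nat.cast_nonneg _) _)]
    exact hn
  have h3 : (fun x : ℝ => x ^ (1 / 2 : ℝ)) =o[Filter.atTop] (fun x : ℝ => x) := by
    have h4 : (fun x : ℝ => x ^ (1 / 2 : ℝ)) =o[atTop] (fun x : ℝ => x ^ (1:ℝ)) :=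
      t3_rpow_littleO _ _ (by norm_num)
    simpa using h4
  exact h2.trans_isLittleO (h3.comp_tendsto (tendsto_natCast_atTop_atTop (R := ℝ)))

end Vale.Agent.P249
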